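import Vale.Agent.P354XV.Defs
import Vale.Agent.P354XD.Base
import Vale.Agent.P354RK.Comp

/-!
NAT: the natural fields r, l, n, Z, A of a metric near Kerr as explicit smooth functions of the jet
of the metric. Definitions and exact statements.
-/

set_option linter.all false

open scoped ContDiff
open Set Filter Topology Matrix Complex

noncomputable section

namespace Vale.Agent.P354YN

open Vale.Agent.P354n (R4 mink)
open Vale.Agent.P354R (Met Vac Pull Del)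
open Vale.Agent.P354RC (bs cv Gm Rm)
open Vale.Agent.P354XD (tb)
open Vale.Agent.P354RK (c2 rmA)
open Vale.Agent.P354XE (Tw Bd gin rd eT Lo Om)
open Vale.Agent.P354XV (Jet jet Sig Lv)

/-! ### Jets -/

/-- The truncation of a jet, and the jet of the derivative along the coordinate a. -/
def tr {k : ℕ} (x : Jet (k + 1)) : Jet k := fun i => x i.castSucc
def sh {k : ℕ} (a : Fin 4) (x : Jet (k + 1)) : Jet k := fun i α => x i.succ (Fin.cons a α)

/-- The derivative along the coordinate a of a function of the jet. -/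
def dj {k : ℕ} {F : Type} [NormedAddCommGroup F] [NormedSpace ℝ F] (Φ : Jet k → F)
    (x : Jet (k + 1)) (a : Fin 4) : F := fderiv ℝ Φ (tr x) (sh a x)

abbrev V4 : Type := Fin 4 → ℝ
abbrev C4 : Type := Fin 4 → ℂ
abbrev N4 : Type := Matrix (Fin 4) (Fin 4) ℝ
abbrev M4 : Type := Matrix (Fin 4) (Fin 4) ℂ
abbrev M6 : Type := Matrix (Fin 6) (Fin 6) ℂ

/-- Components of a vector, and the vector with given components. -/
def co (v : R4) : V4 := ![v.1, v.2.1, v.2.2.1, v.2.2.2]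
def vc (u : V4) : R4 := (u 0, u 1, u 2, u 3)

/-- The metric, the metric product, the connection and the curvature. -/
def g0 {k : ℕ} (x : Jet k) : N4 := Matrix.of (x 0 Fin.elim0)
def ip {k : ℕ} (x : Jet k) (u v : R4) : ℝ := co u ⬝ᵥ (g0 x *ᵥ co v)
def GJ {k : ℕ} (x : Jet (k + 1)) (u v : R4) : R4 :=
  vc fun d => ∑ a, ∑ b, c2 ((g0 x)⁻¹ : N4) (fun e => g0 (sh e x)) a b d * co u a * co v b
def RJ (x : Jet 2) : Fin 4 → Fin 4 → Fin 4 → Fin 4 → ℝ :=
  rmA ((g0 x)⁻¹ : N4) (fun e => g0 (sh e x)) fun e f => g0 (sh f (sh e x))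

/-! ### The self dual Weyl operator on bivectors and its simple eigenvalue -/

/-- The six pairs, the second compound matrix, the bivector of u and v, the antisymmetric matrix
of a bivector, and the permutation symbol. -/
def p1 : Fin 6 → Fin 4 := ![0, 0, 0, 1, 1, 2]
def p2 : Fin 6 → Fin 4 := ![1, 2, 3, 2, 3, 3]
def L2 (A : M4) : M6 := fun i j => A (p1 i) (p1 j) * A (p2 i) (p2 j) - A (p1 i) (p2 j) * A (p2 i) (p1 j)
def wg (u v : C4) : Fin 6 → ℂ := fun i => u (p1 i) * v (p2 i) - u (p2 i) * v (p1 i)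
def am (H : Fin 6 → ℂ) : M4 :=
  !![0, H 0, H 1, H 2; -H 0, 0, H 3, H 4; -H 1, -H 3, 0, H 5; -H 2, -H 4, -H 5, 0]
def eps : M6 := !![0, 0, 0, 0, 0, 1; 0, 0, 0, 0, -1, 0; 0, 0, 0, 1, 0, 0; 0, 0, 1, 0, 0, 0;
  0, -1, 0, 0, 0, 0; 1, 0, 0, 0, 0, 0]

/-- The operator; h is the inverse metric, u the inverse of the volume. -/
def Wp (h : M4) (u : ℂ) (R : M6) : M6 := (1 / 2 : ℂ) • ((L2 h + (I * u) • eps) * R)

theorem ph_ex : ∃ φ : ℂ → ℂ, ∃ δ > 0, (∀ s ∈ Metric.ball (1 : ℂ) δ, ContDiffAt ℂ ω φ s ∧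
    φ s ^ 3 = s * (3 * φ s + 2) ∧ ‖φ s - 2‖ < 1 / 4) ∧
    ∀ᶠ y in 𝓝 (2 : ℂ), φ (y ^ 3 / (3 * y + 2)) = y := by
  have c : ContDiffAt ℂ ω (fun y : ℂ => y ^ 3 / (3 * y + 2)) 2 := by
    refine ContDiffAt.div (by fun_prop) (by fun_prop) (by norm_num)
  have d : HasDerivAt (fun y : ℂ => y ^ 3 / (3 * y + 2)) (9 / 8) 2 := by
    have := ((hasDerivAt_pow 3 (2 : ℂ)).div (((hasDerivAt_id (2 : ℂ)).const_mul 3).add_const 2)
      (by norm_num))
    exact this.congr_deriv (by norm_num)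
  have d' := d.hasFDerivAt_equiv (by norm_num)
  have e : (2 : ℂ) ^ 3 / (3 * 2 + 2) = 1 := by norm_num
  have k := c.to_localInverse d' (by simp)
  have s := c.hasStrictFDerivAt' d' (by simp)
  have l : ∀ᶠ y in 𝓝 (2 : ℂ), c.localInverse d' (by simp) (y ^ 3 / (3 * y + 2)) = y :=
    s.eventually_left_inverse
  have r : ∀ᶠ z in 𝓝 ((2 : ℂ) ^ 3 / (3 * 2 + 2)), c.localInverse d' (by simp) z ^ 3 /
      (3 * c.localInverse d' (by simp) z + 2) = z := s.eventually_right_inverse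
  have v := l.self_of_nhds
  generalize c.localInverse d' _ = φ at k l r v
  simp only [e] at k r v
  have t : ∀ᶠ z in 𝓝 (1 : ℂ), ‖φ z - 2‖ < 1 / 4 := by
    have := k.continuousAt.eventually (Metric.ball_mem_nhds (φ 1) (show (0 : ℝ) < 1 / 4 by norm_num))
    simpa only [Metric.mem_ball, dist_eq_norm, v] using this
  obtain ⟨δ, h, h'⟩ := Metric.eventually_nhds_iff_ball.1 ((k.eventually (by simp)).and (r.and t))
  refine ⟨φ, δ, h, fun z hz => ⟨(h' z hz).1, ?_, (h' z hz).2.2⟩, l⟩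
  obtain ⟨-, a, b⟩ := h' z hz
  refine (div_eq_iff fun o => ?_).1 a
  have : φ z - 2 = ((-(8 / 3) : ℝ) : ℂ) := by push_cast; linear_combination o / 3
  rw [this, norm_real] at b
  norm_num at b

/-- The root y near 2 of y^3 = s (3 y + 2), for s in the ball of radius d0 around 1. -/
def ph : ℂ → ℂ := ph_ex.choose
def d0 : ℝ := ph_ex.choose_spec.choose

/-- The invariants, the simple eigenvalue 2 Psi2, and the projection to its eigenline. -/
def iI (W : M6) : ℂ := (W * W).trace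
def iJ (W : M6) : ℂ := (W * W * W).trace
def iS (W : M6) : ℂ := iI W ^ 3 / (6 * iJ W ^ 2)
def lam (W : M6) : ℂ := iJ W / iI W * ph (iS W)
def Pj (W : M6) : M6 := (lam W * (3 * lam W ^ 2 - iI W / 2))⁻¹ •
  (W * (W * W + lam W • W + (lam W ^ 2 - iI W / 2) • (1 : M6)))

/-- Complexification of matrices and vectors, and real parts. -/
def cM (A : N4) : M4 := fun a b => (A a b : ℂ)
def cV (u : V4) : C4 := fun a => (u a : ℂ)
def rM (A : M4) : N4 := fun a b => (A a b).re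
def rV (u : C4) : V4 := fun a => (u a).re

/-- The square of the product of F with the unit eigenbivector, and the eigenbivector as an
endomorphism, with the sign for which the product with F has positive real part. -/
def qq (g : M4) (W : M6) (F : Fin 6 → ℂ) : ℂ := -2 * ((Pj W *ᵥ F) ⬝ᵥ (L2 g *ᵥ F))
def Ze (g : M4) (W : M6) (F : Fin 6 → ℂ) : M4 :=
  (-2 / qq g W F ^ (1 / 2 : ℂ)) • (am (Pj W *ᵥ F) * g)

/-! ### The natural fields; m is the reference mass, w fixes the time orientation -/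

def WJ (x : Jet 2) : M6 :=
  Wp (cM (g0 x)⁻¹) (√(-(g0 x)⁻¹.det) : ℝ) fun i j => (RJ x (p1 i) (p2 i) (p1 j) (p2 j) : ℂ)

/-- The complex radius (- m / Psi2)^(1/3) and its gradient. -/
def YJ (m : ℝ) (x : Jet 2) : ℂ := (-2 * m / lam (WJ x)) ^ (1 / 3 : ℂ)
def gr (m : ℝ) (x : Jet 3) : C4 := cM (g0 x)⁻¹ *ᵥ dj (YJ m) x

/-- Mass, jet, vector. -/
abbrev A3 : Type := ℝ × Jet 3 × R4
abbrev A4 : Type := ℝ × Jet 4 × R4
def dn (x : A4) : A3 := (x.1, tr x.2.1, x.2.2)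

def vJ (x : A3) : V4 := rV (gr x.1 x.2.1)
def FJ (x : A3) : Fin 6 → ℂ := wg (cV (co x.2.2)) (cV (vJ x))
def qJ (x : A3) : ℂ := qq (cM (g0 x.2.1)) (WJ (tr x.2.1)) (FJ x)
def ZE (x : A3) : M4 := Ze (cM (g0 x.2.1)) (WJ (tr x.2.1)) (FJ x)
def pl (x : A3) : R4 := vc (((1 / 2 : ℝ) • (rM (ZE x) * rM (ZE x) - rM (ZE x))) *ᵥ vJ x)
def pn (x : A3) : R4 := vc (((1 / 2 : ℝ) • (rM (ZE x) * rM (ZE x) + rM (ZE x))) *ᵥ vJ x)
def muJ (x : A3) : ℝ := ip x.2.1 (vc (vJ x)) (pl x)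
def lJ (x : A3) : R4 := (muJ x)⁻¹ • pl x
def nJ (x : A3) : R4 := -((muJ x)⁻¹ • pn x)
def zJ (x : A3) : R4 := -vc (rV (ZE x *ᵥ gr x.1 x.2.1))

/-- The covariant derivative of the natural field F along v. -/
def nab (F : A3 → R4) (x : A4) (v : R4) : R4 :=
  ∑ a, co v a • dj (fun y => F (x.1, y, x.2.2)) x.2.1 a + GJ x.2.1 v (F (dn x))

/-- The antisymmetric endomorphism which maps F to its acceleration; F2 is the other null field. -/
def AJ (F F2 : A3 → R4) (x : A4) (v : R4) : R4 :=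
  muJ (dn x) • (ip x.2.1 (nab F x (F (dn x))) v • F2 (dn x) -
    ip x.2.1 (F2 (dn x)) v • nab F x (F (dn x)))

/-- The admissible jets. -/
def U2 : Set (ℝ × Jet 2) := {x | 0 < x.1 ∧ (g0 x.2).det < 0 ∧ iJ (WJ x.2) ≠ 0 ∧
  iS (WJ x.2) ∈ Metric.ball 1 d0 ∧ ‖iS (WJ x.2) - 1‖ < 1 / 4 ∧ -2 * x.1 / lam (WJ x.2) ∈ slitPlane}
def U3 : Set A3 := {x | (x.1, tr x.2.1) ∈ U2 ∧ qJ x ∈ slitPlane ∧ 0 < muJ x}

/-- The fields of a metric g. -/
def Ad (m : ℝ) (g : Tw) (w p : R4) : Prop := (m, jet 3 g p, w) ∈ U3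
def YN (m : ℝ) (g : Tw) (p : R4) : ℂ := YJ m (jet 2 g p)
def rN (m : ℝ) (g : Tw) (p : R4) : ℝ := (YN m g p).re
def qN (m : ℝ) (g : Tw) (w p : R4) : ℂ := qJ (m, jet 3 g p, w)
def mN (m : ℝ) (g : Tw) (w p : R4) : ℝ := muJ (m, jet 3 g p, w)
def lN (m : ℝ) (g : Tw) (w p : R4) : R4 := lJ (m, jet 3 g p, w)
def nN (m : ℝ) (g : Tw) (w p : R4) : R4 := nJ (m, jet 3 g p, w)
def zN (m : ℝ) (g : Tw) (w p : R4) : R4 := zJ (m, jet 3 g p, w)
def aL (m : ℝ) (g : Tw) (w p : R4) : R4 → R4 := AJ lJ nJ (m, jet 4 g p, w)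
def aN (m : ℝ) (g : Tw) (w p : R4) : R4 → R4 := AJ nJ lJ (m, jet 4 g p, w)

/-- The ingoing principal null field of Kerr. -/
def No (p : R4) : R4 := (1, -((rd p)⁻¹ • p.2))

/-! ### The statements -/

/-- JET: the calculus of jets. -/
def JET : Prop :=
  (∀ k (g : Tw) p, (∀ u v, ContDiffAt ℝ ∞ (fun x => g x u v) p) → ContDiffAt ℝ ∞ (jet k g) p ∧
    tr (jet (k + 1) g p) = jet k g p ∧
    ∀ a, fderiv ℝ (jet k g) p (bs a) = sh a (jet (k + 1) g p)) ∧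
  (∀ k g D p, IsOpen D → Met g D → p ∈ D → (∀ u v, ip (jet k g p) u v = g p u v) ∧
    ∀ u v, GJ (jet (k + 1) g p) u v = Gm (tb g) p u v) ∧
  ∀ k M a (t : ℝ) p, jet k (gin M a) (p + t • eT) = jet k (gin M a) p

/-- SMO: the admissible set is open and the fields are smooth functions of the jet. -/
def SMO : Prop :=
  IsOpen U2 ∧ IsOpen U3 ∧ ContDiffOn ℝ ∞ (fun x : ℝ × Jet 2 => YJ x.1 x.2) U2 ∧
  ContDiffOn ℝ ∞ muJ U3 ∧ ContDiffOn ℝ ∞ lJ U3 ∧ ContDiffOn ℝ ∞ nJ U3 ∧ ContDiffOn ℝ ∞ zJ U3 ∧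
  (∀ F, ContDiffOn ℝ ∞ F U3 → ContDiffOn ℝ ∞ (fun x : A4 × R4 => nab F x.1 x.2) {x | dn x.1 ∈ U3}) ∧
  ContDiffOn ℝ ∞ (fun x : A4 × R4 => AJ lJ nJ x.1 x.2) {x | dn x.1 ∈ U3} ∧
  ContDiffOn ℝ ∞ (fun x : A4 × R4 => AJ nJ lJ x.1 x.2) {x | dn x.1 ∈ U3}

/-- The properties of the fields at an admissible point of a vacuum metric. -/
structure Fld (m : ℝ) (g : Tw) (w p : R4) : Prop where
  ll : g p (lN m g w p) (lN m g w p) = 0
  nn : g p (nN m g w p) (nN m g w p) = 0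
  ln : g p (lN m g w p) (nN m g w p) = -(mN m g w p)⁻¹
  pos : 0 < mN m g w p
  lr : fderiv ℝ (rN m g) p (lN m g w p) = 1
  nr : fderiv ℝ (rN m g) p (nN m g w p) = -1
  fut : g p (lN m g w p + nN m g w p) w < 0
  ind : ∀ w', g p (lN m g w p + nN m g w p) w' < 0 → Ad m g w' p ∧ mN m g w' p = mN m g w p ∧
    lN m g w' p = lN m g w p ∧ nN m g w' p = nN m g w p ∧ zN m g w' p = zN m g w p ∧
    aL m g w' p = aL m g w p ∧ aN m g w' p = aN m g w p
  al : aL m g w p (lN m g w p) =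
    fderiv ℝ (lN m g w) p (lN m g w p) + Gm (tb g) p (lN m g w p) (lN m g w p)
  an : aN m g w p (nN m g w p) =
    fderiv ℝ (nN m g w) p (nN m g w p) + Gm (tb g) p (nN m g w p) (nN m g w p)
  lin : IsLinearMap ℝ (aL m g w p) ∧ IsLinearMap ℝ (aN m g w p)
  anti : ∀ u v, g p (aL m g w p u) v = -g p u (aL m g w p v) ∧
    g p (aN m g w p u) v = -g p u (aN m g w p v)

def FLD : Prop := ∀ m g D w p, Lv g D → p ∈ D → Ad m g w p → Fld m g w p

/-- NATU: naturality under isometries which respect the orientation. -/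
def NATU : Prop :=
  ∀ m f g' D' g D p w, Pull f g' D' g D → Lv g D → p ∈ D' →
    0 < LinearMap.det (fderiv ℝ f p : R4 →ₗ[ℝ] R4) →
    iI (WJ (jet 2 g' p)) = iI (WJ (jet 2 g (f p))) ∧ iJ (WJ (jet 2 g' p)) = iJ (WJ (jet 2 g (f p))) ∧
    YN m g' p = YN m g (f p) ∧ (Ad m g' w p ↔ Ad m g (fderiv ℝ f p w) (f p)) ∧ (Ad m g' w p →
      qN m g' w p = qN m g (fderiv ℝ f p w) (f p) ∧ mN m g' w p = mN m g (fderiv ℝ f p w) (f p) ∧
      fderiv ℝ f p (lN m g' w p) = lN m g (fderiv ℝ f p w) (f p) ∧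
      fderiv ℝ f p (nN m g' w p) = nN m g (fderiv ℝ f p w) (f p) ∧
      fderiv ℝ f p (zN m g' w p) = zN m g (fderiv ℝ f p w) (f p) ∧
      (∀ F ∈ ({lJ, nJ, zJ} : Set (A3 → R4)), ∀ v, fderiv ℝ f p (nab F (m, jet 4 g' p, w) v) =
        nab F (m, jet 4 g (f p), fderiv ℝ f p w) (fderiv ℝ f p v)) ∧ ∀ v,
      fderiv ℝ f p (aL m g' w p v) = aL m g (fderiv ℝ f p w) (f p) (fderiv ℝ f p v) ∧
      fderiv ℝ f p (aN m g' w p v) = aN m g (fderiv ℝ f p w) (f p) (fderiv ℝ f p v))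

/-- KERR: the values for Kerr outside the horizon; k = (m / M)^(1/3). -/
def KERR : Prop :=
  ∀ (m M a k : ℝ) p w, 0 < k → k ^ 3 * M = m → |a| < M → P354I.rp M a < rd p →
    gin M a p (Lo M a p + No p) w < 0 → Ad m (gin M a) w p ∧ iS (WJ (jet 2 (gin M a) p)) = 1 ∧
      YN m (gin M a) p = k * (rd p - I * a * (p.2.2.2 / rd p : ℝ)) ∧
      mN m (gin M a) w p = k ^ 2 * Del M a (rd p) / (2 * P354I.Sg a (rd p) (P354XE.xs p)) ∧
      lN m (gin M a) w p = k⁻¹ • Lo M a p ∧ nN m (gin M a) w p = k⁻¹ • No p ∧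
      zN m (gin M a) w p = k • eT ∧ aL m (gin M a) w p = 0 ∧ aN m (gin M a) w p = 0

/-! ### Null frames -/

/-- The complex extensions of the metric, of the curvature and of the differential of Y. -/
def gC (g : Tw) (p : R4) (u v : C4) : ℂ := ∑ a, ∑ b, (g p (bs a) (bs b) : ℂ) * u a * v b
def RC (g : Tw) (p : R4) (u v s t : C4) : ℂ :=
  ∑ a, ∑ b, ∑ c, ∑ d, (Rm (tb g) p (bs a) (bs b) (bs c) (bs d) : ℂ) * u a * v b * s c * t d
def dC (Y : R4 → ℂ) (p : R4) (u : C4) : ℂ := ∑ a, u a * fderiv ℝ Y p (bs a)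

/-- A null frame l, n, s, conj s with the orientation of the principal frame of Kerr. -/
structure Nf (g : Tw) (p : R4) (l n : V4) (s : C4) : Prop where
  ll : gC g p (cV l) (cV l) = 0
  nn : gC g p (cV n) (cV n) = 0
  ss : gC g p s s = 0
  ln : gC g p (cV l) (cV n) = -1
  ls : gC g p (cV l) s = 0
  ns : gC g p (cV n) s = 0
  sb : gC g p s (star s) = 1
  ori : 0 < (Matrix.of ![cV l, cV n, s, star s]).det.im

/-- The frame is transverse, Psi2 = q, and Psi0 Psi4 = t q^2. -/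
structure Tf (g : Tw) (p : R4) (l n : V4) (s : C4) (q t : ℂ) : Prop extends Nf g p l n s where
  h1 : RC g p (cV l) (cV n) (cV l) s = 0
  h3 : RC g p (cV n) (cV l) (cV n) (star s) = 0
  h2 : RC g p (cV n) (star s) (cV l) s = q
  h04 : RC g p (cV l) s (cV l) s * RC g p (cV n) (star s) (cV n) (star s) = t * q ^ 2

/-- The signs of the frame: l r and n r have opposite signs, and w is future for l / (l r). -/
def Sg (m : ℝ) (g : Tw) (w p : R4) (l n : V4) : Prop :=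
  fderiv ℝ (rN m g) p (vc l) * fderiv ℝ (rN m g) p (vc n) < 0 ∧
    g p (vc n) w * fderiv ℝ (rN m g) p (vc l) < g p (vc l) w * fderiv ℝ (rN m g) p (vc n)

/-- FRM: the fields in a transverse frame. -/
def FRM : Prop :=
  (∀ m g D w p, Lv g D → p ∈ D → Ad m g w p → ∃ l n s q t, Tf g p l n s q t ∧
    lam (WJ (jet 2 g p)) = 2 * q ∧ Sg m g w p l n) ∧
  (∃ δ > 0, ∀ (m : ℝ) g D p l n s q t, Lv g D → p ∈ D → Tf g p l n s q t → ‖t‖ < δ → q ≠ 0 →
    lam (WJ (jet 2 g p)) = 2 * q ∧ (0 < m → -m / q ∈ slitPlane → (m, jet 2 g p) ∈ U2)) ∧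
  ∀ m g D w p l n s q t, Lv g D → p ∈ D → (m, jet 2 g p) ∈ U2 → Tf g p l n s q t →
    lam (WJ (jet 2 g p)) = 2 * q → Sg m g w p l n →
    Ad m g w p ∧ YN m g p = (-m / q) ^ (1 / 3 : ℂ) ∧
      mN m g w p = -(fderiv ℝ (rN m g) p (vc l) * fderiv ℝ (rN m g) p (vc n)) ∧
      lN m g w p = (fderiv ℝ (rN m g) p (vc l))⁻¹ • vc l ∧
      nN m g w p = -((fderiv ℝ (rN m g) p (vc n))⁻¹ • vc n) ∧
      zN m g w p = vc (rV (-(dC (YN m g) p (cV n) • cV l) + dC (YN m g) p (cV l) • cV n +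
        dC (YN m g) p (star s) • s - dC (YN m g) p s • star s))

end Vale.Agent.P354YN
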