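import Vale.Agent.P354YN.Defs

/-!
JET: the calculus of jets.
-/

set_option linter.all false
set_option maxSynthPendingDepth 3

open scoped ContDiff
open Set Filter Topology Matrix

noncomputable section

namespace Vale.Agent.P354YN

open Vale.Agent.P354n (R4)
open Vale.Agent.P354R (Met)
open Vale.Agent.P354RC (B2 bs cv Gm Rm C1 C1_ap Rp sum_bs Gm_add1 Gm_add2 Gm_smul1 Gm_smul2 at_fd)
open Vale.Agent.P354XD (tb rp_tb tb_bs)
open Vale.Agent.P354RK (c1 c2 rmA inv_comp lin_bs fd1 fd2)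
open Vale.Agent.P354XE (Tw gin eT xs rd dr dq kf)
open Vale.Agent.P354XV (Jet jet)

variable {g : Tw} {D : Set R4} {p : R4} {k : ℕ}

theorem co_eq (v : R4) (a : Fin 4) : co v a = cv a v := by
  fin_cases a <;> rfl

theorem vc_eq (u : V4) : vc u = ∑ a, u a • bs a := by
  simp [vc, bs, Fin.sum_univ_four]

theorem vc_co (v : R4) : vc (co v) = v := rfl

theorem co_vc (u : V4) : co (vc u) = u := by
  funext a
  fin_cases a <;> rfl

theorem ifd_at {f : R4 → ℝ} (hf : ContDiffAt ℝ ∞ f p) (n : ℕ) :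
    ContDiffAt ℝ ∞ (iteratedFDeriv ℝ n f) p :=
  hf.iteratedFDeriv_right (by exact_mod_cast le_top)

theorem jet_at (k : ℕ) (h : ∀ u v, ContDiffAt ℝ ∞ (fun x => g x u v) p) :
    ContDiffAt ℝ ∞ (jet k g) p :=
  contDiffAt_pi.2 fun n => contDiffAt_pi.2 fun α => contDiffAt_pi.2 fun _ => contDiffAt_pi.2 fun _ =>
    (ContinuousMultilinearMap.apply ℝ (fun _ : Fin n => R4) ℝ
      fun l => bs (α l)).contDiff.contDiffAt.comp p (ifd_at (h _ _) n)

theorem tr_jet (k : ℕ) (g : Tw) (p : R4) : tr (jet (k + 1) g p) = jet k g p := rfl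

theorem fd_pi {ι : Type} [Fintype ι] {V : ι → Type} [∀ i, NormedAddCommGroup (V i)]
    [∀ i, NormedSpace ℝ (V i)] {F : R4 → ∀ i, V i} (h : ContDiffAt ℝ ∞ F p) (v : R4) (i : ι) :
    fderiv ℝ F p v i = fderiv ℝ (fun x => F x i) p v := by
  rw [fderiv_apply (h.differentiableAt (by simp))]
  rfl

theorem fd_jet (k : ℕ) (h : ∀ u v, ContDiffAt ℝ ∞ (fun x => g x u v) p) (a : Fin 4) :
    fderiv ℝ (jet k g) p (bs a) = sh a (jet (k + 1) g p) := by
  funext n α i j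
  have h0 := jet_at k h
  have h1 := contDiffAt_pi.1 h0 n
  have h2 := contDiffAt_pi.1 h1 α
  rw [fd_pi h0, fd_pi h1, fd_pi h2, fd_pi (contDiffAt_pi.1 h2 i)]
  have := (((ContinuousMultilinearMap.apply ℝ (fun _ : Fin n => R4) ℝ
    fun l => bs (α l)).hasFDerivAt).comp p
    ((ifd_at (h (bs i) (bs j)) n).differentiableAt (by simp)).hasFDerivAt).fderiv
  exact congrArg (fun A : R4 →L[ℝ] ℝ => A (bs a)) this

theorem g0_jet (k : ℕ) (g : Tw) (p : R4) (a b : Fin 4) :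
    g0 (jet k g p) a b = tb g p (bs a) (bs b) := (tb_bs a b).symm

theorem g1_jet (hD : IsOpen D) (m : Met g D) (hp : p ∈ D) (k : ℕ) (e a b : Fin 4) :
    g0 (sh e (jet (k + 1) g p)) a b = fderiv ℝ (tb g) p (bs e) (bs a) (bs b) := by
  rw [fd1 ((rp_tb hD m).at hp)]
  simp only [tb_bs]
  exact iteratedFDeriv_one_apply (𝕜 := ℝ) (f := fun z => g z (bs a) (bs b)) (x := p)
    fun l => bs ((Fin.cons e Fin.elim0 : Fin 1 → Fin 4) l)

theorem g2_jet (hD : IsOpen D) (m : Met g D) (hp : p ∈ D) (k : ℕ) (e f a b : Fin 4) :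
    g0 (sh f (sh e (jet (k + 2) g p))) a b =
      fderiv ℝ (fderiv ℝ (tb g)) p (bs e) (bs f) (bs a) (bs b) := by
  have r := rp_tb hD m
  have e1 : (fun z => fderiv ℝ (tb g) z (bs f) (bs a) (bs b)) =ᶠ[𝓝 p]
      fun z => fderiv ℝ (fun y => g y (bs a) (bs b)) z (bs f) :=
    mem_of_superset (hD.mem_nhds hp) fun z hz => by
      simp only [mem_setOf_eq, fd1 (r.at hz), tb_bs]
  rw [fd2 (r.at hp), e1.fderiv_eq, P354RC.fd_ap0
    (at_fd ((m.smooth (bs a) (bs b)).contDiffAt (hD.mem_nhds hp)))]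
  exact iteratedFDeriv_two_apply (𝕜 := ℝ) (fun z => g z (bs a) (bs b)) p
    fun l => bs ((Fin.cons e (Fin.cons f Fin.elim0) : Fin 2 → Fin 4) l)

theorem ip_jet (hD : IsOpen D) (m : Met g D) (hp : p ∈ D) (k : ℕ) (u v : R4) :
    ip (jet k g p) u v = g p u v := by
  rw [(rp_tb hD m).eq p hp]
  conv_rhs => rw [← sum_bs u, ← sum_bs v]
  simp only [ip, dotProduct, mulVec, g0_jet, co_eq, map_sum, map_smul,
    ContinuousLinearMap.sum_apply, ContinuousLinearMap.smul_apply, smul_eq_mul, Finset.mul_sum]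
  rw [Finset.sum_comm]
  exact Finset.sum_congr rfl fun _ _ => Finset.sum_congr rfl fun _ _ => by ring

theorem g0_symm (hD : IsOpen D) (m : Met g D) (hp : p ∈ D) (k : ℕ) :
    (g0 (jet k g p))ᵀ = g0 (jet k g p) := by
  ext a b
  rw [transpose_apply, g0_jet, g0_jet, (rp_tb hD m).symm p hp]

theorem g0_det (hD : IsOpen D) (m : Met g D) (hp : p ∈ D) (k : ℕ) : (g0 (jet k g p)).det ≠ 0 := by
  intro h
  obtain ⟨v, h0, hv⟩ := exists_mulVec_eq_zero_iff.2 h
  refine h0 ?_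
  rw [← co_vc v, m.nondeg p hp (vc v) fun b => by
    rw [m.symm p hp, ← ip_jet hD m hp k, ip, co_vc, hv, dotProduct_zero]]
  funext a
  rw [co_eq, map_zero, Pi.zero_apply]

theorem gi_jet (hD : IsOpen D) (m : Met g D) (hp : p ∈ D) (k : ℕ) (i l : Fin 4) :
    ∑ n, (g0 (jet k g p))⁻¹ n l * tb g p (bs n) (bs i) = if i = l then 1 else 0 := by
  rw [← one_apply, ← mul_nonsing_inv _ (g0_det hD m hp k).isUnit, mul_apply]
  exact Finset.sum_congr rfl fun n _ => by rw [g0_jet, (rp_tb hD m).symm p hp, mul_comm]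

theorem gm_bs (hD : IsOpen D) (m : Met g D) (hp : p ∈ D) (k : ℕ) (a b : Fin 4) :
    Gm (tb g) p (bs a) (bs b) = ∑ d, c2 ((g0 (jet k g p))⁻¹ : N4)
      (fun e a b => fderiv ℝ (tb g) p (bs e) (bs a) (bs b)) a b d • bs d := by
  rw [Gm, inv_comp (rp_tb hD m) hp (gi_jet hD m hp k)]
  simp only [c2, c1, C1_ap]

theorem gj_jet (hD : IsOpen D) (m : Met g D) (hp : p ∈ D) (k : ℕ) (u v : R4) :
    GJ (jet (k + 1) g p) u v = Gm (tb g) p u v := by
  have e : (fun e => g0 (sh e (jet (k + 1) g p))) =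
      fun e a b => fderiv ℝ (tb g) p (bs e) (bs a) (bs b) := by
    funext e a b
    exact g1_jet hD m hp k e a b
  conv_rhs => rw [← sum_bs u, ← sum_bs v]
  rw [GJ, vc_eq, e]
  simp only [Fin.sum_univ_four, Gm_add1, Gm_add2, Gm_smul1, Gm_smul2, co_eq,
    gm_bs hD m hp (k + 1)]
  module

theorem rj_eq (hD : IsOpen D) (m : Met g D) (hp : p ∈ D) (a b c d : Fin 4) :
    RJ (jet 2 g p) a b c d = Rm (tb g) p (bs a) (bs b) (bs c) (bs d) := by
  have e1 : (fun e => g0 (sh e (jet 2 g p))) =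
      fun e a b => fderiv ℝ (tb g) p (bs e) (bs a) (bs b) := by
    funext e a b
    exact g1_jet hD m hp 1 e a b
  have e2 : (fun e f => g0 (sh f (sh e (jet 2 g p)))) =
      fun e f a b => fderiv ℝ (fderiv ℝ (tb g)) p (bs e) (bs f) (bs a) (bs b) := by
    funext e f a b
    exact g2_jet hD m hp 0 e f a b
  have e : ∀ a b c d, tb g p (Gm (tb g) p (bs a) (bs b)) (Gm (tb g) p (bs c) (bs d)) =
      ∑ n, c2 ((g0 (jet 2 g p))⁻¹ : N4)
        (fun a b c => fderiv ℝ (tb g) p (bs a) (bs b) (bs c)) c d n *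
        c1 (fun a b c => fderiv ℝ (tb g) p (bs a) (bs b) (bs c)) a b n := fun a b c d => by
    rw [(rp_tb hD m).gm hp, gm_bs hD m hp 2]
    simp only [map_sum, map_smul, smul_eq_mul, c1, ← C1_ap]
  rw [RJ, e1, e2, Rm, e, e]
  rfl

theorem gin_t (M a t : ℝ) (p : R4) : gin M a (p + t • eT) = gin M a p := by
  have e : xs (p + t • eT) = xs p := by simp [xs, eT]
  funext v w
  simp only [gin, kf, dr, dq, rd, e]

theorem jet_ok : JET :=
  ⟨fun k _ _ h => ⟨jet_at k h, rfl, fd_jet k h⟩,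
    fun k _ _ _ hD m hp => ⟨ip_jet hD m hp k, gj_jet hD m hp k⟩, fun k M a t p => by
      funext n α i j
      simp only [jet, ← iteratedFDeriv_comp_add_right, gin_t]⟩

end Vale.Agent.P354YN
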