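import Vale.Agent.P354YN.Ms

/-!
SMO: the admissible set is open and the natural fields are smooth functions of the jet.
-/

set_option linter.all false
set_option maxSynthPendingDepth 3

open scoped ContDiff
open Set Filter Topology Matrix Complex

noncomputable section

namespace Vale.Agent.P354YN

open Vale.Agent.P354n (R4)
open Vale.Agent.P354XV (Jet)

variable {X : Type} [NormedAddCommGroup X] [NormedSpace ℝ X] {x : X}

theorem ph_spec : ∀ s ∈ Metric.ball (1 : ℂ) d0, ContDiffAt ℂ ω ph s ∧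
    ph s ^ 3 = s * (3 * ph s + 2) ∧ ‖ph s - 2‖ < 1 / 4 := ph_ex.choose_spec.choose_spec.2.1

/-- The conditions on W in the admissible set. -/
structure Ok (W : M6) : Prop where
  j : iJ W ≠ 0
  s : iS W ∈ Metric.ball 1 d0
  s1 : ‖iS W - 1‖ < 1 / 4

theorem Ok.i {W : M6} (h : Ok W) : iI W ≠ 0 := fun e => by
  have := h.s1
  rw [iS, e] at this
  norm_num at this

theorem Ok.ph_ge {W : M6} (h : Ok W) : 7 / 4 < ‖ph (iS W)‖ := by
  have a := (ph_spec _ h.s).2.2
  have b := norm_sub_norm_le (2 : ℂ) (ph (iS W))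
  rw [norm_sub_rev, Complex.norm_two] at b
  linarith

theorem Ok.l {W : M6} (h : Ok W) : lam W ≠ 0 :=
  mul_ne_zero (div_ne_zero h.j h.i) (norm_pos_iff.1 (by linarith [h.ph_ge]))

theorem Ok.d {W : M6} (h : Ok W) : 3 * lam W ^ 2 - iI W / 2 ≠ 0 := by
  have a := h.i
  have b := h.j
  have e : 3 * lam W ^ 2 - iI W / 2 = 3 * (iJ W / iI W) ^ 2 * (ph (iS W) ^ 2 - iS W) := by
    rw [lam]
    generalize ph (iS W) = y
    rw [iS]
    field_simp
    ring
  rw [e]
  refine mul_ne_zero (mul_ne_zero (by norm_num) (pow_ne_zero 2 (div_ne_zero b a))) fun o => ?_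
  have c := norm_sub_norm_le (iS W) 1
  rw [norm_one, ← sub_eq_zero.1 o, norm_pow, sub_eq_zero.1 o] at c
  nlinarith [h.s1, h.ph_ge]

theorem u2_ok {z : ℝ × Jet 2} (h : z ∈ U2) : Ok (WJ z.2) := ⟨h.2.2.1, h.2.2.2.1, h.2.2.2.2.1⟩

section W

variable {W : X → M6} {g : X → M4} {F : X → Fin 6 → ℂ}

theorem MS.ii (a : MS W x) : SA (fun y => iI (W y)) x := (a.mul a).trace

theorem MS.ij (a : MS W x) : SA (fun y => iJ (W y)) x := ((a.mul a).mul a).trace

theorem MS.is (a : MS W x) (h : iJ (W x) ≠ 0) : SA (fun y => iS (W y)) x :=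
  SA.dv (a.ii.pow 3) (contDiffAt_const.mul (a.ij.pow 2))
    (mul_ne_zero (by norm_num) (pow_ne_zero 2 h))

theorem MS.la (a : MS W x) (h : Ok (W x)) : SA (fun y => lam (W y)) x :=
  (a.ij.dv a.ii h.i).mul
    ((((ph_spec _ h.s).1.of_le le_top).restrict_scalars ℝ).comp x (a.is h.j))

theorem MS.pj (a : MS W x) (h : Ok (W x)) : MS (fun y => Pj (W y)) x :=
  have l := a.la h
  MS.smul ((l.mul ((contDiffAt_const.mul (l.pow 2)).sub (a.ii.div_const 2))).inv
    (mul_ne_zero h.l h.d)) (a.mul (((a.mul a).add (MS.smul l a)).add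
      (MS.smul ((l.pow 2).sub (a.ii.div_const 2)) (ms_const 1))))

theorem qq_at (a : MS g x) (b : MS W x) (h : Ok (W x)) (c : SA F x) :
    SA (fun y => qq (g y) (W y) (F y)) x :=
  contDiffAt_const.mul (((b.pj h).mv c).dot (a.l2.mv c))

theorem ze_at (a : MS g x) (b : MS W x) (h : Ok (W x)) (c : SA F x)
    (q : qq (g x) (W x) (F x) ∈ slitPlane) : MS (fun y => Ze (g y) (W y) (F y)) x :=
  MS.smul (SA.dv contDiffAt_const ((qq_at a b h c).cpow q _)
    (cpow_ne_zero_iff.2 (.inl (slitPlane_ne_zero q)))) (((b.pj h).mv c).am.mul a)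

end W

theorem cond_at {z : ℝ × Jet 2} (h : z ∈ U2) :
    SA (fun y : ℝ × Jet 2 => -2 * (y.1 : ℂ) / lam (WJ y.2)) z :=
  SA.dv (contDiffAt_const.mul (SA.cx contDiffAt_fst))
    ((SA.wj contDiffAt_snd h.2.1.ne).la (u2_ok h)) (u2_ok h).l

theorem yj_at {z : ℝ × Jet 2} (h : z ∈ U2) : SA (fun y : ℝ × Jet 2 => YJ y.1 y.2) z :=
  (cond_at h).cpow h.2.2.2.2.2 _

theorem u2_open : IsOpen U2 := isOpen_iff_mem_nhds.2 fun z h => by
  have w : MS (fun y : ℝ × Jet 2 => WJ y.2) z := SA.wj contDiffAt_snd h.2.1.ne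
  have s := (w.is h.2.2.1).continuousAt
  filter_upwards [continuousAt_fst.eventually (lt_mem_nhds h.1),
    (SA.g0 (contDiffAt_snd (p := z))).det.continuousAt.eventually (gt_mem_nhds h.2.1),
    w.ij.continuousAt.eventually_ne h.2.2.1,
    s.eventually (Metric.isOpen_ball.mem_nhds h.2.2.2.1),
    (s.sub continuousAt_const).norm.eventually (gt_mem_nhds h.2.2.2.2.1),
    (cond_at h).continuousAt.eventually (isOpen_slitPlane.mem_nhds h.2.2.2.2.2)]
    with y a b c d e f using ⟨a, b, c, d, e, f⟩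

section A

variable {z : A3}

theorem j3 : SA (fun y : A3 => y.2.1) z := contDiffAt_snd.fst

theorem gr_at (h : (z.1, tr z.2.1) ∈ U2) : SA (fun y : A3 => gr y.1 y.2.1) z :=
  (j3.g0.inv h.2.1.ne).cm.mv (contDiffAt_pi.2 fun e =>
    dj_at (Φ := fun y : A3 => YJ y.1) ((yj_at h).comp (z, tr z.2.1)
      (contDiffAt_fst.fst.prodMk contDiffAt_snd)) j3 e)

theorem vj_at (h : (z.1, tr z.2.1) ∈ U2) : SA vJ z := (gr_at h).rv

theorem fj_at (h : (z.1, tr z.2.1) ∈ U2) : SA FJ z :=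
  (SA.co contDiffAt_snd.snd).cv.wg (vj_at h).cv

theorem wj3 (h : (z.1, tr z.2.1) ∈ U2) : MS (fun y : A3 => WJ (tr y.2.1)) z :=
  j3.tr.wj h.2.1.ne

theorem ok3 (h : (z.1, tr z.2.1) ∈ U2) : Ok (WJ (tr z.2.1)) := by
  simpa only using u2_ok h

theorem qj_at (h : (z.1, tr z.2.1) ∈ U2) : SA qJ z := by
  have := qq_at (j3 (z := z)).g0.cm (wj3 h) (ok3 h) (fj_at h)
  unfold qJ
  exact this

theorem zE_at (h : (z.1, tr z.2.1) ∈ U2) (q : qJ z ∈ slitPlane) : MS ZE z := by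
  unfold qJ at q
  have := ze_at (j3 (z := z)).g0.cm (wj3 h) (ok3 h) (fj_at h) q
  unfold ZE
  exact this

theorem pl_at (h : (z.1, tr z.2.1) ∈ U2) (q : qJ z ∈ slitPlane) : SA pl z :=
  have e := (zE_at h q).rm
  ((MS.smul contDiffAt_const ((e.mul e).sub e)).mv (vj_at h)).vc

theorem pn_at (h : (z.1, tr z.2.1) ∈ U2) (q : qJ z ∈ slitPlane) : SA pn z :=
  have e := (zE_at h q).rm
  ((MS.smul contDiffAt_const ((e.mul e).add e)).mv (vj_at h)).vc

theorem mu_at (h : (z.1, tr z.2.1) ∈ U2) (q : qJ z ∈ slitPlane) : SA muJ z :=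
  j3.ip (vj_at h).vc (pl_at h q)

theorem u3_open : IsOpen U3 := isOpen_iff_mem_nhds.2 fun z h => by
  filter_upwards [(contDiffAt_fst.prodMk j3.tr : SA (fun y : A3 => (y.1, tr y.2.1))
      z).continuousAt.eventually (u2_open.mem_nhds h.1),
    (qj_at h.1).continuousAt.eventually (isOpen_slitPlane.mem_nhds h.2.1),
    (mu_at h.1 h.2.1).continuousAt.eventually (lt_mem_nhds h.2.2)] with y a b c using ⟨a, b, c⟩

theorem lj_at (h : z ∈ U3) : SA lJ z := ((mu_at h.1 h.2.1).inv h.2.2.ne').smul (pl_at h.1 h.2.1)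

theorem nj_at (h : z ∈ U3) : SA nJ z :=
  (((mu_at h.1 h.2.1).inv h.2.2.ne').smul (pn_at h.1 h.2.1)).neg

theorem zj_at (h : z ∈ U3) : SA zJ z := ((zE_at h.1 h.2.1).mv (gr_at h.1)).rv.vc.neg

end A

section B

variable {a : X → A4} {v : X → R4} {F F2 : A3 → R4}

theorem dn_at (h : SA a x) : SA (fun y => dn (a y)) x :=
  h.fst.prodMk ((SA.tr h.snd.fst).prodMk h.snd.snd)

theorem nab_at (h : SA a x) (u : dn (a x) ∈ U3) (f : SA F (dn (a x))) (b : SA v x) :
    SA (fun y => nab F (a y) (v y)) x :=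
  (ContDiffAt.sum fun e _ => (b.co.ap e).smul (dj_at
    (Φ := fun y j => F ((a y).1, j, (a y).2.2)) (J := fun y => (a y).2.1)
    (f.comp (x, tr (a x).2.1) (h.fst'.fst.prodMk (contDiffAt_snd.prodMk h.fst'.snd.snd)))
    h.snd.fst e)).add (SA.gj h.snd.fst u.1.2.1.ne b (f.comp x (dn_at h)))

theorem aj_at (h : SA a x) (u : dn (a x) ∈ U3) (f : SA F (dn (a x))) (f2 : SA F2 (dn (a x)))
    (b : SA v x) : SA (fun y => AJ F F2 (a y) (v y)) x :=
  have n := nab_at h u f (f.comp x (dn_at h))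
  have m := f2.comp x (dn_at h)
  ((mu_at u.1 u.2.1).comp x (dn_at h)).smul
    (((SA.ip h.snd.fst n b).smul m).sub ((SA.ip h.snd.fst m b).smul n))

end B

theorem smo : SMO :=
  ⟨u2_open, u3_open, fun _ h => (yj_at h).contDiffWithinAt,
    fun _ h => (mu_at h.1 h.2.1).contDiffWithinAt, fun _ h => (lj_at h).contDiffWithinAt,
    fun _ h => (nj_at h).contDiffWithinAt, fun _ h => (zj_at h).contDiffWithinAt,
    fun _ f _ h => (nab_at contDiffAt_fst h (f.contDiffAt (u3_open.mem_nhds h))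
      contDiffAt_snd).contDiffWithinAt,
    fun _ h => (aj_at contDiffAt_fst h (lj_at h) (nj_at h) contDiffAt_snd).contDiffWithinAt,
    fun _ h => (aj_at contDiffAt_fst h (nj_at h) (lj_at h) contDiffAt_snd).contDiffWithinAt⟩

end Vale.Agent.P354YN
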