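import Vale.Agent.P354YN.Frame

/-!
FLD: the properties of the natural fields at an admissible point.
-/

set_option linter.all false
set_option maxSynthPendingDepth 3

open scoped ContDiff
open Set Filter Topology Matrix Complex

noncomputable section

namespace Vale.Agent.P354YN

open Vale.Agent.P354n (R4)
open Vale.Agent.P354RC (bs cv Gm at_df sum_bs fd_ap)
open Vale.Agent.P354XD (tb rp_tb gm_symm dh_eq)
open Vale.Agent.P354XE (Tw)
open Vale.Agent.P354XV (Jet jet Lv)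

variable {m : ℝ} {g : Tw} {D : Set R4} {p w : R4} (v : Lv g D) (hp : p ∈ D) (a : Ad m g w p)
include v hp a

/-- The pointwise part. -/
theorem fld0 : g p (lN m g w p) (lN m g w p) = 0 ∧ g p (nN m g w p) (nN m g w p) = 0 ∧
    g p (lN m g w p) (nN m g w p) = -(mN m g w p)⁻¹ ∧ fderiv ℝ (rN m g) p (lN m g w p) = 1 ∧
    fderiv ℝ (rN m g) p (nN m g w p) = -1 ∧ g p (lN m g w p + nN m g w p) w < 0 ∧
    ∀ w', g p (lN m g w p + nN m g w p) w' < 0 → Ad m g w' p ∧ mN m g w' p = mN m g w p ∧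
      lN m g w' p = lN m g w p ∧ nN m g w' p = nN m g w p ∧ zN m g w' p = zN m g w p := by
  obtain ⟨l, n, s, q, t, T, h2, o⟩ := frm.1 m g D w p v hp a
  have k := fun w' => frm.2.2 m g D w' p l n s q t v hp a.1 T h2
  obtain ⟨-, -, e1, e2, e3, e4⟩ := k w o
  have N := nf_iff.1 T.toNf
  have r := rp_tb v.isOpen v.met
  have re : ∀ x y : V4, ∀ c : ℝ, gm (GG g p) (cV x) (cV y) = c → tb g p (vc x) (vc y) = c :=
    fun x y c k => (r.eq p hp ..).symm.trans (ofReal_injective ((gm_re v hp ..).symm.trans k))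
  have a0 := left_ne_zero_of_mul o.1.ne
  have b0 := right_ne_zero_of_mul o.1.ne
  have f : ∀ w', g p (lN m g w p + nN m g w p) w' < 0 ↔ Sg m g w' p l n := fun w' => by
    have := o.1
    rw [Sg, and_iff_right this, e2, e3]
    simp only [r.eq p hp, map_add, map_neg, map_smul, ContinuousLinearMap.add_apply,
      ContinuousLinearMap.neg_apply, ContinuousLinearMap.smul_apply, smul_eq_mul]
    rw [← mul_lt_mul_left_of_neg this, ← sub_pos, ← sub_pos (b := tb g p (vc n) w' * _)]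
    refine Iff.of_eq (congrArg _ ?_)
    field_simp
    ring
  refine ⟨?_, ?_, ?_, ?_, ?_, (f w).2 o, fun w' h => ?_⟩
  · simp only [e2, r.eq p hp, map_smul, ContinuousLinearMap.smul_apply, re _ _ 0 N.ll, smul_zero]
  · simp only [e3, r.eq p hp, map_neg, map_smul, ContinuousLinearMap.neg_apply,
      ContinuousLinearMap.smul_apply, re _ _ 0 N.nn, smul_zero, neg_zero]
  · simp only [e1, e2, e3, r.eq p hp, map_neg, map_smul, ContinuousLinearMap.smul_apply,
      re _ _ (-1) (N.ln.trans (by simp)), smul_eq_mul]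
    field_simp
  · rw [e2, map_smul, smul_eq_mul, inv_mul_cancel₀ a0]
  · rw [e3, map_neg, map_smul, smul_eq_mul, inv_mul_cancel₀ b0]
  · obtain ⟨b, -, f1, f2, f3, f4⟩ := k w' ((f w').1 h)
    exact ⟨b, f1.trans e1.symm, f2.trans e2.symm, f3.trans e3.symm, f4.trans e4.symm⟩

omit a in
theorem j3_cd : ContDiffAt ℝ ∞ (fun x => ((m, jet 3 g x, w) : A3)) p :=
  contDiffAt_const.prodMk ((jet_cd v hp 3).prodMk contDiffAt_const)

theorem ad_ev : ∀ᶠ x in 𝓝 p, x ∈ D ∧ Ad m g w x :=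
  (show ∀ᶠ x in 𝓝 p, x ∈ D from v.isOpen.mem_nhds hp).and
    ((j3_cd v hp).continuousAt.eventually (u3_open.mem_nhds a))

theorem ln_cd : ContDiffAt ℝ ∞ (lN m g w) p := (lj_at a).comp p (j3_cd v hp)
theorem nn_cd : ContDiffAt ℝ ∞ (nN m g w) p := (nj_at a).comp p (j3_cd v hp)
theorem zn_cd : ContDiffAt ℝ ∞ (zN m g w) p := (zj_at a).comp p (j3_cd v hp)
theorem mn_cd : ContDiffAt ℝ ∞ (mN m g w) p := (mu_at a.1 a.2.1).comp p (j3_cd v hp)

omit a in
theorem nab_eq {F : A3 → R4} (f : ContDiffAt ℝ ∞ F (m, jet 3 g p, w)) (x : R4) :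
    nab F (m, jet 4 g p, w) x = fderiv ℝ (fun y => F (m, jet 3 g y, w)) p x +
      Gm (tb g) p x (F (m, jet 3 g p, w)) := by
  rw [nab, gj_jet v.isOpen v.met hp]
  congr 1
  conv_rhs => rw [← sum_bs x, map_sum]
  refine Finset.sum_congr rfl fun e _ => ?_
  rw [map_smul, co_eq]
  exact congrArg _ (dj_jet v hp (Φ := fun y => F (m, y, w)) (f.comp (jet 3 g p)
    (f := fun y => (m, y, w)) (contDiffAt_const.prodMk (contDiffAt_id.prodMk contDiffAt_const))) e)

/-- The fields do not depend on the reference vector, locally. -/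
theorem ind_ev {w' : R4} (h : g p (lN m g w p + nN m g w p) w' < 0) : ∀ᶠ x in 𝓝 p,
    Ad m g w' x ∧ mN m g w' x = mN m g w x ∧ lN m g w' x = lN m g w x ∧
      nN m g w' x = nN m g w x ∧ zN m g w' x = zN m g w x := by
  have r := rp_tb v.isOpen v.met
  rw [r.eq p hp] at h
  filter_upwards [ad_ev v hp a, (((r.at hp).clm_apply ((ln_cd v hp a).add (nn_cd v hp a))).clm_apply
    (contDiffAt_const (c := w'))).continuousAt.eventually (gt_mem_nhds h)] with x b c
  exact (fld0 v b.1 b.2).2.2.2.2.2.2 w' ((r.eq x b.1 ..).trans_lt c)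

omit a in
theorem null_acc {X : R4 → R4} (c : ContDiffAt ℝ ∞ X p) (h : ∀ᶠ x in 𝓝 p, g x (X x) (X x) = 0)
    (y : R4) : g p (fderiv ℝ X p y + Gm (tb g) p y (X p)) (X p) = 0 := by
  have r := rp_tb v.isOpen v.met
  have e : (fun x => tb g x (X x) (X x)) =ᶠ[𝓝 p] fun _ => 0 := by
    filter_upwards [h, v.isOpen.mem_nhds hp] with x b d using (r.eq x d ..).symm.trans b
  have k := fd_ap ((r.at hp).clm_apply c) c y
  rw [e.fderiv_eq, fd_ap (r.at hp) c, ContinuousLinearMap.add_apply, dh_eq r hp,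
    r.symm p hp (X p), r.symm p hp (X p), fderiv_fun_const] at k
  rw [r.eq p hp, map_add, ContinuousLinearMap.add_apply]
  simp only [Pi.zero_apply, ContinuousLinearMap.zero_apply] at k
  linarith

omit a in
theorem aj_alg (F F2 : A3 → R4) : IsLinearMap ℝ (AJ F F2 (m, jet 4 g p, w)) ∧
    ∀ x y, g p (AJ F F2 (m, jet 4 g p, w) x) y = -g p x (AJ F F2 (m, jet 4 g p, w) y) := by
  have r := rp_tb v.isOpen v.met
  refine ⟨⟨fun x y => ?_, fun c x => ?_⟩, fun x y => ?_⟩
  all_goals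
    simp only [AJ, ip_jet v.isOpen v.met hp, r.eq p hp, map_add, map_sub, map_smul, smul_eq_mul,
      ContinuousLinearMap.sub_apply, ContinuousLinearMap.smul_apply]
  · module
  · module
  · rw [r.symm p hp x, r.symm p hp x]
    ring

theorem fld_at : Fld m g w p := by
  obtain ⟨h1, h2, h3, h4, h5, h6, h7⟩ := fld0 v hp a
  have e := ad_ev v hp a
  have m0 : mN m g w p ≠ 0 := a.2.2.ne'
  refine ⟨h1, h2, h3, a.2.2, h4, h5, h6, fun w' h => ?_, ?_, ?_,
    ⟨(aj_alg v hp _ _).1, (aj_alg v hp _ _).1⟩,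
    fun x y => ⟨(aj_alg v hp _ _).2 x y, (aj_alg v hp _ _).2 x y⟩⟩
  · obtain ⟨b, f1, f2, f3, f4⟩ := h7 w' h
    have k := ind_ev v hp a h
    have k1 : lN m g w' =ᶠ[𝓝 p] lN m g w := k.mono fun _ c => c.2.2.1
    have k2 : nN m g w' =ᶠ[𝓝 p] nN m g w := k.mono fun _ c => c.2.2.2.1
    have n1 : ∀ x, nab lJ (m, jet 4 g p, w') x = nab lJ (m, jet 4 g p, w) x := fun x => by
      rw [nab_eq v hp (lj_at b), nab_eq v hp (lj_at a)]
      exact congrArg₂ (fun (A : R4 →L[ℝ] R4) y => A x + Gm (tb g) p x y) k1.fderiv_eq f2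
    have n2 : ∀ x, nab nJ (m, jet 4 g p, w') x = nab nJ (m, jet 4 g p, w) x := fun x => by
      rw [nab_eq v hp (nj_at b), nab_eq v hp (nj_at a)]
      exact congrArg₂ (fun (A : R4 →L[ℝ] R4) y => A x + Gm (tb g) p x y) k2.fderiv_eq f3
    have g1 : muJ (dn (m, jet 4 g p, w')) = muJ (dn (m, jet 4 g p, w)) := f1
    have g2 : lJ (dn (m, jet 4 g p, w')) = lJ (dn (m, jet 4 g p, w)) := f2
    have g3 : nJ (dn (m, jet 4 g p, w')) = nJ (dn (m, jet 4 g p, w)) := f3
    refine ⟨b, f1, f2, f3, f4, funext fun x => ?_, funext fun x => ?_⟩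
    · simp only [aL, AJ, n1, g1, g2, g3]
    · simp only [aN, AJ, n2, g1, g2, g3]
  · have k := null_acc v hp (ln_cd v hp a) (e.mono fun x c => (fld0 v c.1 c.2).1) (lN m g w p)
    rw [v.met.symm p hp (lN m g w p)] at h3
    simp only [aL, AJ, nab_eq v hp (lj_at a), ip_jet v.isOpen v.met hp]
    refine (congrArg₂ (fun b c : ℝ => mN m g w p • (b • nN m g w p - c • _)) k h3).trans ?_
    rw [zero_smul, zero_sub, neg_smul, neg_neg, smul_inv_smul₀ m0]
    rfl
  · have k := null_acc v hp (nn_cd v hp a) (e.mono fun x c => (fld0 v c.1 c.2).2.1) (nN m g w p)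
    simp only [aN, AJ, nab_eq v hp (nj_at a), ip_jet v.isOpen v.met hp]
    refine (congrArg₂ (fun b c : ℝ => mN m g w p • (b • lN m g w p - c • _)) k h3).trans ?_
    rw [zero_smul, zero_sub, neg_smul, neg_neg, smul_inv_smul₀ m0]
    rfl

omit v hp a in
theorem fld : FLD := fun _ _ _ _ _ v hp a => fld_at v hp a

end Vale.Agent.P354YN
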