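import Vale.Agent.P354YN.KerC

/-!
KERR: the natural fields of the Kerr metric.
-/

set_option linter.all false
set_option maxSynthPendingDepth 3

open scoped ContDiff
open Set Filter Topology Complex

noncomputable section

namespace Vale.Agent.P354YN

open Vale.Agent.P354n (R4)
open Vale.Agent.P354R (Met Pull Del)
open Vale.Agent.P354RC Vale.Agent.P354YJ
open Vale.Agent.P354XD (tb rp_tb)
open Vale.Agent.P354XE (Tw gin rd xs dr dq kf Lo Om eT)
open Vale.Agent.P354XA (rd_sq rd_cd rd_fd rd_cont hor)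
open Vale.Agent.P354YR (xs_ne)
open Vale.Agent.P354XV (jet Lv)

namespace Ke

theorem lv_gin (M a : ℝ) : Lv (gin M a) {p | 0 < rd p} :=
  ⟨open_rd, gin_met M a, gin_vac M a, fun _ hp => P354YR.gin_sig (xs_ne hp)⟩

theorem cube {x : ℂ} (h : |x.im| < x.re) : x ^ 3 ∈ slitPlane ∧ (x ^ 3) ^ (1 / 3 : ℂ) = x := by
  have h0 : 0 < x.re := (abs_nonneg _).trans_lt h
  have h1 : x.im ^ 2 < x.re ^ 2 := by nlinarith [abs_nonneg x.im, sq_abs x.im]
  constructor
  · by_cases k : x.im = 0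
    · left
      simp [pow_succ, k]
      positivity
    · right
      have : (x ^ 3).im = x.im * (3 * x.re ^ 2 - x.im ^ 2) := by simp [pow_succ]; ring
      rw [this]
      exact mul_ne_zero k (by nlinarith)
  · have n : 0 < ‖x‖ := norm_pos_iff.2 fun k => by simp [k] at h0
    have c : 1 / 2 < Real.cos |x.arg| := by
      rw [Real.cos_abs, cos_arg (norm_pos_iff.1 n), lt_div_iff₀ n]
      refine lt_of_pow_lt_pow_left₀ 2 h0.le ?_
      rw [mul_pow, Complex.sq_norm, normSq_apply]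
      nlinarith
    have b : |x.arg| < Real.pi / 3 := by
      by_contra k
      have := Real.cos_le_cos_of_nonneg_of_le_pi (by positivity) (abs_arg_le_pi x) (not_lt.1 k)
      rw [Real.cos_pi_div_three] at this
      linarith
    have := pow_cpow_nat_inv (x := x) (n := 3) (by norm_num) (by simpa using (abs_lt.1 b).1)
      (by simpa using (abs_lt.1 b).2.le)
    simpa using this

variable {m M a k s z c n : ℝ} {p w : R4}

/-- The complex radius of Kerr. -/
def Yk (a k : ℝ) (p : R4) : ℂ := k * (rd p - I * a * (p.2.2.2 / rd p : ℝ))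

theorem out (h : |a| < M) (hp : P354I.rp M a < rd p) :
    0 < rd p ∧ |a| < rd p ∧ 0 < Del M a (rd p) := by
  obtain ⟨h1, h2, h3, -, -, h4, -⟩ := hor h
  have : M ≤ P354I.rp M a := le_add_of_nonneg_right (Real.sqrt_nonneg _)
  exact ⟨by linarith, by linarith, by rw [h4]; exact mul_pos (by linarith) (by linarith)⟩

theorem yn_kerr (hF : FRM) (hk : 0 < k) (hm : k ^ 3 * M = m) (h : |a| < M)
    (hp : P354I.rp M a < rd p) : (m, jet 2 (gin M a) p) ∈ U2 ∧
      lam (WJ (jet 2 (gin M a) p)) = 2 * qc M a (rd p) (p.2.2.2 / rd p) ∧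
      qc M a (rd p) (p.2.2.2 / rd p) ≠ 0 ∧ YN m (gin M a) p = Yk a k p := by
  obtain ⟨h0, h1, -⟩ := out h hp
  obtain ⟨s, c, n, S⟩ := ex_sph M a h0
  obtain ⟨δ, hδ, H⟩ := hF.2.1
  have hM : 0 < M := (abs_nonneg a).trans_lt h
  have hM' : (M : ℂ) ≠ 0 := ofReal_ne_zero.2 hM.ne'
  have n2 := ne2 (a := a) (z := p.2.2.2 / rd p) h0
  have q0 : qc M a (rd p) (p.2.2.2 / rd p) ≠ 0 :=
    div_ne_zero (neg_ne_zero.2 hM') (pow_ne_zero 3 n2)
  obtain ⟨k1, k2⟩ := H m _ _ p _ _ _ _ 0 (lv_gin M a) h0 (tf_kerr h0 S) (by simpa using hδ) q0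
  have e : -(m : ℂ) / qc M a (rd p) (p.2.2.2 / rd p) = Yk a k p ^ 3 := by
    rw [qc, Yk, ← hm]
    generalize (rd p - I * a * (p.2.2.2 / rd p : ℝ) : ℂ) = x at *
    push_cast
    field_simp
  have cb := cube (x := Yk a k p) (by
    have hz : |p.2.2.2 / rd p| ≤ 1 := (sq_le_one_iff_abs_le_one _).1 (by nlinarith [S.hs, sq_nonneg s])
    generalize hx : p.2.2.2 / rd p = z at *
    simp only [Yk, hx]
    simp [abs_mul, abs_of_pos hk, hk]
    nlinarith [abs_nonneg a, abs_nonneg z])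
  refine ⟨k2 (by rw [← hm]; positivity) (e ▸ cb.1), k1, q0, ?_⟩
  rw [YN, YJ, k1, ← cb.2, ← e]
  congr 1
  field_simp

theorem open_out (M a : ℝ) : IsOpen {p : R4 | P354I.rp M a < rd p} :=
  isOpen_lt continuous_const rd_cont

theorem Yk_fd (h : 0 < rd p) (A : R4) : fderiv ℝ (Yk a k) p A =
    k * (dr p A - I * a * (A.2.2.2 / rd p - p.2.2.2 * dr p A / rd p ^ 2 : ℝ)) := by
  have r := (at_df (rd_cd h.ne')).hasFDerivAt
  have x : HasFDerivAt (fun x : R4 => x.2.2.2) (cv 3) p := (cv 3).hasFDerivAt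
  have q := x.mul ((hasDerivAt_inv h.ne').comp_hasFDerivAt p r)
  have e := (((ofRealCLM.hasFDerivAt.comp p r).sub
    ((ofRealCLM.hasFDerivAt.comp p q).const_mul (I * a))).const_mul (k : ℂ)).fderiv
  have h' : ((rd p : ℝ) : ℂ) ≠ 0 := ofReal_ne_zero.2 h.ne'
  rw [show fderiv ℝ (Yk a k) p = _ from e]
  simp [rd_fd h.ne', cv]
  left
  field_simp
  ring

theorem Yk_fr (h : 0 < rd p) (S : Sph M a p s z c n) (x : C4) :
    dC (Yk a k) p (cf4 (Fr M a (rd p) s z c n) x) =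
      k * (x 0 * (Del M a (rd p) / 2 : ℝ) - x 1 + x 2 * (I * a * s)) := by
  have e : ∀ A, fderiv ℝ (Yk a k) p A = ∑ i, (cv i A : ℂ) * fderiv ℝ (Yk a k) p (bs i) :=
    fun A => by
      conv_lhs => rw [← sum_bs A]
      simp only [map_sum, map_smul, real_smul]
  have e1 : dC (Yk a k) p (cf4 (Fr M a (rd p) s z c n) x) =
      ∑ i, x i * fderiv ℝ (Yk a k) p (Fr M a (rd p) s z c n i) := by
    simp only [dC, e (Fr ..), cf4_ap, Fin.sum_univ_four]
    ring
  have e2 : ∀ A, dr p (Wv (rd p) s z c n A) = A.2.1 := fun A => by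
    have := dr_W (t := p.1) h S.hs S.hc A
    rwa [← S.eq] at this
  have e3 : p.2.2.2 = rd p * z := congrArg (·.2.2.2) S.eq
  have h' : ((rd p : ℝ) : ℂ) ≠ 0 := ofReal_ne_zero.2 h.ne'
  simp only [e1, Yk_fd h, Fr, e2, e3, Fin.sum_univ_four]
  simp [Fw, Wv]
  field_simp
  ring

theorem fr_eq (h : 0 < rd p) (hD : Del M a (rd p) ≠ 0) (S : Sph M a p s z c n) :
    Fr M a (rd p) s z c n 0 = (Del M a (rd p) / 2) • Lo M a p ∧ Fr M a (rd p) s z c n 1 = No p := by
  have e1 : p.2.1 = rd p * s * c := congrArg (·.2.1) S.eq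
  have e2 : p.2.2.1 = rd p * s * n := congrArg (·.2.2.1) S.eq
  have e3 : p.2.2.2 = rd p * z := congrArg (·.2.2.2) S.eq
  have h' := h.ne'
  constructor <;> ext <;> simp [Fr, Fw, Wv, Lo, No, Om, e1, e2, e3, hD] <;> field_simp <;> ring

theorem cf4_T (h : 0 < rd p) (S : Sph M a p s z c n) {x : C4}
    (h0 : x 0 = k * ((P354R.Sig a (rd p) z : ℝ) : ℂ)⁻¹) (h1 : x 1 = (Del M a (rd p) / 2 : ℝ) * x 0)
    (h2 : x 2 = 0) (h3 : x 3 = -(a * s) * x 0) :
    vc (rV (cf4 (Fr M a (rd p) s z c n) x)) = k • eT := by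
  have h4 : P354R.Sig a (rd p) z ≠ 0 := by rw [P354R.Sig]; positivity
  have h5 : P354R.Sig a (rd p) z = rd p ^ 2 + a ^ 2 - a ^ 2 * s ^ 2 := by
    rw [S.hs, P354R.Sig]; ring
  have e : cf4 (Fr M a (rd p) s z c n) x = cV (co (k • eT)) := by
    funext i
    rw [cf4_ap, Fin.sum_univ_four, h1, h2, h3, h0, cV, co_cv]
    norm_cast
    generalize P354R.Sig a (rd p) z = X at *
    fin_cases i <;> simp [cv, Fr, Fw, Wv, eT] <;> field_simp <;> subst h5 <;> ring
  rw [e]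
  rfl

/-- The values of the fields of order three. -/
theorem val3 (hF : FRM) (hk : 0 < k) (hm : k ^ 3 * M = m) (h : |a| < M)
    (hp : P354I.rp M a < rd p) (hw : gin M a p (Lo M a p + No p) w < 0) :
    Ad m (gin M a) w p ∧
      mN m (gin M a) w p = k ^ 2 * Del M a (rd p) / (2 * P354I.Sg a (rd p) (xs p)) ∧
      lN m (gin M a) w p = k⁻¹ • Lo M a p ∧ nN m (gin M a) w p = k⁻¹ • No p ∧
      zN m (gin M a) w p = k • eT := by
  obtain ⟨h0, -, hD⟩ := out h hp
  obtain ⟨s, c, n, S⟩ := ex_sph M a h0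
  obtain ⟨u2, hl, -, -⟩ := yn_kerr hF hk hm h hp
  have ev : YN m (gin M a) =ᶠ[𝓝 p] Yk a k := by
    filter_upwards [(open_out M a).mem_nhds hp] with x hx using (yn_kerr hF hk hm h hx).2.2.2
  have er : ∀ A, fderiv ℝ (rN m (gin M a)) p A = k * dr p A := fun A => by
    have : rN m (gin M a) =ᶠ[𝓝 p] fun x => k * rd x := by
      filter_upwards [ev] with x hx
      rw [rN, hx, Yk]
      generalize x.2.2.2 / rd x = z
      simp
    rw [this.fderiv_eq, fderiv_const_mul (at_df (rd_cd h0.ne')), smul_apply, rd_fd h0.ne',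
      smul_eq_mul]
  have ed : ∀ u, dC (YN m (gin M a)) p u = dC (Yk a k) p u := fun u => by
    simp only [dC, ev.fderiv_eq]
  generalize p.2.2.2 / rd p = z at *
  have sg : P354I.Sg a (rd p) (xs p) = P354R.Sig a (rd p) z := by
    have := Sg_B (a := a) (t := p.1) h0 S.hs S.hc
    rwa [← S.eq] at this
  have h2 : 0 < P354R.Sig a (rd p) z := by rw [P354R.Sig]; positivity
  obtain ⟨f0, f1⟩ := fr_eq h0 hD.ne' S
  have v0 : vc (l0 M a (rd p) s z c n) =
      ((P354R.Sig a (rd p) z)⁻¹ * (Del M a (rd p) / 2)) • Lo M a p := by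
    rw [l0, vc_co, f0, smul_smul]
  have v1 : vc (n0 M a (rd p) s z c n) = No p := by rw [n0, vc_co, f1]
  have d0 : fderiv ℝ (rN m (gin M a)) p (vc (l0 M a (rd p) s z c n)) =
      (P354R.Sig a (rd p) z)⁻¹ * (Del M a (rd p) / 2) * k := by
    rw [v0, map_smul, er, P354XA.dr_Lo h0.ne', mul_one, smul_eq_mul]
  have d1 : fderiv ℝ (rN m (gin M a)) p (vc (n0 M a (rd p) s z c n)) = -k := by
    have := dr_W (t := p.1) h0 S.hs S.hc (Fw M a (rd p) s 1)
    rw [← S.eq] at this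
    rw [n0, vc_co, er, Fr, this]
    simp [Fw]
  have b : 0 < (P354R.Sig a (rd p) z)⁻¹ * (Del M a (rd p) / 2) := by positivity
  obtain ⟨r1, -, r2, r3, r4, r5⟩ := hF.2.2 m _ _ w p _ _ _ _ 0 (lv_gin M a) h0 u2 (tf_kerr h0 S) hl
    ⟨by rw [d0, d1]; nlinarith [mul_pos (mul_pos b hk) hk], by
      have l := gin_lin M a p w
      rw [gin_symm, l.map_add] at hw
      rw [d0, d1, v0, v1, gin_symm, gin_symm _ _ _ (_ • _), l.map_smul, smul_eq_mul]
      nlinarith [mul_pos b hk]⟩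
  refine ⟨r1, ?_, ?_, ?_, ?_⟩
  · rw [r2, d0, d1, sg]; field_simp
  · rw [r3, d0, v0, smul_smul]; congr 1; field_simp
  · rw [r4, d1, v1, inv_neg, neg_smul, neg_neg]
  · have kk := kc_mul (a := a) (z := z) h0
    have lin : ∀ (α β γ δ : ℂ) (x y u v : C4) (F : Fin 4 → R4),
        -(α • cf4 F x) + β • cf4 F y + γ • cf4 F u - δ • cf4 F v =
          cf4 F (-(α • x) + β • y + γ • u - δ • v) := fun α β γ δ x y u v F => by
      funext i
      simp [cf4_ap, Fin.sum_univ_four]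
      ring
    rw [r5, ed, ed, ed, ed, l0_eq, n0_eq, s0_st, s0, Yk_fr h0 S, Yk_fr h0 S, Yk_fr h0 S, Yk_fr h0 S,
      lin]
    generalize star (kc a (rd p) z) = β at *
    refine cf4_T h0 S (by simp) (by simp; ring) (by simp; ring) ?_
    simp
    generalize ((P354R.Sig a (rd p) z : ℝ) : ℂ) = X at *
    linear_combination 2 * k * a * s * kc a (rd p) z * β * I_sq - 2 * k * a * s * kk

end Ke

open Ke in
/-- **KERR.** -/
theorem kerr (hJ : JET) (hS : SMO) (hF : FRM) (hI : FRI) : KERR := by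
  intro m M a k p w hk hm h hp hw
  obtain ⟨h0, -, hD⟩ := out h hp
  obtain ⟨s, c, n, S⟩ := ex_sph M a h0
  obtain ⟨-, -, q0, hy⟩ := yn_kerr hF hk hm h hp
  obtain ⟨r1, r2, r3, r4, r5⟩ := val3 hF hk hm h hp hw
  have nc : ContDiffAt ℝ ∞ No p := No_eq ▸ P354YR.s_nI (xs_ne h0)
  have ev : ∀ᶠ x in 𝓝 p, P354I.rp M a < rd x ∧ gin M a x (Lo M a x + No x) w < 0 := by
    have r := rp_tb open_rd (gin_met M a)
    have c1 : ContinuousAt (fun x => tb (gin M a) x (Lo M a x + No x) w) p :=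
      (((r.at h0).clm_apply ((Lo_cd h0 hD.ne').add nc)).clm_apply contDiffAt_const).continuousAt
    filter_upwards [(open_out M a).mem_nhds hp, c1.eventually_lt continuousAt_const
      ((r.eq p h0 _ _).symm.trans_lt hw)] with x h1 h2
    exact ⟨h1, (r.eq x (out h h1).1 _ _).trans_lt h2⟩
  refine ⟨r1, hI _ _ p _ _ _ _ (lv_gin M a) h0 (tf_kerr h0 S) q0, hy, r2, r3, r4, r5,
    AJ_zero (nab_zero hJ hS.2.1 hS.2.2.2.2.1 open_rd (gin_met M a) h0 r1 (Lo_cd h0 hD.ne')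
      (c := k⁻¹) ?_ (geo_Lo h0 hD.ne')),
    AJ_zero (nab_zero hJ hS.2.1 hS.2.2.2.2.2.1 open_rd (gin_met M a) h0 r1 nc
      (c := k⁻¹) ?_ (geo_No h0))⟩
  · filter_upwards [ev] with x hx using (val3 hF hk hm h hx.1 hx.2).2.2.1
  · filter_upwards [ev] with x hx using (val3 hF hk hm h hx.1 hx.2).2.2.2.1

end Vale.Agent.P354YN
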