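import Vale.Agent.P354YN.KerB
import Vale.Agent.P354YR.Red
import Vale.Agent.P354XA.Far

/-!
The principal null fields of Kerr are geodesic.
-/

set_option linter.all false
set_option maxSynthPendingDepth 3

open scoped ContDiff
open Set Filter Topology

noncomputable section

namespace Vale.Agent.P354YN.Ke

open Vale.Agent.P354n (R4)
open Vale.Agent.P354R (Met Pull Del)
open Vale.Agent.P354RC Vale.Agent.P354YJ
open Vale.Agent.P354XD (tb rp_tb)
open Vale.Agent.P354XE (Tw gin rd xs dr dq kf Lo Om eT)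
open Vale.Agent.P354XA (rd_sq rd_cd rd_fd rd_cont dr_eq dq_eq dr_Lo dq_Lo Lo_fst lo1 Sg_eq)
open Vale.Agent.P354YR (nI sp ar fd_drx fd_dqx fd_Sgx xs_ne gin_TO gin_nI s_nI)
open Vale.Agent.P354XV (jet Lv)

theorem geo_of {g : Tw} {h : R4 → B2} {D : Set R4} {y : R4} (r : Rp g h D) (hy : y ∈ D)
    {N : R4 → R4} {φ : R4 → R4 → ℝ} (hN : ContDiffAt ℝ ∞ N y)
    (e : ∀ᶠ x in 𝓝 y, (∀ v, g x (N x) v = φ x v) ∧ φ x (N x) = 0)
    (d : ∀ v, fderiv ℝ (fun x => φ x v) y (N y) = fderiv ℝ (fun x => φ x (N y)) y v) :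
    fderiv ℝ N y (N y) + Gm h y (N y) (N y) = 0 := by
  have k := (r.at hy).clm_apply hN
  have e1 : ∀ u c, fderiv ℝ (fun x => φ x c) y u =
      fderiv ℝ h y u (N y) c + h y (fderiv ℝ N y u) c := fun u c => by
    have : (fun x => φ x c) =ᶠ[𝓝 y] fun x => h x (N x) c := by
      filter_upwards [e, r.op.mem_nhds hy] with x h1 h2 using (h1.1 c).symm.trans (r.eq x h2 _ _)
    rw [this.fderiv_eq, fd_ap0 k, fd_ap (r.at hy) hN, add_apply]
  refine r.ext hy fun c => ?_
  have e2 : (fun x => h x (N x) (N x)) =ᶠ[𝓝 y] fun _ => 0 := by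
    filter_upwards [e, r.op.mem_nhds hy] with x h1 h2
    rw [← r.eq x h2, h1.1, h1.2]
  have e3 := congrArg (· c) (e2.fderiv_eq (𝕜 := ℝ))
  simp only [fd_ap k hN, fd_ap (r.at hy) hN, add_apply, r.symm y hy (N y), fderiv_fun_const,
    Pi.zero_apply, zero_apply] at e3
  have e4 := d c
  rw [e1, e1] at e4
  rw [map_add, add_apply, r.gm hy, C1_ap, map_zero, zero_apply]
  linarith

variable {M a : ℝ} {p : R4}

theorem No_eq : No = nI := funext fun p => by rw [No, nI, neg_smul]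

theorem fd_kf (h : 0 < rd p) (v u : R4) : fderiv ℝ (fun x => -kf a x v) p u =
    -((sp u v - dr p v * dr p u) / rd p -
      a * (ar u v / rd p ^ 2 - 2 * dq p v * dr p u / rd p)) := by
  have k := ((((at_df (dr_cd h.ne' v)).hasFDerivAt.const_add v.1).sub
    ((at_df (dq_cd h.ne' v)).hasFDerivAt.const_mul a)).neg).fderiv
  rw [show fderiv ℝ (fun x => -kf a x v) p = _ from k, ← fd_drx (xs_ne h), ← fd_dqx (xs_ne h)]
  simp

theorem sp_comm (u v : R4) : sp u v = sp v u := by simp only [sp]; ring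

theorem geo_No (h : 0 < rd p) :
    fderiv ℝ No p (No p) + Gm (tb (gin M a)) p (No p) (No p) = 0 := by
  have k : ∀ x, 0 < rd x → dr x (nI x) = -1 ∧ dq x (nI x) = 0 := fun x h => by
    have := rd_sq x
    have h' := h.ne'
    simp only [dr_eq, dq_eq, nI, P354XA.ip, Prod.smul_fst, Prod.smul_snd, smul_eq_mul] at this ⊢
    constructor <;> field_simp
    · linear_combination this
    · ring
  rw [No_eq]
  refine geo_of (rp_tb open_rd (gin_met M a)) h (φ := fun x v => -kf a x v) (s_nI (xs_ne h)) ?_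
    fun v => ?_
  · filter_upwards [open_rd.mem_nhds h] with x hx
    exact ⟨gin_nI (xs_ne hx), by rw [kf, (k x hx).1, (k x hx).2]; simp [nI]⟩
  · have h' := h.ne'
    rw [fd_kf h, fd_kf h, (k p h).1, (k p h).2, sp_comm v, dq_eq]
    simp only [P354YR.ar, nI, Prod.smul_fst, Prod.smul_snd, smul_eq_mul]
    field_simp
    ring

theorem Lo_eq (M a : ℝ) (p : R4) : Lo M a p = (2 / Del M a (rd p)) •
    ((rd p ^ 2 + a ^ 2) • eT + a • Om 2 p) + (-1 : ℝ) • nI p := by
  ext <;> simp [Lo, nI, eT, Om] <;> ring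

theorem gin_Lo' (h : 0 < rd p) (hD : Del M a (rd p) ≠ 0) (v : R4) : gin M a p (Lo M a p) v =
    -kf a p v + 2 * P354I.Sg a (rd p) (xs p) / Del M a (rd p) * dr p v := by
  have l := gin_lin M a p v
  have e := gin_TO (M := M) (a := a) (xs_ne h) v
  rw [gin_symm, Lo_eq, l.map_add, l.map_smul, l.map_smul, l.map_add, l.map_smul, l.map_smul,
    gin_symm _ _ _ v, gin_symm _ _ _ v, gin_symm _ _ _ v, gin_nI (xs_ne h), smul_eq_mul,
    smul_eq_mul, smul_eq_mul, smul_eq_mul, e]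
  field_simp
  ring

theorem Del_cd (h : 0 < rd p) : ContDiffAt ℝ ∞ (fun x => Del M a (rd x)) p :=
  (((rd_cd h.ne').pow 2).sub (contDiffAt_const.mul (rd_cd h.ne'))).add contDiffAt_const

theorem Lo_cd (h : 0 < rd p) (hD : Del M a (rd p) ≠ 0) : ContDiffAt ℝ ∞ (Lo M a) p := by
  have r := rd_cd (n := ∞) h.ne'
  have o : ContDiffAt ℝ ∞ (Om 2) p := by
    show ContDiffAt ℝ ∞ (fun p : R4 => ((0, -p.2.2.1, p.2.1, 0) : R4)) p
    fun_prop
  exact ((((contDiffAt_const.mul ((r.pow 2).add contDiffAt_const)).div (Del_cd h) hD).sub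
    contDiffAt_const).prodMk ((r.inv h.ne').smul contDiffAt_snd)).add
      ((contDiffAt_const.div (Del_cd h) hD).smul o)

theorem geo_Lo (h : 0 < rd p) (hD : Del M a (rd p) ≠ 0) :
    fderiv ℝ (Lo M a) p (Lo M a p) + Gm (tb (gin M a)) p (Lo M a p) (Lo M a p) = 0 := by
  have h' := h.ne'
  refine geo_of (rp_tb open_rd (gin_met M a)) h
    (φ := fun x v => -kf a x v + 2 * P354I.Sg a (rd x) (xs x) / Del M a (rd x) * dr x v)
    (Lo_cd h hD) ?_ fun v => ?_
  · filter_upwards [open_rd.mem_nhds h, (Del_cd h).continuousAt.eventually_ne hD] with x hx h2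
    refine ⟨gin_Lo' hx h2, ?_⟩
    rw [kf, dr_Lo hx.ne', dq_Lo hx.ne', Lo_fst, lo1, Sg_eq]
    field_simp
    ring
  · have c : ContDiffAt ℝ ∞ (fun x => 2 * P354I.Sg a (rd x) (xs x) / Del M a (rd x)) p :=
      (contDiffAt_const.mul (Sg_cd h' a)).div (Del_cd h) hD
    have e : ∀ v u, fderiv ℝ (fun x => -kf a x v +
        2 * P354I.Sg a (rd x) (xs x) / Del M a (rd x) * dr x v) p u =
        fderiv ℝ (fun x => -kf a x v) p u + (2 * P354I.Sg a (rd p) (xs p) / Del M a (rd p) *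
          fderiv ℝ (fun x => dr x v) p u + dr p v *
          fderiv ℝ (fun x => 2 * P354I.Sg a (rd x) (xs x) / Del M a (rd x)) p u) := fun v u => by
      rw [fderiv_fun_add (at_df (kf_cd h' a v).neg) (at_df (c.mul (dr_cd h' v))),
        fderiv_fun_mul (at_df c) (at_df (dr_cd h' v))]
      rfl
    have e2 : ∀ u, fderiv ℝ (fun x => 2 * P354I.Sg a (rd x) (xs x) / Del M a (rd x)) p u =
        2 * fderiv ℝ (fun x => P354I.Sg a (rd x) (xs x)) p u / Del M a (rd p) -
          2 * P354I.Sg a (rd p) (xs p) * (2 * rd p - 2 * M) * dr p u / Del M a (rd p) ^ 2 :=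
      fun u => by
        have r := (at_df (rd_cd h')).hasFDerivAt
        have k := (((at_df (Sg_cd h' a)).hasFDerivAt.const_mul 2).mul
          ((hasDerivAt_inv hD).comp_hasFDerivAt p
            (((r.pow 2).sub (r.const_mul (2 * M))).add_const (a ^ 2)))).fderiv
        rw [show fderiv ℝ (fun x => 2 * P354I.Sg a (rd x) (xs x) / Del M a (rd x)) p = _ from k]
        simp [rd_fd h']
        rw [show rd p ^ 2 - 2 * M * rd p + a ^ 2 = Del M a (rd p) from rfl]
        field_simp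
        ring
    have z : ∀ u, P354XS.dZ (xs p) (xs u) = u.2.2.2 / rd p - p.2.2.2 / rd p * (dr p u / rd p) :=
      fun u => by rw [dr, mul_div_cancel_left₀ _ h']; rfl
    have a1 : ar (Lo M a p) v = rd p * dq p v -
        2 * a / Del M a (rd p) * (rd p * dr p v - p.2.2.2 * v.2.2.2) := by
      rw [dr_eq, dq_eq]
      simp [P354YR.ar, Lo, Om, P354XA.ip]
      field_simp
      ring
    have a2 : ar v (Lo M a p) = -ar (Lo M a p) v := by simp only [P354YR.ar]; ring
    have a3 : (Lo M a p).2.2.2 = p.2.2.2 / rd p := by simp [Lo, Om, div_eq_inv_mul]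
    rw [e, e, e2, e2, fd_kf h, fd_kf h, fd_drx (xs_ne h), fd_drx (xs_ne h), fd_Sgx (xs_ne h),
      fd_Sgx (xs_ne h), z, z, a2, a1, a3, dr_Lo h', dq_Lo h', sp_comm v, P354YR.zc_c]
    field_simp
    ring

/-- The acceleration of a natural field which is a multiple of a geodesic field. -/
theorem nab_zero (hJ : JET) (hU : IsOpen U3) {F : A3 → R4} (hF : ContDiffOn ℝ ∞ F U3) {g : Tw}
    {D : Set R4} (hD : IsOpen D) (hg : Met g D) (hp : p ∈ D) {m c : ℝ} {w : R4} (ha : Ad m g w p)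
    {N : R4 → R4} (hN : ContDiffAt ℝ ∞ N p)
    (e : (fun x => F (m, jet 3 g x, w)) =ᶠ[𝓝 p] fun x => c • N x)
    (k : fderiv ℝ N p (N p) + Gm (tb g) p (N p) (N p) = 0) :
    nab F (m, jet 4 g p, w) (F (dn (m, jet 4 g p, w))) = 0 := by
  obtain ⟨j1, j2, j3⟩ := hJ.1 3 g p fun u v => (hg.smooth u v).contDiffAt (hD.mem_nhds hp)
  have d : DifferentiableAt ℝ (fun y => F (m, y, w)) (jet 3 g p) :=
    ((hF.contDiffAt (hU.mem_nhds ha)).differentiableAt (by simp)).comp (jet 3 g p)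
      (f := fun y => (m, y, w)) (by fun_prop)
  have e1 : ∀ i, dj (fun y => F (m, y, w)) (jet 4 g p) i = c • fderiv ℝ N p (bs i) := fun i => by
    have := congrArg (· (bs i)) (fderiv_comp p d (at_df j1))
    simp only [ContinuousLinearMap.comp_apply, j3] at this
    rw [dj, j2, ← this, show ((fun y => F (m, y, w)) ∘ jet 3 g) = fun x => F (m, jet 3 g x, w)
      from rfl, e.fderiv_eq, fderiv_fun_const_smul (at_df hN), smul_apply]
  have e2 : F (dn (m, jet 4 g p, w)) = c • N p := by rw [dn, j2]; exact e.eq_of_nhds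
  have e3 : ∀ v, ∑ i, co v i • c • fderiv ℝ N p (bs i) = c • fderiv ℝ N p v := fun v => by
    conv_rhs => rw [← sum_bs v]
    simp only [map_sum, map_smul, Finset.smul_sum, co_cv, smul_comm c]
  rw [nab, e2]
  simp only [e1]
  rw [e3, (hJ.2.1 3 g D p hD hg hp).2, Gm_smul1, Gm_smul2, map_smul, ← smul_add, ← smul_add, k,
    smul_zero, smul_zero]

theorem AJ_zero {F F2 : A3 → R4} {x : A4} (h : nab F x (F (dn x)) = 0) : AJ F F2 x = 0 := by
  funext v
  have : co 0 = 0 := by funext i; fin_cases i <;> rfl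
  simp [AJ, h, ip, this]

end Vale.Agent.P354YN.Ke
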