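import Vale.Agent.P354YN.Tf
import Vale.Agent.P354YN.Jet

/-!
NAT: the data of a vacuum metric at a point, and the existence of null frames.
-/

set_option linter.all false
set_option maxSynthPendingDepth 3

open scoped ContDiff
open Set Filter Topology Matrix Complex

noncomputable section

namespace Vale.Agent.P354YN

open Vale.Agent.P354n (R4 mink)
open Vale.Agent.P354R (Met)
open Vale.Agent.P354RC (B2 bs cv Gm Rm RmL Rp sym2 at_fd)
open Vale.Agent.P354XD (tb rp_tb tb_bs gm_symm)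
open Vale.Agent.P354RK (fd2)
open Vale.Agent.P354XE (Tw)
open Vale.Agent.P354XV (Jet jet Sig Lv)

/-! ### Symmetries of the curvature -/

section
variable {g : Tw} {h : R4 → B2} {D : Set R4} {y : R4} (r : Rp g h D) (hy : y ∈ D)
include r hy

theorem d2sym (a b c d : R4) :
    fderiv ℝ (fderiv ℝ h) y a b c d = fderiv ℝ (fderiv ℝ h) y a b d c := by
  rw [fd2 (r.at hy), fd2 (r.at hy)]
  refine congrFun (congrArg _ (EventuallyEq.fderiv_eq ?_)) _
  filter_upwards [r.op.mem_nhds hy] with z hz using r.dsym hz b c d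

omit r hy in
theorem rm12 (a b c d : R4) : Rm h y a b c d = -Rm h y b a c d := by
  simp only [Rm]
  ring

theorem rm34 (a b c d : R4) : Rm h y a b c d = -Rm h y a b d c := by
  simp only [Rm, P354RC.dC]
  rw [r.symm y hy (Gm h y b d), r.symm y hy (Gm h y a d), d2sym r hy a b d c, d2sym r hy b a d c,
    sym2 (r.at hy) b a]
  ring

theorem rm_cyc (a b c d : R4) : Rm h y a b c d + Rm h y b c a d + Rm h y c a b d = 0 := by
  simp only [Rm, P354RC.dC]
  rw [d2sym r hy a d b c, d2sym r hy b d a c, d2sym r hy c d a b, gm_symm r hy c a,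
    gm_symm r hy c b, gm_symm r hy b a]
  ring

theorem rm_pair (a b c d : R4) : Rm h y a b c d = Rm h y c d a b := by
  simp only [Rm, P354RC.dC]
  rw [gm_symm r hy d a, gm_symm r hy c b, gm_symm r hy c a, gm_symm r hy d b,
    r.symm y hy (Gm h y a d), sym2 (r.at hy) b a, sym2 (r.at hy) d c, sym2 (r.at hy) c a,
    sym2 (r.at hy) c b, sym2 (r.at hy) d a, sym2 (r.at hy) d b, d2sym r hy a c d b,
    d2sym r hy b c d a, d2sym r hy a d c b, d2sym r hy b d c a]
  ring

end

/-! ### Real and complex components -/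

theorem star_cV (u : V4) : star (cV u) = cV u := funext fun _ => conj_ofReal _
theorem rV_cV (u : V4) : rV (cV u) = u := rfl
theorem cV_rV {u : C4} (h : star u = u) : cV (rV u) = u :=
  funext fun a => conj_eq_iff_re.1 (congrFun h a)
theorem cM_mul (A B : N4) : cM (A * B) = cM A * cM B := by
  ext a b
  simp only [cM, mul_apply, ofReal_sum, ofReal_mul]
theorem cM_one : cM 1 = 1 := by
  ext a b
  simp only [cM, one_apply]
  split_ifs <;> rfl
theorem cM_det (A : N4) : (cM A).det = A.det := (RingHom.map_det ofRealHom A).symm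
theorem cM_mv (A : N4) (u : V4) : cM A *ᵥ cV u = cV (A *ᵥ u) := by
  ext a
  simp only [cM, cV, mulVec, dotProduct, ofReal_sum, ofReal_mul]
theorem gm_cV (A : N4) (u v : V4) : gm (cM A) (cV u) (cV v) = (u ⬝ᵥ (A *ᵥ v) : ℝ) := by
  simp only [gm, cM_mv, cV, dotProduct, ofReal_sum, ofReal_mul]

theorem wg_anti (u v : C4) : wg u v = -wg v u := by
  funext i
  simp only [wg, Pi.neg_apply]
  ring

theorem rc_anti (R : M6) (u v s t : C4) : rc R u v s t = -rc R v u s t := by
  rw [rc, wg_anti, neg_dotProduct, rc]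

theorem sum_wg {A : Fin 4 → Fin 4 → ℂ} (h : ∀ a b, A a b = -A b a) (u v : C4) :
    ∑ a, ∑ b, A a b * u a * v b = ∑ i, wg u v i * A (p1 i) (p2 i) := by
  have z : ∀ a, A a a = 0 := fun a => by linear_combination h a a / 2
  simp only [Fin.sum_univ_four, Fin.sum_univ_six, wg, pv, z, h 1 0, h 2 0, h 3 0, h 2 1, h 3 1,
    h 3 2]
  ring

theorem rc_sum {T : Fin 4 → Fin 4 → Fin 4 → Fin 4 → ℂ} (h1 : ∀ a b c d, T a b c d = -T b a c d)
    (h2 : ∀ a b c d, T a b c d = -T a b d c) (u v s t : C4) :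
    rc (fun i j => T (p1 i) (p2 i) (p1 j) (p2 j)) u v s t =
      ∑ a, ∑ b, ∑ c, ∑ d, T a b c d * u a * v b * s c * t d := by
  have e : ∀ a b, ∑ c, ∑ d, T a b c d * u a * v b * s c * t d =
      (∑ j, wg s t j * T a b (p1 j) (p2 j)) * u a * v b := fun a b => by
    rw [← sum_wg (h2 a b)]
    simp only [Finset.sum_mul]
    exact Finset.sum_congr rfl fun _ _ => Finset.sum_congr rfl fun _ _ => by ring
  simp only [e]
  rw [sum_wg (A := fun a b => ∑ j, wg s t j * T a b (p1 j) (p2 j)) fun a b => by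
    simp only [← Finset.sum_neg_distrib, ← mul_neg, ← h1 a b]]
  simp only [rc, dotProduct, mulVec, mul_comm (wg s t _)]

/-- A null frame from an orthonormal frame. -/
theorem ex_nf {G E : N4} (h : E * G * Eᵀ = diagonal ![-1, 1, 1, 1]) :
    ∃ l n s, NF (cM G) l n s := by
  have d : E.det ≠ 0 := fun o => by
    have := congrArg det h
    rw [det_mul, det_mul, o, det_diagonal] at this
    simp [Fin.prod_univ_four] at this
  have t : ∀ i j, gm (cM G) (cV (E i)) (cV (E j)) =
      if i = j then (if i = 0 then -1 else 1) else 0 := fun i j => by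
    rw [gm_cV, show E i ⬝ᵥ (G *ᵥ E j) = (E * (G * Eᵀ)) i j from rfl, ← Matrix.mul_assoc, h]
    revert i j
    simp only [all4]
    simp
  obtain ⟨σ, h1, h2⟩ : ∃ σ : ℝ, σ * I * (σ * I) = -1 ∧ 0 < σ * E.det := by
    rcases d.lt_or_gt with o | o
    · exact ⟨-1, by simp, by linarith⟩
    · exact ⟨1, by simp, by linarith⟩
  have e : star (((1 + I) / 2) • (cV (E 2) + (σ * I) • cV (E 3))) =
      ((1 - I) / 2) • (cV (E 2) + (-(σ * I)) • cV (E 3)) := by
    simp only [star_smul, star_add, star_cV]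
    simp [sub_eq_add_neg]
  have c1 : (1 + I) / 2 * ((1 - I) / 2) = 1 / 2 := by linear_combination -I_mul_I / 4
  have o : (σ * I * (cM E).det).im = σ * E.det := by rw [cM_det]; simp
  generalize (1 + I) / 2 = c at e c1
  generalize (1 - I) / 2 = c' at e c1
  generalize σ * I = j at e h1 o
  refine ⟨cV (E 0) + cV (E 1), (1 / 2 : ℂ) • (cV (E 0) + (-1 : ℂ) • cV (E 1)),
    c • (cV (E 2) + j • cV (E 3)), by rw [star_add, star_cV, star_cV],
    by simp [star_cV], ?_, ?_, ?_, ?_, ?_, ?_, ?_, (h2.trans_eq o.symm).trans_eq (congrArg im ?_)⟩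
  any_goals simp only [e, gm_add1, gm_add2, gm_smul1, gm_smul2, t, Fin.reduceEq, if_true, if_false]
  · ring
  · ring
  · linear_combination c ^ 2 * h1
  · ring
  · ring
  · ring
  · linear_combination (1 - j * j) * c1 - h1 / 2
  · rw [show j * (cM E).det = 2 * (c * c') * j * (cM E).det by rw [c1]; ring, det4, det4]
    simp only [frv, e, Pi.add_apply, Pi.smul_apply, smul_eq_mul, cV, cM]
    ring

/-! ### The data at a point -/

def GG (g : Tw) (p : R4) : M4 := cM (g0 (jet 2 g p))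
def HH (g : Tw) (p : R4) : M4 := cM (g0 (jet 2 g p))⁻¹
def UU (g : Tw) (p : R4) : ℝ := √(-(g0 (jet 2 g p))⁻¹.det)
def R6 (g : Tw) (p : R4) : M6 := fun i j =>
  (Rm (tb g) p (bs (p1 i)) (bs (p2 i)) (bs (p1 j)) (bs (p2 j)) : ℂ)

theorem gC_eq (g : Tw) (p : R4) (u v : C4) : gC g p u v = gm (GG g p) u v := by
  simp only [gC, gm, GG, cM, g0_jet, tb_bs, dotProduct, mulVec, Finset.mul_sum]
  exact Finset.sum_congr rfl fun _ _ => Finset.sum_congr rfl fun _ _ => by ring

theorem nf_iff {g : Tw} {p : R4} {l n : V4} {s : C4} :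
    Nf g p l n s ↔ NF (GG g p) (cV l) (cV n) s :=
  ⟨fun h => ⟨star_cV _, star_cV _, gC_eq g p _ _ ▸ h.ll, gC_eq g p _ _ ▸ h.nn, gC_eq g p _ _ ▸ h.ss,
    gC_eq g p _ _ ▸ h.ln, gC_eq g p _ _ ▸ h.ls, gC_eq g p _ _ ▸ h.ns, gC_eq g p _ _ ▸ h.sb, h.ori⟩,
  fun h => ⟨(gC_eq ..).trans h.ll, (gC_eq ..).trans h.nn, (gC_eq ..).trans h.ss,
    (gC_eq ..).trans h.ln, (gC_eq ..).trans h.ls, (gC_eq ..).trans h.ns, (gC_eq ..).trans h.sb,
    h.ori⟩⟩

section
variable {g : Tw} {D : Set R4} {p : R4} (v : Lv g D) (hp : p ∈ D)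
include v hp

theorem wj_eq : WJ (jet 2 g p) = Wp (HH g p) (UU g p) (R6 g p) := by
  simp only [WJ, rj_eq v.isOpen v.met hp]
  rfl

theorem RC_eq (a b c d : C4) : RC g p a b c d = rc (R6 g p) a b c d :=
  (rc_sum (T := fun a b c d => (Rm (tb g) p (bs a) (bs b) (bs c) (bs d) : ℂ))
    (fun a b c d => by rw [rm12, ofReal_neg])
    (fun a b c d => by rw [rm34 (rp_tb v.isOpen v.met) hp, ofReal_neg]) a b c d).symm

theorem gm_re (a b : V4) : gm (GG g p) (cV a) (cV b) = g p (vc a) (vc b) := by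
  rw [GG, gm_cV, ← ip_jet v.isOpen v.met hp 2, ip, co_vc, co_vc]

theorem sig_mat : ∃ A : N4, g0 (jet 2 g p) = Aᵀ * diagonal ![-1, 1, 1, 1] * A := by
  obtain ⟨L, -, -, h⟩ := v.sig p hp
  refine ⟨Matrix.of fun i j => co (L (bs j)) i, Matrix.ext fun a b => ?_⟩
  rw [g0_jet, tb_bs, h]
  simp only [mul_apply, transpose_apply, Fin.sum_univ_four, of_apply]
  simp [mink, co, P354n.cu, P354n.cv, P354n.c1, P354n.c2]

theorem det_neg : (g0 (jet 2 g p)).det < 0 := by
  obtain ⟨A, h⟩ := sig_mat v hp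
  refine lt_of_le_of_ne ?_ (g0_det v.isOpen v.met hp 2)
  rw [h, det_mul, det_mul, det_transpose, det_diagonal]
  simp [Fin.prod_univ_four, mul_self_nonneg]

theorem nf_ex : ∃ l n s, NF (GG g p) l n s := by
  obtain ⟨A, h⟩ := sig_mat v hp
  have d : IsUnit A.det := isUnit_iff_ne_zero.2 fun o => g0_det v.isOpen v.met hp 2 (by
    rw [h, det_mul, o, mul_zero])
  refine ex_nf (E := A⁻¹ᵀ) ?_
  rw [h, transpose_transpose, Matrix.mul_assoc, Matrix.mul_assoc, mul_nonsing_inv _ d, Matrix.mul_one,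
    ← Matrix.mul_assoc, ← transpose_mul, mul_nonsing_inv _ d, transpose_one, Matrix.one_mul]

theorem wy_at : Wy (HH g p) (R6 g p) := by
  have r := rp_tb v.isOpen v.met
  refine ⟨Matrix.ext fun i j => congrArg ofReal (rm_pair r hp ..), ?_, fun a b => ?_⟩
  · have c := congrArg ofReal (rm_cyc r hp (bs 0) (bs 1) (bs 2) (bs 3))
    rw [rm12 (bs 2) (bs 0)] at c
    simp only [trace, diag, mul_apply, Fin.sum_univ_six, R6, pv]
    rw [rm_pair r hp (bs 2) (bs 3) (bs 0) (bs 1), rm_pair r hp (bs 1) (bs 3) (bs 0) (bs 2),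
      rm_pair r hp (bs 0) (bs 3) (bs 1) (bs 2)]
    push_cast at c
    simp [eps]
    linear_combination 2 * c
  · have k : ∀ j k, ∑ a, ∑ b, (g0 (jet 2 g p))⁻¹ a b * Rm (tb g) p (bs a) (bs j) (bs k) (bs b) = 0 :=
      fun j k => by
        rw [← r.vac.1 v.vac p hp (bs j) (bs k), ← r.ric hp (E := bs)
          (E' := fun i => ∑ n, (g0 (jet 2 g p))⁻¹ i n • bs n) fun i j => ?_]
        · refine Finset.sum_congr rfl fun i _ => ?_
          refine ((map_sum (RmL (tb g) p (bs j) (bs k) (bs i)) _ _).trans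
            (Finset.sum_congr rfl fun l _ => ?_)).symm
          rw [map_smul, smul_eq_mul]
          rfl
        · rw [← gi_jet v.isOpen v.met hp 2 i j, map_sum]
          refine Finset.sum_congr rfl fun n _ => ?_
          rw [map_smul, smul_eq_mul, r.symm p hp, ← transpose_apply (g0 (jet 2 g p))⁻¹,
            transpose_nonsing_inv, g0_symm v.isOpen v.met hp]
    have e : ∀ i j, RC g p (Pi.single i 1) a b (Pi.single j 1) =
        ∑ c, ∑ d, (Rm (tb g) p (bs i) (bs c) (bs d) (bs j) : ℂ) * a c * b d := fun i j => by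
      simp [RC, Pi.single_apply]
    have k' := fun j l => congrArg ofReal (k j l)
    simp only [ric, ← RC_eq v hp, e, HH, cM]
    generalize (g0 (jet 2 g p))⁻¹ = X at k' ⊢
    simp only [ofReal_sum, ofReal_mul, ofReal_zero] at k'
    calc _ = ∑ c, ∑ d, (∑ i, ∑ j, (X i j : ℂ) * (Rm (tb g) p (bs i) (bs c) (bs d) (bs j) : ℂ)) *
          a c * b d := by
          simp only [Fin.sum_univ_four]
          ring
      _ = 0 := by simp only [k', zero_mul, Finset.sum_const_zero]

theorem pt_at : Pt (GG g p) (HH g p) (UU g p) (R6 g p) := by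
  have d := det_neg v hp
  have d' : 0 < -(g0 (jet 2 g p))⁻¹.det := by
    rw [det_nonsing_inv, Ring.inverse_eq_inv']
    exact neg_pos.2 (inv_lt_zero.2 d)
  refine ⟨Matrix.ext fun a b => congrArg ofReal (congrFun (congrFun (g0_symm v.isOpen v.met hp 2) a) b),
    ?_, fun a b => conj_ofReal _, Real.sqrt_pos.2 d', ?_, wy_at v hp⟩
  · rw [GG, HH, ← cM_mul, mul_nonsing_inv _ d.ne.isUnit, cM_one]
  · rw [UU, HH, cM_det, ← ofReal_pow, Real.sq_sqrt d'.le, ofReal_neg]

end

end Vale.Agent.P354YN
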