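import Vale.Agent.P354YN.Nat1
import Vale.Agent.P354YN.Smo
import Vale.Agent.P354XM.Inv

/-!
NATU: naturality of the fields under isometries which respect the orientation.
-/

set_option linter.all false
set_option maxSynthPendingDepth 3

open scoped ContDiff
open Set Filter Topology Matrix Complex

noncomputable section

namespace Vale.Agent.P354YN.Na

open Vale.Agent.P354n (R4)
open Vale.Agent.P354R (Met Pull)
open Vale.Agent.P354RC (B2 bs cv sum_bs Gm Rm C1 Rp pb rp_pb Gm_pb Rm_pb p_at at_fd at_df fd_ap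
  fd_comp)
open Vale.Agent.P354XD (tb rp_tb)
open Vale.Agent.P354XE (Tw)
open Vale.Agent.P354XM (ML ml_Rm Rm_anti)
open Vale.Agent.P354XV (Jet jet Lv)

variable {f : R4 → R4} {g g' : Tw} {D D' : Set R4} {p : R4} {m : ℝ} {w : R4}

theorem rp_ev {h h' : R4 → B2} (r : Rp g h D) (r' : Rp g h' D) (hp : p ∈ D) : h =ᶠ[𝓝 p] h' := by
  filter_upwards [r.op.mem_nhds hp] with z hz
  exact ContinuousLinearMap.ext fun a => ContinuousLinearMap.ext fun b =>
    (r.eq z hz a b).symm.trans (r'.eq z hz a b)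

theorem gm_ev {h h' : R4 → B2} (e : h =ᶠ[𝓝 p] h') : Gm h p = Gm h' p := by
  funext a b
  simp only [Gm, C1, e.self_of_nhds, e.fderiv_eq]

theorem rm_ev {h h' : R4 → B2} (e : h =ᶠ[𝓝 p] h') : Rm h p = Rm h' p := by
  funext a b c d
  simp only [Rm, P354RC.dC, gm_ev e, e.self_of_nhds, e.fderiv.fderiv_eq]

theorem ml_rc {R : R4 → R4 → R4 → R4 → ℝ} (l : ML R) (a1 : ∀ a b c d, R a b c d = -R b a c d)
    (a2 : ∀ a b c d, R a b c d = -R a b d c) (u v s t : R4) :
    (R u v s t : ℂ) = rc (fun i j => (R (bs (p1 i)) (bs (p2 i)) (bs (p1 j)) (bs (p2 j)) : ℂ))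
      (cV (co u)) (cV (co v)) (cV (co s)) (cV (co t)) := by
  have z1 : ∀ a c d, R a a c d = 0 := fun a c d => by linarith [a1 a a c d]
  have z2 : ∀ a b c, R a b c c = 0 := fun a b c => by linarith [a2 a b c c]
  conv_lhs => rw [← sum_bs u, ← sum_bs v, ← sum_bs s, ← sum_bs t, l.sum]
  simp only [rc, wg, cV, co_eq, mulVec, dotProduct, Fin.sum_univ_six, Fin.sum_univ_four, pv, z1, z2,
    a1 (bs 1) (bs 0), a1 (bs 2) (bs 0), a1 (bs 3) (bs 0), a1 (bs 2) (bs 1), a1 (bs 3) (bs 1),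
    a1 (bs 3) (bs 2), fun a b => a2 a b (bs 1) (bs 0), fun a b => a2 a b (bs 2) (bs 0),
    fun a b => a2 a b (bs 3) (bs 0), fun a b => a2 a b (bs 2) (bs 1),
    fun a b => a2 a b (bs 3) (bs 1), fun a b => a2 a b (bs 3) (bs 2)]
  push_cast
  ring

theorem dj_jet {F : Type} [NormedAddCommGroup F] [NormedSpace ℝ F] {k : ℕ} {Φ : Jet k → F}
    (hD : IsOpen D) (t : Met g D) (hp : p ∈ D) (h : SA Φ (jet k g p)) (a : Fin 4) :
    dj Φ (jet (k + 1) g p) a = fderiv ℝ (fun y => Φ (jet k g y)) p (bs a) := by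
  have s := fun u v => (t.smooth u v).contDiffAt (hD.mem_nhds hp)
  rw [fderiv_fun_comp p (h.differentiableAt (by simp)) (at_df (jet_at k s)),
    ContinuousLinearMap.comp_apply, fd_jet k s]
  rfl

theorem jet_sa (hD : IsOpen D) (t : Met g D) (hp : p ∈ D) (k : ℕ) : SA (jet k g) p :=
  jet_at k fun u v => (t.smooth u v).contDiffAt (hD.mem_nhds hp)

/-- The covariant derivative of a natural field. -/
theorem nab_jet {F : A3 → R4} (hD : IsOpen D) (t : Met g D) (hp : p ∈ D)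
    (h : SA F (m, jet 3 g p, w)) (v : R4) : nab F (m, jet 4 g p, w) v =
      fderiv ℝ (fun y => F (m, jet 3 g y, w)) p v + Gm (tb g) p v (F (m, jet 3 g p, w)) := by
  have := fun a => dj_jet (Φ := fun y => F (m, y, w)) hD t hp
    (h.comp (jet 3 g p) (contDiffAt_const.prodMk (contDiffAt_id.prodMk contDiffAt_const))) a
  conv_rhs => rw [← gj_jet hD t hp 3, ← sum_bs v, map_sum, sum_bs v]
  simp only [nab, this, map_smul, co_eq]
  rfl

section
variable (P : Pull f g' D' g D) (hp : p ∈ D')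
include P hp

theorem met' : Met g' D' := (rp_pb P (rp_tb P.isOpen P.met)).met

theorem ev' : tb g' =ᶠ[𝓝 p] pb (tb g) f :=
  rp_ev (rp_tb P.open' (met' P hp)) (rp_pb P (rp_tb P.isOpen P.met)) hp

theorem gm' (a b : R4) : fderiv ℝ f p (Gm (tb g') p a b) =
    Gm (tb g) (f p) (fderiv ℝ f p a) (fderiv ℝ f p b) + fderiv ℝ (fderiv ℝ f) p a b := by
  rw [gm_ev (ev' P hp), Gm_pb P (rp_tb P.isOpen P.met) hp]

theorem pos_ev (h : 0 < (mat (fderiv ℝ f p)).det) :
    ∀ᶠ y in 𝓝 p, y ∈ D' ∧ 0 < (mat (fderiv ℝ f y)).det := by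
  have : MS (fun y => mat (fderiv ℝ f y)) p := fun a b =>
    (SA.co ((at_fd (p_at P hp)).clm_apply contDiffAt_const)).ap a
  exact (P.open'.eventually_mem hp).and (this.det.continuousAt.eventually (lt_mem_nhds h))

variable (h : 0 < (mat (fderiv ℝ f p)).det)
include h

theorem rg (k : ℕ) : Rg (mat (fderiv ℝ f p)) (jet k g' p) (jet k g (f p)) := by
  refine ⟨h, g0_det P.isOpen P.met (P.maps hp) k, Matrix.ext fun a b => ?_⟩
  rw [g0_jet, P354XD.tb_bs, P.eq p hp, ← ip_jet P.isOpen P.met (P.maps hp) k, ip]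
  simp only [mul_apply, transpose_apply, mat, of_apply, mulVec, dotProduct, Fin.sum_univ_four]
  ring

theorem cvw : Cv (cM (mat (fderiv ℝ f p))) (cM (mat (fderiv ℝ f p))⁻¹) (WJ (jet 2 g (f p)))
    (WJ (jet 2 g' p)) := by
  have r := rp_tb P.isOpen P.met
  refine (rg P hp h 2).cv (Matrix.ext fun i j => ?_)
  have e : ∀ i, wg (cV (co (fderiv ℝ f p (bs (p1 i))))) (cV (co (fderiv ℝ f p (bs (p2 i))))) =
      fun n => L2 (cM (mat (fderiv ℝ f p))) n i := fun i => by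
    funext n
    simp only [wg, L2, cV, cM, mat, of_apply]
    ring
  rw [R6, rj_eq P.open' (met' P hp) hp, rm_ev (ev' P hp), Rm_pb P r hp,
    ml_rc (ml_Rm _ _) (fun _ _ _ _ => by simp only [Rm]; ring) (Rm_anti r (P.maps hp))]
  unfold rc
  rw [e, e, mul_assoc]
  simp only [R6, rj_eq P.isOpen P.met (P.maps hp), mul_apply, transpose_apply, mulVec, dotProduct]

theorem yn (m : ℝ) : YN m g' p = YN m g (f p) := by rw [YN, YN, YJ, YJ, (cvw P hp h).lam]

theorem u2 (m : ℝ) : (m, jet 2 g' p) ∈ U2 ↔ (m, jet 2 g (f p)) ∈ U2 :=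
  u2_iff (rg P hp h 2) (cvw P hp h) m

theorem r3 (u : (m, jet 2 g' p) ∈ U2) (w : R4) :
    R3 (fderiv ℝ f p) (m, jet 3 g' p, w) (m, jet 3 g (f p), fderiv ℝ f p w) := by
  refine ⟨rfl, rfl, rg P hp h 3, cvw P hp h, funext fun a => ?_⟩
  have y : ∀ {x : Jet 2}, (m, x) ∈ U2 → SA (YJ m) x := fun u =>
    (yj_at u).comp _ (contDiffAt_const.prodMk contDiffAt_id)
  have v := y ((u2 P hp h m).1 u)
  have e : (fun y => YJ m (jet 2 g' y)) =ᶠ[𝓝 p] fun y => YJ m (jet 2 g (f y)) :=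
    (pos_ev P hp h).mono fun y hy => yn P hy.1 hy.2 m
  have d := fun a => dj_jet P.isOpen P.met (P.maps hp) v a
  show dj (YJ m) (jet (2 + 1) g' p) a = ∑ b, _ * dj (YJ m) (jet (2 + 1) g (f p)) b
  rw [dj_jet P.open' (met' P hp) hp (y u), e.fderiv_eq,
    fd_comp (c := fun y => YJ m (jet 2 g y)) (v.comp _ (jet_sa P.isOpen P.met (P.maps hp) 2))
      (p_at P hp), ← sum_bs (fderiv ℝ f p (bs a)), map_sum]
  simp only [d, map_smul, transpose_apply, cM, mat, of_apply, co_eq, real_smul]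

theorem ad (m : ℝ) (w : R4) : Ad m g' w p ↔ Ad m g (fderiv ℝ f p w) (f p) := by
  refine ⟨fun a => ?_, fun a => ?_⟩
  · have r := r3 P hp h a.1 w
    exact ⟨(u2 P hp h m).1 a.1, by rw [r.qj]; exact a.2.1, by rw [r.mu]; exact a.2.2⟩
  · have u := (u2 P hp h m).2 a.1
    have r := r3 P hp h u w
    exact ⟨u, by rw [← r.qj]; exact a.2.1, by rw [← r.mu]; exact a.2.2⟩

end

/-- The fields do not depend on w near an admissible point. -/
theorem ind_ev (fl : FLD) (L : Lv g D) {X : Type} [NormedAddCommGroup X] [NormedSpace ℝ X] {x : X}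
    {q u : X → R4} (hq : SA q x) (hu : SA u x) (hx : q x ∈ D) (a : Ad m g (u x) (q x)) :
    ∀ᶠ y in 𝓝 x, lN m g (u y) (q y) = lN m g (u x) (q y) ∧ nN m g (u y) (q y) = nN m g (u x) (q y) ∧
      zN m g (u y) (q y) = zN m g (u x) (q y) := by
  have j : SA (fun y => ((m, jet 3 g (q y), u x) : A3)) x :=
    contDiffAt_const.prodMk (((jet_sa L.isOpen L.met hx 3).comp x hq).prodMk contDiffAt_const)
  have s : SA (fun y => ip (jet 3 g (q y)) (lN m g (u x) (q y) + nN m g (u x) (q y)) (u y)) x :=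
    SA.ip j.snd.fst (((lj_at a).comp x j).add ((nj_at a).comp x j)) hu
  filter_upwards [hq.continuousAt.eventually (L.isOpen.mem_nhds hx),
    j.continuousAt.eventually (u3_open.mem_nhds a), s.continuousAt.eventually (gt_mem_nhds
      ((ip_jet L.isOpen L.met hx 3 _ _).trans_lt (fl m g D _ _ L hx a).fut))] with y b c d
  have := (fl m g D (u x) (q y) L b c).ind (u y) ((ip_jet L.isOpen L.met b 3 _ _).symm.trans_lt d)
  exact ⟨this.2.2.1, this.2.2.2.1, this.2.2.2.2.1⟩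

theorem nab_nat (P : Pull f g' D' g D) (hp : p ∈ D') {F : A3 → R4}
    (s' : SA F (m, jet 3 g' p, w)) (s : SA F (m, jet 3 g (f p), fderiv ℝ f p w))
    (e : ∀ᶠ y in 𝓝 p, fderiv ℝ f y (F (m, jet 3 g' y, w)) = F (m, jet 3 g (f y), fderiv ℝ f p w))
    (v : R4) : fderiv ℝ f p (nab F (m, jet 4 g' p, w) v) =
      nab F (m, jet 4 g (f p), fderiv ℝ f p w) (fderiv ℝ f p v) := by
  have k := p_at P hp
  have d := DFunLike.congr_fun (EventuallyEq.fderiv_eq (𝕜 := ℝ) e) v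
  rw [fd_ap (u := fun y => F (m, jet 3 g' y, w)) (at_fd k) (s'.comp p (contDiffAt_const.prodMk
    ((jet_sa P.open' (met' P hp) hp 3).prodMk contDiffAt_const))),
    fd_comp (c := fun y => F (m, jet 3 g y, fderiv ℝ f p w)) (s.comp (f p) (contDiffAt_const.prodMk
      ((jet_sa P.isOpen P.met (P.maps hp) 3).prodMk contDiffAt_const))) k] at d
  rw [nab_jet P.open' (met' P hp) hp s', nab_jet P.isOpen P.met (P.maps hp) s, map_add, gm' P hp,
    e.self_of_nhds, ← d]
  abel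

theorem natu (fl : FLD) : NATU := by
  intro m f g' D' g D p w P L hp h
  rw [← det_mat] at h
  have c := cvw P hp h
  refine ⟨c.iI.symm, c.iJ.symm, yn P hp h m, ad P hp h m w, fun a => ?_⟩
  have r := r3 P hp h a.1 w
  have a' := (ad P hp h m w).1 a
  have k := p_at P hp
  have i := ind_ev fl L k ((at_fd k).clm_apply (contDiffAt_const (c := w))) (P.maps hp) a'
  have j : SA (fun y => ((m, jet 3 g' y, w) : A3)) p :=
    contDiffAt_const.prodMk ((jet_sa P.open' (met' P hp) hp 3).prodMk contDiffAt_const)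
  have ev : ∀ᶠ y in 𝓝 p, R3 (fderiv ℝ f y) (m, jet 3 g' y, w) (m, jet 3 g (f y), fderiv ℝ f y w) := by
    filter_upwards [pos_ev P hp h, j.continuousAt.eventually (u3_open.mem_nhds a)] with y b c
    exact r3 P b.1 b.2 c.1 w
  have nl := nab_nat P hp (lj_at a) (lj_at a') ((ev.and i).mono fun y b => b.1.lj.trans b.2.1)
  have nn := nab_nat P hp (nj_at a) (nj_at a') ((ev.and i).mono fun y b => b.1.nj.trans b.2.2.1)
  have nz := nab_nat P hp (zj_at a) (zj_at a') ((ev.and i).mono fun y b => b.1.zj.trans b.2.2.2)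
  have aj : ∀ F F2 : A3 → R4, (∀ v, fderiv ℝ f p (nab F (m, jet 4 g' p, w) v) =
      nab F (m, jet 4 g (f p), fderiv ℝ f p w) (fderiv ℝ f p v)) →
      fderiv ℝ f p (F (m, jet 3 g' p, w)) = F (m, jet 3 g (f p), fderiv ℝ f p w) →
      fderiv ℝ f p (F2 (m, jet 3 g' p, w)) = F2 (m, jet 3 g (f p), fderiv ℝ f p w) → ∀ v,
      fderiv ℝ f p (AJ F F2 (m, jet 4 g' p, w) v) =
        AJ F F2 (m, jet 4 g (f p), fderiv ℝ f p w) (fderiv ℝ f p v) := fun F F2 n e e2 v => by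
    have t := (rg P hp h 4).ip _ rfl
    simp only [AJ, dn, tr_jet, map_smul, map_sub, ← t, n, e, e2, r.mu]
  refine ⟨r.qj.symm, r.mu.symm, r.lj, r.nj, r.zj, fun F hF => ?_,
    fun v => ⟨aj _ _ nl r.lj r.nj v, aj _ _ nn r.nj r.lj v⟩⟩
  rcases hF with rfl | rfl | rfl
  exacts [nl, nn, nz]

end Vale.Agent.P354YN.Na
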