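import Vale.Agent.P354YN.Defs

/-!
NAT: covariance of the self dual Weyl operator, and its form in a null frame.
-/

set_option linter.all false

open Matrix Complex

noncomputable section

namespace Vale.Agent.P354YN

theorem pv : p1 0 = 0 ∧ p1 1 = 0 ∧ p1 2 = 0 ∧ p1 3 = 1 ∧ p1 4 = 1 ∧ p1 5 = 2 ∧
    p2 0 = 1 ∧ p2 1 = 2 ∧ p2 2 = 3 ∧ p2 3 = 2 ∧ p2 4 = 3 ∧ p2 5 = 3 := by decide

theorem all3 {P : Fin 3 → Prop} : (∀ i, P i) ↔ P 0 ∧ P 1 ∧ P 2 := by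
  simp only [Fin.forall_fin_succ, Fin.forall_fin_zero, and_true]; rfl
theorem all4 {P : Fin 4 → Prop} : (∀ i, P i) ↔ P 0 ∧ P 1 ∧ P 2 ∧ P 3 := by
  simp only [Fin.forall_fin_succ, Fin.forall_fin_zero, and_true]; rfl
theorem all6 {P : Fin 6 → Prop} : (∀ i, P i) ↔ P 0 ∧ P 1 ∧ P 2 ∧ P 3 ∧ P 4 ∧ P 5 := by
  simp only [Fin.forall_fin_succ, Fin.forall_fin_zero, and_true]; rfl

theorem amv (H : Fin 6 → ℂ) : am H 0 0 = 0 ∧ am H 0 1 = H 0 ∧ am H 0 2 = H 1 ∧ am H 0 3 = H 2 ∧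
    am H 1 0 = -H 0 ∧ am H 1 1 = 0 ∧ am H 1 2 = H 3 ∧ am H 1 3 = H 4 ∧
    am H 2 0 = -H 1 ∧ am H 2 1 = -H 3 ∧ am H 2 2 = 0 ∧ am H 2 3 = H 5 ∧
    am H 3 0 = -H 2 ∧ am H 3 1 = -H 4 ∧ am H 3 2 = -H 5 ∧ am H 3 3 = 0 :=
  ⟨rfl, rfl, rfl, rfl, rfl, rfl, rfl, rfl, rfl, rfl, rfl, rfl, rfl, rfl, rfl, rfl⟩

theorem L2_mul (A B : M4) : L2 (A * B) = L2 A * L2 B := by
  ext i j
  simp only [L2, mul_apply, Fin.sum_univ_six, Fin.sum_univ_four, pv]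
  ring

theorem L2_one : L2 1 = 1 := by
  refine Matrix.ext ?_
  simp only [all6, L2, pv]
  simp [one_apply, pv]

theorem L2_tr (A : M4) : L2 Aᵀ = (L2 A)ᵀ := by
  ext i j
  simp only [L2, transpose_apply]
  ring

theorem L2_wg (A : M4) (u v : C4) : L2 A *ᵥ wg u v = wg (A *ᵥ u) (A *ᵥ v) := by
  ext i
  simp only [L2, wg, mulVec, dotProduct, Fin.sum_univ_six, Fin.sum_univ_four, pv]
  ring

theorem am_L2 (A : M4) (H : Fin 6 → ℂ) : am (L2 A *ᵥ H) = A * am H * Aᵀ := by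
  refine Matrix.ext ?_
  simp only [all4, amv, L2, mulVec, dotProduct, mul_apply, transpose_apply, Fin.sum_univ_six,
    Fin.sum_univ_four, pv]
  refine ⟨⟨?_, ?_, ?_, ?_⟩, ⟨?_, ?_, ?_, ?_⟩, ⟨?_, ?_, ?_, ?_⟩, ⟨?_, ?_, ?_, ?_⟩⟩ <;> ring

theorem det4 (A : M4) : A.det =
    (A 0 0 * A 1 1 - A 0 1 * A 1 0) * (A 2 2 * A 3 3 - A 2 3 * A 3 2) -
    (A 0 0 * A 1 2 - A 0 2 * A 1 0) * (A 2 1 * A 3 3 - A 2 3 * A 3 1) +
    (A 0 0 * A 1 3 - A 0 3 * A 1 0) * (A 2 1 * A 3 2 - A 2 2 * A 3 1) +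
    (A 0 1 * A 1 2 - A 0 2 * A 1 1) * (A 2 0 * A 3 3 - A 2 3 * A 3 0) -
    (A 0 1 * A 1 3 - A 0 3 * A 1 1) * (A 2 0 * A 3 2 - A 2 2 * A 3 0) +
    (A 0 2 * A 1 3 - A 0 3 * A 1 2) * (A 2 0 * A 3 1 - A 2 1 * A 3 0) := by
  have e : (0 : Fin 4).succAbove 0 = 1 ∧ (0 : Fin 4).succAbove 1 = 2 ∧ (0 : Fin 4).succAbove 2 = 3 ∧
      (1 : Fin 4).succAbove 0 = 0 ∧ (1 : Fin 4).succAbove 1 = 2 ∧ (1 : Fin 4).succAbove 2 = 3 ∧
      (2 : Fin 4).succAbove 0 = 0 ∧ (2 : Fin 4).succAbove 1 = 1 ∧ (2 : Fin 4).succAbove 2 = 3 ∧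
      (3 : Fin 4).succAbove 0 = 0 ∧ (3 : Fin 4).succAbove 1 = 1 ∧ (3 : Fin 4).succAbove 2 = 2 ∧
      (0 : Fin 3).succ = 1 ∧ (1 : Fin 3).succ = 2 ∧ (2 : Fin 3).succ = 3 ∧
      ((0 : Fin 4) : ℕ) = 0 ∧ ((1 : Fin 4) : ℕ) = 1 ∧ ((2 : Fin 4) : ℕ) = 2 ∧
      ((3 : Fin 4) : ℕ) = 3 := by decide
  rw [det_succ_row_zero]
  simp only [Fin.sum_univ_four, det_fin_three, submatrix_apply, e]
  ring

theorem eps_ap (X Y : M6) (i j : Fin 6) : (X * eps * Yᵀ) i j =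
    X i 0 * Y j 5 - X i 1 * Y j 4 + X i 2 * Y j 3 + X i 3 * Y j 2 - X i 4 * Y j 1 + X i 5 * Y j 0 := by
  simp only [mul_apply, Fin.sum_univ_six, transpose_apply]
  simp [eps]
  ring

theorem eps_cov (A : M4) : L2 A * eps * (L2 A)ᵀ = A.det • eps := by
  refine Matrix.ext ?_
  simp only [all6, eps_ap, det4, L2, pv, Matrix.smul_apply, smul_eq_mul]
  simp only [eps, of_apply, cons_val', cons_val, cons_val_zero, cons_val_one, cons_val_fin_one]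
  (repeat' apply And.intro) <;> ring

/-- W is conjugate to W' by the compound of L; K is the inverse of L. -/
structure Cv (L K : M4) (W W' : M6) : Prop where
  lk : L * K = 1
  eq : W = L2 L * W' * L2 K

theorem cv_Wp {L K h h' : M4} {u u' : ℂ} {R : M6} (lk : L * K = 1) (eh : h = L * h' * Lᵀ)
    (eu : u' * L.det = u) : Cv L K (Wp h u R) (Wp h' u' ((L2 L)ᵀ * R * L2 L)) := by
  refine ⟨lk, ?_⟩
  have e : L2 L * L2 K = 1 := by rw [← L2_mul, lk, L2_one]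
  have e1 : L2 h + (I * u) • eps = L2 L * (L2 h' + (I * u') • eps) * (L2 L)ᵀ := by
    rw [mul_add, add_mul, mul_smul_comm, smul_mul_assoc, eps_cov, eh, L2_mul, L2_mul, L2_tr,
      smul_smul, ← eu, mul_assoc I]
  simp only [Wp, e1, mul_smul_comm, smul_mul_assoc, mul_assoc, e, mul_one]

namespace Cv
variable {L K : M4} {W W' : M6} (c : Cv L K W W')
include c

theorem kl : K * L = 1 := mul_eq_one_comm.1 c.lk
theorem ab : L2 L * L2 K = 1 := by rw [← L2_mul, c.lk, L2_one]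
theorem ba : L2 K * L2 L = 1 := by rw [← L2_mul, c.kl, L2_one]
theorem ba' (X : M6) : L2 K * (L2 L * X) = X := by rw [← mul_assoc, c.ba, one_mul]

theorem tr (X : M6) : (L2 L * (X * L2 K)).trace = X.trace := by
  rw [trace_mul_comm, mul_assoc, c.ba, mul_one]

theorem iI : iI W = iI W' := by
  simp only [P354YN.iI, c.eq, mul_assoc, c.ba']
  rw [← mul_assoc W', c.tr]

theorem iJ : iJ W = iJ W' := by
  simp only [P354YN.iJ, c.eq, mul_assoc, c.ba']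
  rw [← mul_assoc W' W', ← mul_assoc (W' * W'), c.tr, mul_assoc]

theorem iS : iS W = iS W' := by rw [P354YN.iS, c.iI, c.iJ, P354YN.iS]
theorem lam : lam W = lam W' := by rw [P354YN.lam, c.iI, c.iJ, c.iS, P354YN.lam]

theorem Pj : Pj W = L2 L * Pj W' * L2 K := by
  rw [P354YN.Pj, P354YN.Pj, c.lam, c.iI, c.eq]
  simp only [mul_add, add_mul, mul_smul_comm, smul_mul_assoc, mul_assoc, c.ba', mul_one]

theorem pjv (F : Fin 6 → ℂ) : P354YN.Pj W *ᵥ (L2 L *ᵥ F) = L2 L *ᵥ (P354YN.Pj W' *ᵥ F) := by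
  simp only [c.Pj, mulVec_mulVec, mul_assoc, c.ba, mul_one]

theorem qq (g : M4) (F : Fin 6 → ℂ) : qq g W (L2 L *ᵥ F) = qq (Lᵀ * g * L) W' F := by
  rw [P354YN.qq, P354YN.qq, c.pjv, L2_mul, L2_mul, L2_tr, mul_assoc, ← mulVec_mulVec,
    ← mulVec_mulVec, dotProduct_mulVec _ (L2 L)ᵀ, vecMul_transpose]

theorem Ze (g : M4) (F : Fin 6 → ℂ) : Ze g W (L2 L *ᵥ F) = L * Ze (Lᵀ * g * L) W' F * K := by
  rw [P354YN.Ze, P354YN.Ze, c.qq, c.pjv, am_L2]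
  simp only [mul_smul_comm, smul_mul_assoc, mul_assoc, c.lk, mul_one]

end Cv

/-! ### The standard null frame -/

def eta : M4 := !![0, -1, 0, 0; -1, 0, 0, 0; 0, 0, 0, 1; 0, 0, 1, 0]
def E3 : Matrix (Fin 6) (Fin 3) ℂ := !![0, 1, 0; 1, 0, 0; 0, 0, 0; 0, 0, 0; 0, 0, 1; 0, -1, 0]
def C3 : Matrix (Fin 3) (Fin 6) ℂ :=
  !![0, 1, 0, 0, 0, 0; 1 / 2, 0, 0, 0, 0, -1 / 2; 0, 0, 0, 0, 1, 0]
def M3 (x0 x1 x2 x3 x4 : ℂ) : Matrix (Fin 3) (Fin 3) ℂ :=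
  !![-x2, -2 * x3, x4; x1, 2 * x2, -x3; x0, 2 * x1, -x2]
def D4 : M4 := !![-1, 0, 0, 0; 0, 1, 0, 0; 0, 0, -1, 0; 0, 0, 0, 1]

theorem CE : C3 * E3 = 1 := by
  refine Matrix.ext ?_
  simp only [all3, mul_apply, Fin.sum_univ_six]
  simp [C3, E3]
  norm_num

theorem L2_eta : L2 eta = !![-1, 0, 0, 0, 0, 0; 0, 0, 0, 0, -1, 0; 0, 0, 0, -1, 0, 0;
    0, 0, -1, 0, 0, 0; 0, -1, 0, 0, 0, 0; 0, 0, 0, 0, 0, -1] := by
  refine Matrix.ext ?_
  simp only [all6, L2, pv]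
  simp [eta]

/-- The curvature on four vectors, and the Ricci curvature. -/
def rc (R : M6) (u v s t : C4) : ℂ := wg u v ⬝ᵥ (R *ᵥ wg s t)
def ric (h : M4) (R : M6) (v s : C4) : ℂ :=
  ∑ a, ∑ b, h a b * rc R (Pi.single a 1) v s (Pi.single b 1)

/-- A Weyl tensor. -/
structure Wy (h : M4) (R : M6) : Prop where
  sy : Rᵀ = R
  cyc : (eps * R).trace = 0
  ric : ∀ v s, ric h R v s = 0

theorem rc_cov (L : M4) (R : M6) (u v s t : C4) :
    rc ((L2 L)ᵀ * R * L2 L) u v s t = rc R (L *ᵥ u) (L *ᵥ v) (L *ᵥ s) (L *ᵥ t) := by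
  rw [rc, rc, ← L2_wg, ← L2_wg, mul_assoc, ← mulVec_mulVec, ← mulVec_mulVec,
    dotProduct_mulVec _ (L2 L)ᵀ, vecMul_transpose]

theorem rc_exp (R : M6) (u v s t : C4) :
    rc R u v s t = ∑ a, ∑ b, u a * t b * rc R (Pi.single a 1) v s (Pi.single b 1) := by
  simp only [rc, wg, mulVec, dotProduct, Fin.sum_univ_six, Fin.sum_univ_four, pv]
  simp
  ring

theorem Wy.cov {h h' L : M4} {R : M6} (w : Wy h R) (eh : h = L * h' * Lᵀ) :
    Wy h' ((L2 L)ᵀ * R * L2 L) := by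
  refine ⟨by rw [transpose_mul, transpose_mul, transpose_transpose, w.sy, mul_assoc], ?_,
    fun v s => ?_⟩
  · rw [← mul_assoc, trace_mul_comm, ← mul_assoc, ← mul_assoc, eps_cov,
      smul_mul_assoc, trace_smul, w.cyc, smul_zero]
  · rw [← w.ric (L *ᵥ v) (L *ᵥ s)]
    simp only [P354YN.ric, rc_cov, eh]
    simp only [fun a b => rc_exp R (L *ᵥ Pi.single a 1) (L *ᵥ v) (L *ᵥ s) (L *ᵥ Pi.single b 1)]
    generalize (fun a b => rc R (Pi.single a 1) (L *ᵥ v) (L *ᵥ s) (Pi.single b 1)) = X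
    simp only [mulVec_single_one, col_apply, mul_apply, transpose_apply, Fin.sum_univ_four]
    ring

def Q3 : Matrix (Fin 3) (Fin 6) ℂ := !![0, 0, 0, 0, -2, 0; -1, 0, 0, 0, 0, 1; 0, -2, 0, 0, 0, 0]

theorem EQ : L2 eta + eps = E3 * Q3 := by
  rw [L2_eta]
  refine Matrix.ext ?_
  simp only [all6, mul_apply, Fin.sum_univ_three, Matrix.add_apply]
  simp [eps, E3, Q3]
  norm_num

theorem Wy.std {T : M6} (w : Wy eta T) :
    Wp eta (-I) T = E3 * M3 (-T 1 1) (-T 0 1) (T 4 1) (T 0 4) (-T 4 4) * C3 := by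
  have s : ∀ i j, T i j = T j i := fun i j => congrFun (congrFun w.sy j) i
  have c := w.cyc
  have r : ∀ a b : Fin 4, -rc T (Pi.single 0 1) (Pi.single a 1) (Pi.single b 1) (Pi.single 1 1) -
      rc T (Pi.single 1 1) (Pi.single a 1) (Pi.single b 1) (Pi.single 0 1) +
      rc T (Pi.single 2 1) (Pi.single a 1) (Pi.single b 1) (Pi.single 3 1) +
      rc T (Pi.single 3 1) (Pi.single a 1) (Pi.single b 1) (Pi.single 2 1) = 0 := fun a b => by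
    rw [← w.ric (Pi.single a 1) (Pi.single b 1)]
    simp [P354YN.ric, eta, Fin.sum_univ_four]
    ring
  have r00 := r 0 0
  have r11 := r 1 1
  have r22 := r 2 2
  have r33 := r 3 3
  have r01 := r 0 1
  have r02 := r 0 2
  have r03 := r 0 3
  have r12 := r 1 2
  have r13 := r 1 3
  have r23 := r 2 3
  simp only [trace, diag, mul_apply, Fin.sum_univ_six] at c
  simp [eps] at c
  simp only [rc, wg, mulVec, dotProduct, Fin.sum_univ_six, pv]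
    at r00 r11 r22 r33 r01 r02 r03 r12 r13 r23
  simp at r00 r11 r22 r33 r01 r02 r03 r12 r13 r23
  have i : I * -I = 1 := by rw [mul_neg, I_mul_I, neg_neg]
  rw [Wp, i, one_smul, EQ, Matrix.mul_assoc, Matrix.mul_assoc, ← Matrix.mul_smul]
  congr 1
  refine Matrix.ext ?_
  simp only [all3, all6, Matrix.smul_apply, mul_apply, Fin.sum_univ_six, Fin.sum_univ_three]
  simp only [Q3, M3, C3, of_apply, cons_val', cons_val, cons_val_zero, cons_val_one,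
    cons_val_fin_one, smul_eq_mul]
  simp only [s 1 0, s 2 0, s 3 0, s 4 0, s 5 0, s 2 1, s 3 1, s 4 1, s 5 1, s 3 2, s 4 2, s 5 2,
    s 4 3, s 5 3, s 5 4] at *
  refine ⟨⟨?_, ?_, ?_, ?_, ?_, ?_⟩, ⟨?_, ?_, ?_, ?_, ?_, ?_⟩, ⟨?_, ?_, ?_, ?_, ?_, ?_⟩⟩
  · ring
  · ring
  · linear_combination -r33 / 2
  · linear_combination r11 / 2
  · ring
  · linear_combination -r13
  · linear_combination r01 / 2 + c / 4
  · linear_combination -r02 / 2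
  · linear_combination r03 / 2
  · linear_combination -r12 / 2
  · linear_combination r13 / 2
  · linear_combination r23 / 2 - c / 4
  · ring
  · ring
  · linear_combination r00 / 2
  · linear_combination -r22 / 2
  · ring
  · linear_combination r02

end Vale.Agent.P354YN
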