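import Vale.Agent.P354YN.Nat2

/-!
FLD: the properties of the natural fields at an admissible point, from their form in a frame.
-/

set_option linter.all false
set_option maxSynthPendingDepth 3

open scoped ContDiff
open Set Filter Topology Matrix Complex

noncomputable section

namespace Vale.Agent.P354YN.Na

open Vale.Agent.P354n (R4)
open Vale.Agent.P354R (Met)
open Vale.Agent.P354RC (B2 bs Gm Rp at_df fd_ap)
open Vale.Agent.P354XD (tb rp_tb tb_bs)
open Vale.Agent.P354XE (Tw)
open Vale.Agent.P354XV (Jet jet Lv)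

variable {g : Tw} {D : Set R4} {p w : R4} {m : ℝ}

theorem gC_re (L : Lv g D) (hp : p ∈ D) (u v : V4) :
    gC g p (cV u) (cV v) = (tb g p (vc u) (vc v) : ℝ) := by
  rw [← (rp_tb L.isOpen L.met).eq p hp, ← ip_jet L.isOpen L.met hp 0]
  simp only [gC, ip, co_vc, cV, dotProduct, mulVec, g0_jet, tb_bs, Fin.sum_univ_four]
  push_cast
  ring

/-- The part of Fld which does not involve derivatives of the fields. -/
structure F0 (m : ℝ) (g : Tw) (w p : R4) : Prop where
  ll : tb g p (lN m g w p) (lN m g w p) = 0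
  nn : tb g p (nN m g w p) (nN m g w p) = 0
  ln : tb g p (lN m g w p) (nN m g w p) = -(mN m g w p)⁻¹
  lr : fderiv ℝ (rN m g) p (lN m g w p) = 1
  nr : fderiv ℝ (rN m g) p (nN m g w p) = -1
  fut : tb g p (lN m g w p + nN m g w p) w < 0
  ind : ∀ w', tb g p (lN m g w p + nN m g w p) w' < 0 → Ad m g w' p ∧ mN m g w' p = mN m g w p ∧
    lN m g w' p = lN m g w p ∧ nN m g w' p = nN m g w p ∧ zN m g w' p = zN m g w p

theorem f0 (fm : FRM) (L : Lv g D) (hp : p ∈ D) (a : Ad m g w p) : F0 m g w p := by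
  obtain ⟨l, n, s, q, t, T, e, S⟩ := fm.1 m g D w p L hp a
  have r := rp_tb L.isOpen L.met
  have k := fun w' (S' : Sg m g w' p l n) => fm.2.2 m g D w' p l n s q t L hp a.1 T e S'
  obtain ⟨-, -, em, el, en, ez⟩ := k w S
  have ll := T.ll
  have nn := T.nn
  have ln := T.ln
  rw [gC_re L hp] at ll nn ln
  replace ll := ofReal_eq_zero.1 ll
  replace nn := ofReal_eq_zero.1 nn
  replace ln : tb g p (vc l) (vc n) = -1 := ofReal_injective (by rw [ln]; simp)
  obtain ⟨s1, s2⟩ := S
  have a0 := left_ne_zero_of_mul s1.ne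
  have b0 := right_ne_zero_of_mul s1.ne
  have f : ∀ w', tb g p (lN m g w p + nN m g w p) w' < 0 ↔ Sg m g w' p l n := fun w' => by
    simp only [Sg, el, en, r.eq p hp, map_add, map_neg, map_smul, ContinuousLinearMap.add_apply,
      ContinuousLinearMap.neg_apply, ContinuousLinearMap.smul_apply, smul_eq_mul, s1, true_and]
    generalize fderiv ℝ (rN m g) p (vc l) = x at *
    generalize fderiv ℝ (rN m g) p (vc n) = y at *
    generalize tb g p (vc l) w' = c
    generalize tb g p (vc n) w' = d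
    rw [show x⁻¹ * c + -(y⁻¹ * d) = (c * y - d * x) / (x * y) by field_simp; ring,
      div_neg_iff, sub_pos]
    exact ⟨fun h => h.elim (·.1) fun h => absurd h.2 s1.not_gt, fun h => .inl ⟨h, s1⟩⟩
  refine ⟨by simp [el, ll], by simp [en, nn], ?_, by simp [el, a0], by simp [en, b0],
    (f w).2 ⟨s1, s2⟩, fun w' h => ?_⟩
  · simp only [el, en, em, map_neg, map_smul, ContinuousLinearMap.smul_apply, smul_eq_mul, ln]
    field_simp
  · obtain ⟨a', -, em', el', en', ez'⟩ := k w' ((f w').1 h)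
    exact ⟨a', em'.trans em.symm, el'.trans el.symm, en'.trans en.symm, ez'.trans ez.symm⟩

theorem a3_sa (L : Lv g D) (hp : p ∈ D) (m : ℝ) (w : R4) :
    SA (fun y => ((m, jet 3 g y, w) : A3)) p :=
  contDiffAt_const.prodMk ((jet_sa L.isOpen L.met hp 3).prodMk contDiffAt_const)

theorem ad_ev (L : Lv g D) (hp : p ∈ D) (a : Ad m g w p) : ∀ᶠ y in 𝓝 p, y ∈ D ∧ Ad m g w y :=
  (L.isOpen.eventually_mem hp).and ((a3_sa L hp m w).continuousAt.eventually (u3_open.mem_nhds a))

theorem null_der {h : R4 → B2} (r : Rp g h D) (hp : p ∈ D) {u : R4 → R4} (hu : SA u p)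
    (e : ∀ᶠ y in 𝓝 p, h y (u y) (u y) = 0) (v : R4) :
    h p (fderiv ℝ u p v + Gm h p v (u p)) (u p) = 0 := by
  have d := DFunLike.congr_fun (EventuallyEq.fderiv_eq (𝕜 := ℝ) e) v
  rw [fd_ap ((r.at hp).clm_apply hu) hu, fd_ap (r.at hp) hu, ContinuousLinearMap.add_apply,
    P354XD.dh_eq r hp, r.symm p hp (u p) (Gm ..), r.symm p hp (u p) (fderiv ℝ u p v)] at d
  simp only [fderiv_fun_const, Pi.zero_apply, ContinuousLinearMap.zero_apply] at d
  rw [map_add, ContinuousLinearMap.add_apply]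
  linarith

theorem aj_eq (L : Lv g D) (hp : p ∈ D) {F F2 : A3 → R4} (s : SA F (m, jet 3 g p, w)) (v : R4) :
    AJ F F2 (m, jet 4 g p, w) v = mN m g w p •
      (tb g p (fderiv ℝ (fun y => F (m, jet 3 g y, w)) p (F (m, jet 3 g p, w)) +
        Gm (tb g) p (F (m, jet 3 g p, w)) (F (m, jet 3 g p, w))) v • F2 (m, jet 3 g p, w) -
      tb g p (F2 (m, jet 3 g p, w)) v • (fderiv ℝ (fun y => F (m, jet 3 g y, w)) p
        (F (m, jet 3 g p, w)) + Gm (tb g) p (F (m, jet 3 g p, w)) (F (m, jet 3 g p, w)))) := by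
  simp only [AJ, dn, tr_jet, nab_jet L.isOpen L.met hp s, ip_jet L.isOpen L.met hp,
    (rp_tb L.isOpen L.met).eq p hp, mN]

theorem fld (fm : FRM) : FLD := by
  intro m g D w p L hp a
  have r := rp_tb L.isOpen L.met
  have z := f0 fm L hp a
  have j := a3_sa L hp m w
  have sl : SA (lN m g w) p := (lj_at a).comp p j
  have sn : SA (nN m g w) p := (nj_at a).comp p j
  have ev := (ad_ev L hp a).mono fun y b => f0 fm L b.1 b.2
  have mp : mN m g w p ≠ 0 := a.2.2.ne'
  have el := aj_eq (F2 := nJ) L hp (lj_at a)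
  have en := aj_eq (F2 := lJ) L hp (nj_at a)
  refine ⟨(r.eq p hp ..).trans z.ll, (r.eq p hp ..).trans z.nn, (r.eq p hp ..).trans z.ln, a.2.2,
    z.lr, z.nr, (r.eq p hp ..).trans_lt z.fut, fun w' h => ?_, ?_, ?_, ?_, fun u v => ?_⟩
  · rw [r.eq p hp] at h
    obtain ⟨a', e1, e2, e3, e4⟩ := z.ind w' h
    have c := (((r.at hp).clm_apply (sl.add sn)).clm_apply
      (contDiffAt_const (c := w'))).continuousAt.eventually (gt_mem_nhds h)
    have i := (ev.and c).mono fun y b => b.1.ind w' b.2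
    have d2 : fderiv ℝ (lN m g w') p = fderiv ℝ (lN m g w) p :=
      EventuallyEq.fderiv_eq (i.mono fun y b => b.2.2.1)
    have d3 : fderiv ℝ (nN m g w') p = fderiv ℝ (nN m g w) p :=
      EventuallyEq.fderiv_eq (i.mono fun y b => b.2.2.2.1)
    refine ⟨a', e1, e2, e3, e4, funext fun v => ?_, funext fun v => ?_⟩
    · rw [aL, aL, el, aj_eq L hp (lj_at a'), e1]
      unfold lN nN at *
      rw [d2, e2, e3]
    · rw [aN, aN, en, aj_eq L hp (nj_at a'), e1]
      unfold lN nN at *
      rw [d3, e2, e3]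
  · have n := null_der r hp sl (ev.mono fun y b => b.ll) (lN m g w p)
    have e := (r.symm p hp _ _).trans z.ln
    rw [aL, el]
    unfold lN nN at *
    rw [n, e, zero_smul, zero_sub, neg_smul, neg_neg, smul_smul, mul_inv_cancel₀ mp, one_smul]
  · have n := null_der r hp sn (ev.mono fun y b => b.nn) (nN m g w p)
    have e := z.ln
    rw [aN, en]
    unfold lN nN at *
    rw [n, e, zero_smul, zero_sub, neg_smul, neg_neg, smul_smul, mul_inv_cancel₀ mp, one_smul]
  · refine ⟨⟨fun u v => ?_, fun c v => ?_⟩, fun u v => ?_, fun c v => ?_⟩ <;>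
      simp only [aL, aN, el, en, map_add (tb g p _), map_smul (tb g p _), smul_eq_mul] <;> module
  · simp only [aL, aN, el, en, r.eq p hp, map_smul, map_sub, ContinuousLinearMap.smul_apply,
      ContinuousLinearMap.sub_apply, smul_eq_mul, r.symm p hp u]
    constructor <;> ring

theorem natu' (fm : FRM) : NATU := natu (fld fm)

end Vale.Agent.P354YN.Na
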