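import Vale.Agent.P354YN.Pnt

/-!
FRM: the natural fields in a transverse frame.
-/

set_option linter.all false
set_option maxSynthPendingDepth 3

open scoped ContDiff
open Set Filter Topology Matrix Complex

noncomputable section

namespace Vale.Agent.P354YN

open Vale.Agent.P354n (R4)
open Vale.Agent.P354RC (bs cv Gm at_df)
open Vale.Agent.P354XD (tb rp_tb)
open Vale.Agent.P354XE (Tw)
open Vale.Agent.P354XV (Jet jet Lv)

/-! ### Real parts -/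

theorem sq_slit {z : ℂ} : z ^ 2 ∈ slitPlane ↔ z.re ≠ 0 := by
  rw [mem_slitPlane_iff, sq, mul_re, mul_im]
  refine ⟨fun h o => ?_, fun h => ?_⟩
  · rw [o] at h
    rcases h with h | h
    · nlinarith [mul_self_nonneg z.im]
    · exact h (by ring)
  · by_cases o : z.im = 0
    · left
      rw [o]
      simpa using mul_self_pos.2 h
    · right
      rw [mul_comm z.im, ← two_mul]
      exact mul_ne_zero two_ne_zero (mul_ne_zero h o)

theorem cM_star (G : N4) (s : C4) : cM G *ᵥ star s = star (cM G *ᵥ s) := by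
  ext a
  simp only [cM, mulVec, dotProduct, Pi.star_apply, star_sum, star_mul', RCLike.star_def,
    conj_ofReal]

theorem rM_zop (G : N4) (l n : V4) (s : C4) : rM (zop (cM G) (cV l) (cV n) s) =
    vecMulVec l (G *ᵥ n) - vecMulVec n (G *ᵥ l) := by
  ext a b
  simp only [rM, zop, cM_mv, cM_star, Matrix.add_apply, Matrix.sub_apply, vecMulVec_apply, cV,
    Pi.star_apply]
  simp

theorem re_zp {G h : M4} {u : ℝ} {R : M6} (P : Pt G h u R) (l n s : C4) (w v : V4) :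
    (zp G l n s (cV w) (cV v)).re = (gm G l (cV w) * gm G n (cV v) -
      gm G n (cV w) * gm G l (cV v)).re := by
  have e : ∀ x : V4, gm G (star s) (cV x) = star (gm G s (cV x)) := fun x => by
    rw [P.star_gm, star_cV]
  simp only [zp, e]
  simp

theorem pm_mv {G : N4} {l n v : V4} (gs : Gᵀ = G) (ll : l ⬝ᵥ (G *ᵥ l) = 0) (nn : n ⬝ᵥ (G *ᵥ n) = 0)
    (ln : l ⬝ᵥ (G *ᵥ n) = -1) {Z : N4} (e : Z = vecMulVec l (G *ᵥ n) - vecMulVec n (G *ᵥ l)) :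
    ((1 / 2 : ℝ) • (Z * Z - Z)) *ᵥ v = -(n ⬝ᵥ (G *ᵥ v)) • l ∧
      ((1 / 2 : ℝ) • (Z * Z + Z)) *ᵥ v = -(l ⬝ᵥ (G *ᵥ v)) • n := by
  have c : ∀ x y, (G *ᵥ x) ⬝ᵥ y = x ⬝ᵥ (G *ᵥ y) := fun x y => by
    rw [dotProduct_mulVec, ← mulVec_transpose, gs]
  have z : ∀ x, Z *ᵥ x = (n ⬝ᵥ (G *ᵥ x)) • l - (l ⬝ᵥ (G *ᵥ x)) • n := fun x => by
    rw [e, sub_mulVec, vecMulVec_mulVec, vecMulVec_mulVec, c, c, op_smul_eq_smul, op_smul_eq_smul]
  have nl : n ⬝ᵥ (G *ᵥ l) = -1 := by rw [← c, dotProduct_comm, ln]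
  simp only [smul_mulVec, sub_mulVec, add_mulVec, ← mulVec_mulVec, z, mulVec_sub, mulVec_smul,
    dotProduct_sub, dotProduct_smul, ll, nn, ln, nl, smul_eq_mul]
  constructor <;> module

/-! ### The gradient -/

section
variable {m : ℝ} {g : Tw} {D : Set R4} {p : R4} (v : Lv g D) (hp : p ∈ D)
include v hp

theorem jet_cd (k : ℕ) : ContDiffAt ℝ ∞ (jet k g) p :=
  jet_at k fun a b => (v.met.smooth a b).contDiffAt (v.isOpen.mem_nhds hp)

theorem dj_jet {k : ℕ} {F : Type} [NormedAddCommGroup F] [NormedSpace ℝ F] {Φ : Jet k → F}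
    (h : ContDiffAt ℝ ∞ Φ (jet k g p)) (a : Fin 4) :
    dj Φ (jet (k + 1) g p) a = fderiv ℝ (fun x => Φ (jet k g x)) p (bs a) := by
  rw [dj, tr_jet, ← fd_jet k fun a b => (v.met.smooth a b).contDiffAt (v.isOpen.mem_nhds hp),
    fderiv_fun_comp p (h.differentiableAt (by simp)) (at_df (jet_cd v hp k))]
  rfl

variable (u : (m, jet 2 g p) ∈ U2)
include u

theorem yj_cd : ContDiffAt ℝ ∞ (YJ m) (jet 2 g p) :=
  (yj_at u).comp (jet 2 g p) (contDiffAt_const.prodMk contDiffAt_id)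

theorem yn_cd : ContDiffAt ℝ ∞ (YN m g) p := (yj_cd v hp u).comp p (jet_cd v hp 2)

theorem G_gr : GG g p *ᵥ gr m (jet 3 g p) = fun a => fderiv ℝ (YN m g) p (bs a) := by
  rw [gr, mulVec_mulVec, show GG g p * cM (g0 (jet 3 g p))⁻¹ = 1 from (pt_at v hp).gh, one_mulVec]
  exact funext (dj_jet v hp (yj_cd v hp u))

theorem gm_gr (x : C4) : gm (GG g p) x (gr m (jet 3 g p)) = dC (YN m g) p x := by
  rw [gm, G_gr v hp u]
  rfl

theorem dr_eq (x : R4) : fderiv ℝ (rN m g) p x = (fderiv ℝ (YN m g) p x).re :=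
  congrArg (fun A : R4 →L[ℝ] ℝ => A x)
    (reCLM.hasFDerivAt.comp p (at_df (yn_cd v hp u)).hasFDerivAt).fderiv

theorem dot_vJ (w : R4) (x : V4) :
    x ⬝ᵥ (g0 (jet 2 g p) *ᵥ vJ (m, jet 3 g p, w)) = fderiv ℝ (rN m g) p (vc x) := by
  have e : g0 (jet 2 g p) *ᵥ vJ (m, jet 3 g p, w) = rV (GG g p *ᵥ gr m (jet 3 g p)) := by
    funext a
    simp only [vJ, rV, GG, cM, mulVec, dotProduct, re_sum, re_ofReal_mul]
  rw [e, G_gr v hp u, vc_eq, map_sum]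
  simp only [map_smul, smul_eq_mul]
  simp only [dr_eq v hp u]
  rfl

variable {l n : V4} {s : C4} (N : NF (GG g p) (cV l) (cV n) s)
  (h1 : y1 (R6 g p) (cV l) (cV n) s = 0) (h3 : y3 (R6 g p) (cV l) (cV n) s = 0)
  (h2 : lam (WJ (jet 2 g p)) = 2 * y2 (R6 g p) (cV l) (cV n) s) (w : R4)

theorem re_zq : (zp (GG g p) (cV l) (cV n) s (cV (co w)) (cV (vJ (m, jet 3 g p, w)))).re =
    g p (vc l) w * fderiv ℝ (rN m g) p (vc n) - g p (vc n) w * fderiv ℝ (rN m g) p (vc l) := by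
  rw [re_zp (pt_at v hp), gm_re v hp l (co w), gm_re v hp n (co w), GG, gm_cV, gm_cV, dot_vJ v hp u,
    dot_vJ v hp u, vc_co, ← ofReal_mul, ← ofReal_mul, ← ofReal_sub, ofReal_re]

include N h1 h3 h2

theorem q_Ze : qJ (m, jet 3 g p, w) =
      zp (GG g p) (cV l) (cV n) s (cV (co w)) (cV (vJ (m, jet 3 g p, w))) ^ 2 ∧
    (0 < (zp (GG g p) (cV l) (cV n) s (cV (co w)) (cV (vJ (m, jet 3 g p, w)))).re →
      ZE (m, jet 3 g p, w) = zop (GG g p) (cV l) (cV n) s) := by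
  have r := (u2_ok u).rt
  rw [wj_eq v hp] at r h2
  have := (pt_at v hp).tf_Ze N r h1 h3 h2 (cV (co w)) (cV (vJ (m, jet 3 g p, w)))
  rw [← wj_eq v hp] at this
  exact this

theorem flds (o : g p (vc n) w * fderiv ℝ (rN m g) p (vc l) <
    g p (vc l) w * fderiv ℝ (rN m g) p (vc n)) :
    qJ (m, jet 3 g p, w) ∈ slitPlane ∧
      pl (m, jet 3 g p, w) = -fderiv ℝ (rN m g) p (vc n) • vc l ∧
      pn (m, jet 3 g p, w) = -fderiv ℝ (rN m g) p (vc l) • vc n ∧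
      mN m g w p = -(fderiv ℝ (rN m g) p (vc l) * fderiv ℝ (rN m g) p (vc n)) ∧
      zN m g w p = vc (rV (-(dC (YN m g) p (cV n) • cV l) + dC (YN m g) p (cV l) • cV n +
        dC (YN m g) p (star s) • s - dC (YN m g) p s • star s)) := by
  obtain ⟨a, b⟩ := q_Ze v hp u N h1 h3 h2 w
  have o' := (sub_pos.2 o).trans_eq (re_zq v hp u (s := s) w).symm
  have z := b o'
  have re : ∀ x y : V4, ∀ c : ℝ, gm (GG g p) (cV x) (cV y) = c →
      x ⬝ᵥ (g0 (jet 2 g p) *ᵥ y) = c := fun x y c k => ofReal_injective ((gm_cV ..).symm.trans k)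
  have k := pm_mv (v := vJ (m, jet 3 g p, w)) (g0_symm v.isOpen v.met hp 2)
    (re _ _ 0 N.ll) (re _ _ 0 N.nn) (re _ _ (-1) (N.ln.trans (by simp)))
    ((congrArg rM z).trans (rM_zop ..))
  rw [dot_vJ v hp u, dot_vJ v hp u] at k
  have e1 : pl (m, jet 3 g p, w) = -fderiv ℝ (rN m g) p (vc n) • vc l := congrArg vc k.1
  refine ⟨a ▸ sq_slit.2 o'.ne', e1, congrArg vc k.2, ?_, ?_⟩
  · rw [mN, muJ, e1, ip_jet v.isOpen v.met hp 3, (v.met.lin p hp _).map_smul, v.met.symm p hp,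
      ← ip_jet v.isOpen v.met hp 2, ip, co_vc, co_vc, dot_vJ v hp u, smul_eq_mul]
    ring
  · rw [zN, zJ, z, zop]
    simp only [add_mulVec, sub_mulVec, vecMulVec_mulVec, op_smul_eq_smul, ← gm_gr v hp u,
      fun x => show (GG g p *ᵥ x) ⬝ᵥ gr m (jet 3 g p) = gm (GG g p) x (gr m (jet 3 g p)) from
        (dotProduct_comm ..).trans ((pt_at v hp).comm ..)]
    simp only [vc, rV, Pi.add_apply, Pi.sub_apply, Pi.neg_apply, add_re, sub_re, neg_re,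
      Prod.neg_mk, Prod.mk.injEq]
    refine ⟨?_, ?_, ?_, ?_⟩ <;> ring

end

theorem Tf.y {g : Tw} {D : Set R4} {p : R4} (v : Lv g D) (hp : p ∈ D) {l n : V4} {s : C4} {q t : ℂ} :
    Tf g p l n s q t ↔ NF (GG g p) (cV l) (cV n) s ∧ y1 (R6 g p) (cV l) (cV n) s = 0 ∧
      y3 (R6 g p) (cV l) (cV n) s = 0 ∧ y2 (R6 g p) (cV l) (cV n) s = q ∧
      y0 (R6 g p) (cV l) s * y0 (R6 g p) (cV n) (star s) = t * q ^ 2 := by
  rw [y1, y3, y2, y0, y0, rc_anti _ (cV l) (cV n) (cV n), neg_mul_neg, neg_eq_zero, neg_eq_zero]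
  simp only [← RC_eq v hp, ← nf_iff]
  exact ⟨fun h => ⟨h.toNf, h.h1, h.h3, h.h2, h.h04⟩, fun h => ⟨h.1, h.2.1, h.2.2.1, h.2.2.2.1,
    h.2.2.2.2⟩⟩

theorem frm1 (m g D w p) (v : Lv g D) (hp : p ∈ D) (a : Ad m g w p) : ∃ l n s q t,
    Tf g p l n s q t ∧ lam (WJ (jet 2 g p)) = 2 * q ∧ Sg m g w p l n := by
  have u : (m, jet 2 g p) ∈ U2 := a.1
  have P := pt_at v hp
  have key : ∀ l n s, NF (GG g p) (cV l) (cV n) s → y1 (R6 g p) (cV l) (cV n) s = 0 →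
      y3 (R6 g p) (cV l) (cV n) s = 0 → lam (WJ (jet 2 g p)) = 2 * y2 (R6 g p) (cV l) (cV n) s →
      g p (vc n) w * fderiv ℝ (rN m g) p (vc l) < g p (vc l) w * fderiv ℝ (rN m g) p (vc n) →
      ∃ l n s q t, Tf g p l n s q t ∧ lam (WJ (jet 2 g p)) = 2 * q ∧ Sg m g w p l n :=
    fun l n s N h1 h3 h2 o => by
      have q0 : y2 (R6 g p) (cV l) (cV n) s ≠ 0 := fun k => (u2_ok u).l (by rw [h2, k, mul_zero])
      refine ⟨l, n, s, _, _, (Tf.y v hp).2 ⟨N, h1, h3, rfl,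
        (div_mul_cancel₀ _ (pow_ne_zero 2 q0)).symm⟩, h2, ?_, o⟩
      exact neg_pos.1 ((flds v hp u N h1 h3 h2 w o).2.2.2.1 ▸ a.2.2)
  obtain ⟨l0, n0, s0, N0⟩ := nf_ex v hp
  have r := (u2_ok u).rt
  have q := slitPlane_ne_zero a.2.1
  rw [qJ, tr_jet, wj_eq v hp] at q
  rw [wj_eq v hp] at r
  obtain ⟨l, n, s, N, h1, h3, h2⟩ := P.ex_tf N0 r _ q
  rw [← wj_eq v hp] at h2
  obtain ⟨l, rfl⟩ : ∃ x, cV x = l := ⟨_, cV_rV N.rl⟩
  obtain ⟨n, rfl⟩ : ∃ x, cV x = n := ⟨_, cV_rV N.rn⟩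
  have o := sq_slit.1 ((q_Ze v hp u N h1 h3 h2 w).1 ▸ a.2.1)
  rw [re_zq v hp u] at o
  rcases (sub_ne_zero.1 o).lt_or_gt with o | o
  · refine key n l (star s) (P.swap N) ?_ ?_ ?_ o
    · rw [y1, ← rc_anti]
      exact h3
    · rw [y3, star_star, rc_anti]
      exact h1
    · rw [y2, star_star, P.pair]
      exact h2
  · exact key l n s N h1 h3 h2 o

theorem ev_t : ∀ᶠ t in 𝓝 (0 : ℂ), 1 - t ≠ 0 ∧ 3 + t ≠ 0 ∧
    ph ((3 + t) ^ 3 / (27 * (1 - t) ^ 2)) = 2 * (3 + t) / (3 * (1 - t)) ∧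
    (3 + t) ^ 3 / (27 * (1 - t) ^ 2) ∈ Metric.ball 1 d0 ∧
    ‖(3 + t) ^ 3 / (27 * (1 - t) ^ 2) - 1‖ < 1 / 4 := by
  have c1 : ContinuousAt (fun t : ℂ => 2 * (3 + t) / (3 * (1 - t))) 0 := by
    fun_prop (disch := norm_num)
  have c2 : ContinuousAt (fun t : ℂ => (3 + t) ^ 3 / (27 * (1 - t) ^ 2)) 0 := by
    fun_prop (disch := norm_num)
  have c3 : ContinuousAt (fun t : ℂ => 1 - t) 0 := by fun_prop
  have c4 : ContinuousAt (fun t : ℂ => 3 + t) 0 := by fun_prop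
  have e1 : (2 : ℂ) * (3 + 0) / (3 * (1 - 0)) = 2 := by norm_num
  have e2 : ((3 : ℂ) + 0) ^ 3 / (27 * (1 - 0) ^ 2) = 1 := by norm_num
  simp only [ContinuousAt, e1, e2] at c1 c2
  filter_upwards [c3.eventually_ne (show (1 : ℂ) - 0 ≠ 0 by norm_num),
    c4.eventually_ne (show (3 : ℂ) + 0 ≠ 0 by norm_num), c1.eventually ph_left,
    c2.eventually (Metric.ball_mem_nhds 1 d0_pos),
    c2.eventually (Metric.ball_mem_nhds 1 (show (0 : ℝ) < 1 / 4 by norm_num))] with t a b c d e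
  refine ⟨a, b, ?_, d, mem_ball_iff_norm.1 e⟩
  rw [← c, show 3 * (2 * (3 + t) / (3 * (1 - t))) + 2 = 8 / (1 - t) by field_simp; ring]
  congr 1
  field_simp
  ring

theorem frm : FRM := by
  refine ⟨frm1, ?_, fun m g D w p l n s q t v hp u T h2 o => ?_⟩
  · obtain ⟨δ, h, k⟩ := Metric.eventually_nhds_iff.1 ev_t
    refine ⟨δ, h, fun m g D p l n s q t v hp T ht q0 => ?_⟩
    obtain ⟨a, b, c, d, e⟩ := k (y := t) (by simpa using ht)
    obtain ⟨N, h1, h3, h2, h4⟩ := (Tf.y v hp).1 T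
    obtain ⟨i, j⟩ := (pt_at v hp).inv_tf N h1 h3
    rw [← wj_eq v hp, h2] at i j
    have i' : iI (WJ (jet 2 g p)) = 2 * q ^ 2 * (3 + t) := by linear_combination i + 2 * h4
    have j' : iJ (WJ (jet 2 g p)) = 6 * q ^ 3 * (1 - t) := by linear_combination j - 6 * q * h4
    have s' : iS (WJ (jet 2 g p)) = (3 + t) ^ 3 / (27 * (1 - t) ^ 2) := by
      rw [iS, i', j']
      field_simp
      ring
    have l' : lam (WJ (jet 2 g p)) = 2 * q := by
      rw [lam, s', c, i', j']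
      field_simp
      ring
    refine ⟨l', fun m0 sl => ⟨m0, det_neg v hp, ?_, s' ▸ d, s' ▸ e, ?_⟩⟩
    · rw [j']
      exact mul_ne_zero (mul_ne_zero (by norm_num) (pow_ne_zero 3 q0)) a
    · rwa [l', show -2 * (m : ℂ) / (2 * q) = -m / q by field_simp]
  · obtain ⟨N, h1, h3, e, -⟩ := (Tf.y v hp).1 T
    obtain ⟨a, b, c, d, z⟩ := flds v hp u N h1 h3 (h2.trans (by rw [e])) w o.2
    have q0 : q ≠ 0 := fun k => (u2_ok u).l (by rw [h2, k, mul_zero])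
    have a0 := left_ne_zero_of_mul o.1.ne
    have b0 := right_ne_zero_of_mul o.1.ne
    refine ⟨⟨u, a, (neg_pos.2 o.1).trans_eq d.symm⟩, ?_, d, ?_, ?_, z⟩
    · rw [YN, YJ, h2, show -2 * (m : ℂ) / (2 * q) = -m / q by field_simp]
    · rw [lN, lJ, b, show muJ _ = _ from d, smul_smul]
      congr 1
      field_simp
    · rw [nN, nJ, c, show muJ _ = _ from d, smul_smul]
      congr 2
      field_simp

end Vale.Agent.P354YN
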