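import Vale.Agent.P354YN.Alg

/-!
NAT: null frames, the transverse frame, and the eigenbivector in a transverse frame.
-/

set_option linter.all false

open Matrix Complex

noncomputable section

namespace Vale.Agent.P354YN

abbrev M3t : Type := Matrix (Fin 3) (Fin 3) ℂ

/-! ### The operator on the three self dual bivectors -/

theorem CE' (X : Matrix (Fin 3) (Fin 6) ℂ) : C3 * (E3 * X) = X := by
  rw [← Matrix.mul_assoc, CE, Matrix.one_mul]

theorem tr3 (X : M3t) : (E3 * (X * C3)).trace = X.trace := by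
  rw [trace_mul_comm, Matrix.mul_assoc, CE, Matrix.mul_one]

theorem iI3 (M : M3t) : iI (E3 * M * C3) = (M * M).trace := by
  simp only [iI, Matrix.mul_assoc, CE']
  rw [← Matrix.mul_assoc M, tr3]

theorem iJ3 (M : M3t) : iJ (E3 * M * C3) = (M * M * M).trace := by
  simp only [iJ, Matrix.mul_assoc, CE']
  rw [← Matrix.mul_assoc M M, ← Matrix.mul_assoc (M * M), tr3, Matrix.mul_assoc]

def pj3 (M : M3t) (l i : ℂ) : M3t :=
  (l * (3 * l ^ 2 - i / 2))⁻¹ • (M * (M * M + l • M + (l ^ 2 - i / 2) • (1 : M3t)))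

theorem Pj3 (M : M3t) :
    Pj (E3 * M * C3) = E3 * pj3 M (lam (E3 * M * C3)) (iI (E3 * M * C3)) * C3 := by
  simp only [Pj, pj3, Matrix.mul_add, Matrix.add_mul, Matrix.mul_smul, Matrix.smul_mul,
    Matrix.mul_assoc, CE', Matrix.mul_one]

def Ga : M3t := !![0, 0, -1; 0, -2, 0; -1, 0, 0]

theorem EG : E3ᵀ * L2 eta = Ga * C3 := by
  rw [L2_eta]
  refine Matrix.ext ?_
  simp only [all3, all6, mul_apply, Fin.sum_univ_three, Fin.sum_univ_six, transpose_apply]
  simp [E3, Ga, C3]
  norm_num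

variable {x0 x1 x2 x3 x4 l : ℂ}

theorem M3_tr : (M3 x0 x1 x2 x3 x4 * M3 x0 x1 x2 x3 x4).trace =
      6 * x2 ^ 2 + 2 * x0 * x4 - 8 * x1 * x3 ∧
    (M3 x0 x1 x2 x3 x4 * M3 x0 x1 x2 x3 x4 * M3 x0 x1 x2 x3 x4).trace =
      6 * x2 ^ 3 - 6 * x0 * x2 * x4 - 12 * x1 * x2 * x3 + 6 * x0 * x3 ^ 2 + 6 * x1 ^ 2 * x4 := by
  simp only [trace, diag, mul_apply, Fin.sum_univ_three]
  simp [M3]
  constructor <;> ring

theorem M3_adj : (M3 x0 x1 x2 x3 x4)ᵀ * Ga = Ga * M3 x0 x1 x2 x3 x4 := by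
  refine Matrix.ext ?_
  simp only [all3, mul_apply, Fin.sum_univ_three, transpose_apply]
  simp [M3, Ga]
  (repeat' apply And.intro) <;> ring

theorem M3_ch {M : M3t} (e : M = M3 x0 x1 x2 x3 x4)
    (h : l ^ 3 = (M * M).trace / 2 * l + (M * M * M).trace / 3) :
    M * (M * M + l • M + (l ^ 2 - (M * M).trace / 2) • (1 : M3t)) =
      l • (M * M + l • M + (l ^ 2 - (M * M).trace / 2) • (1 : M3t)) := by
  subst e
  rw [M3_tr.1, M3_tr.2] at h
  rw [M3_tr.1]
  refine Matrix.ext ?_
  simp only [all3, mul_apply, Fin.sum_univ_three, Matrix.add_apply, Matrix.smul_apply, one_apply,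
    smul_eq_mul]
  simp [M3]
  refine ⟨⟨?_, ?_, ?_⟩, ⟨?_, ?_, ?_⟩, ⟨?_, ?_, ?_⟩⟩ <;> first | ring1 | linear_combination -h

/-- The image of the projection is an eigenvector, and its square is the product with f. -/
theorem pj3_eig {M : M3t} (e : M = M3 x0 x1 x2 x3 x4)
    (h : l ^ 3 = (M * M).trace / 2 * l + (M * M * M).trace / 3)
    (h0 : l * (3 * l ^ 2 - (M * M).trace / 2) ≠ 0) (f z : Fin 3 → ℂ)
    (hz : z = pj3 M l (M * M).trace *ᵥ f) :
    M *ᵥ z = l • z ∧ z ⬝ᵥ (Ga *ᵥ f) = -(2 * (z 1 ^ 2 + z 0 * z 2)) := by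
  have c := M3_ch e h
  have a : Mᵀ * Ga = Ga * M := e ▸ M3_adj
  generalize (M * M).trace = i at *
  have e1 : M * pj3 M l i = l • pj3 M l i := by
    rw [pj3, c, Matrix.mul_smul, Matrix.mul_smul, c]
    exact smul_comm _ _ _
  have e2 : pj3 M l i * pj3 M l i = pj3 M l i := by
    nth_rewrite 1 [pj3]
    rw [c]
    simp only [Matrix.smul_mul, Matrix.add_mul, Matrix.mul_assoc, e1, Matrix.mul_smul,
      Matrix.one_mul, smul_smul, ← add_smul]
    rw [show (l * (3 * l ^ 2 - i / 2))⁻¹ * l * (l * l + l * l + (l ^ 2 - i / 2)) = (1 : ℂ) by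
      linear_combination inv_mul_cancel₀ h0, one_smul]
  have e3 : (pj3 M l i)ᵀ * Ga = Ga * pj3 M l i := by
    have a' : ∀ X : M3t, Mᵀ * (Ga * X) = Ga * (M * X) := fun X => by
      rw [← Matrix.mul_assoc, a, Matrix.mul_assoc]
    simp only [pj3, transpose_smul, transpose_mul, transpose_add, transpose_one, Matrix.smul_mul,
      Matrix.add_mul, Matrix.mul_add, Matrix.mul_smul, Matrix.mul_assoc, a, a', Matrix.one_mul,
      Matrix.mul_one]
  refine ⟨by rw [hz, mulVec_mulVec, e1, smul_mulVec], ?_⟩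
  have e4 : z ⬝ᵥ (Ga *ᵥ z) = z ⬝ᵥ (Ga *ᵥ f) := by
    have : ∀ y, z ⬝ᵥ (Ga *ᵥ y) = f ⬝ᵥ ((Ga * pj3 M l i) *ᵥ y) := fun y => by
      rw [← e3, ← mulVec_mulVec, dotProduct_mulVec f, vecMul_transpose, hz]
    rw [this, this, hz, mulVec_mulVec, Matrix.mul_assoc, e2]
  rw [← e4]
  simp only [dotProduct, mulVec, Fin.sum_univ_three]
  simp [Ga]
  ring

theorem pj3_tf (h0 : 2 * x2 * (3 * (2 * x2) ^ 2 - (6 * x2 ^ 2 + 2 * x0 * x4) / 2) ≠ 0) :
    pj3 (M3 x0 0 x2 0 x4) (2 * x2) (6 * x2 ^ 2 + 2 * x0 * x4) = !![0, 0, 0; 0, 1, 0; 0, 0, 0] := by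
  have := inv_mul_cancel₀ h0
  rw [pj3]
  generalize (2 * x2 * (3 * (2 * x2) ^ 2 - (6 * x2 ^ 2 + 2 * x0 * x4) / 2))⁻¹ = c at *
  refine Matrix.ext ?_
  simp only [all3, mul_apply, Fin.sum_univ_three, Matrix.add_apply, Matrix.smul_apply, one_apply,
    smul_eq_mul]
  simp only [M3, of_apply, cons_val', cons_val, cons_val_zero, cons_val_one, cons_val_fin_one]
  simp only [Fin.reduceEq, if_true, if_false]
  refine ⟨⟨?_, ?_, ?_⟩, ⟨?_, ?_, ?_⟩, ⟨?_, ?_, ?_⟩⟩ <;> first | ring1 | linear_combination this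

/-! ### Null frames -/

def gm (G : M4) (x y : C4) : ℂ := x ⬝ᵥ (G *ᵥ y)
def fr (l n s : C4) : M4 := Matrix.of ![l, n, s, star s]

/-- The data at a point. -/
structure Pt (G h : M4) (u : ℝ) (R : M6) : Prop where
  gs : Gᵀ = G
  gh : G * h = 1
  gr : ∀ a b, star (G a b) = G a b
  up : 0 < u
  uu : (u : ℂ) ^ 2 = -h.det
  wy : Wy h R

/-- A null frame. -/
structure NF (G : M4) (l n s : C4) : Prop where
  rl : star l = l
  rn : star n = n
  ll : gm G l l = 0
  nn : gm G n n = 0
  ss : gm G s s = 0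
  ln : gm G l n = -1
  ls : gm G l s = 0
  ns : gm G n s = 0
  sb : gm G s (star s) = 1
  ori : 0 < (fr l n s).det.im

theorem gm_add1 (G : M4) (x y z : C4) : gm G (x + y) z = gm G x z + gm G y z := add_dotProduct ..
theorem gm_add2 (G : M4) (x y z : C4) : gm G z (x + y) = gm G z x + gm G z y := by
  simp only [gm, mulVec_add, dotProduct_add]
theorem gm_smul1 (G : M4) (c : ℂ) (x z : C4) : gm G (c • x) z = c * gm G x z := smul_dotProduct ..
theorem gm_smul2 (G : M4) (c : ℂ) (x z : C4) : gm G z (c • x) = c * gm G z x := by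
  simp only [gm, mulVec_smul, dotProduct_smul, smul_eq_mul]

theorem frv (l n s : C4) : fr l n s 0 = l ∧ fr l n s 1 = n ∧ fr l n s 2 = s ∧ fr l n s 3 = star s :=
  ⟨rfl, rfl, rfl, rfl⟩

/-- The Weyl scalars. -/
def y0 (R : M6) (l s : C4) : ℂ := -rc R l s l s
def y1 (R : M6) (l n s : C4) : ℂ := -rc R l n l s
def y2 (R : M6) (l n s : C4) : ℂ := rc R n (star s) l s
def y3 (R : M6) (l n s : C4) : ℂ := rc R l n n (star s)
def MF (R : M6) (l n s : C4) : M3t :=
  M3 (y0 R l s) (y1 R l n s) (y2 R l n s) (y3 R l n s) (y0 R n (star s))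

/-- The eigenbivector of a transverse frame, as a bivector and as an endomorphism. -/
def zc (l n s : C4) : Fin 6 → ℂ := wg l n - wg s (star s)
def zop (G : M4) (l n s : C4) : M4 := vecMulVec l (G *ᵥ n) - vecMulVec n (G *ᵥ l) -
  vecMulVec s (G *ᵥ star s) + vecMulVec (star s) (G *ᵥ s)

theorem L2E (l n s : C4) (z : Fin 3 → ℂ) : L2 (fr l n s)ᵀ *ᵥ (E3 *ᵥ z) =
    z 0 • wg l s + z 1 • zc l n s + z 2 • wg n (star s) := by
  funext i
  simp only [mulVec, dotProduct, Fin.sum_univ_six, Fin.sum_univ_three, L2, transpose_apply, pv,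
    frv, zc, wg, Pi.add_apply, Pi.smul_apply, Pi.sub_apply, smul_eq_mul]
  simp [E3]
  ring

namespace Pt
variable {G h : M4} {u : ℝ} {R : M6} {l n s : C4} (P : Pt G h u R)
include P

theorem comm (x y : C4) : gm G x y = gm G y x := by
  rw [gm, gm, dotProduct_mulVec, ← mulVec_transpose, P.gs, dotProduct_comm]

theorem star_gm (x y : C4) : star (gm G x y) = gm G (star x) (star y) := by
  simp only [gm, dotProduct, mulVec, star_sum, star_mul', P.gr, Pi.star_apply]

theorem pair (a b c d : C4) : rc R a b c d = rc R c d a b := by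
  rw [rc, rc, dotProduct_mulVec, ← mulVec_transpose, P.wy.sy, dotProduct_comm]

variable (N : NF G l n s)
include N

theorem tab : gm G l l = 0 ∧ gm G l n = -1 ∧ gm G l s = 0 ∧ gm G l (star s) = 0 ∧
    gm G n l = -1 ∧ gm G n n = 0 ∧ gm G n s = 0 ∧ gm G n (star s) = 0 ∧
    gm G s l = 0 ∧ gm G s n = 0 ∧ gm G s s = 0 ∧ gm G s (star s) = 1 ∧
    gm G (star s) l = 0 ∧ gm G (star s) n = 0 ∧ gm G (star s) s = 1 ∧
    gm G (star s) (star s) = 0 := by
  have a : gm G l (star s) = 0 := by rw [← N.rl, ← P.star_gm, N.ls, star_zero]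
  have b : gm G n (star s) = 0 := by rw [← N.rn, ← P.star_gm, N.ns, star_zero]
  have c : gm G (star s) (star s) = 0 := by rw [← P.star_gm, N.ss, star_zero]
  exact ⟨N.ll, N.ln, N.ls, a, (P.comm _ _).trans N.ln, N.nn, N.ns, b, (P.comm _ _).trans N.ls,
    (P.comm _ _).trans N.ns, N.ss, N.sb, (P.comm _ _).trans a, (P.comm _ _).trans b,
    (P.comm _ _).trans N.sb, c⟩

theorem gram : (fr l n s)ᵀᵀ * G * (fr l n s)ᵀ = eta := by
  have e : ∀ i j, (fr l n s * G * (fr l n s)ᵀ) i j = gm G (fr l n s i) (fr l n s j) := fun i j => by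
    simp only [gm, mul_apply, transpose_apply, dotProduct, mulVec, Fin.sum_univ_four]
    ring
  refine Matrix.ext ?_
  simp only [transpose_transpose, all4, e, frv, P.tab N]
  simp [eta]

theorem cv : Cv (fr l n s)ᵀ (eta * fr l n s * G) (Wp h u R) (E3 * MF R l n s * C3) := by
  have g := P.gram N
  rw [transpose_transpose] at g
  have e0 : eta * eta = 1 := by
    refine Matrix.ext ?_
    simp only [all4, mul_apply, Fin.sum_univ_four]
    simp [eta]
  have e1 : (fr l n s)ᵀ * (eta * fr l n s * G) = 1 :=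
    mul_eq_one_comm.1 (by rw [mul_assoc eta, mul_assoc eta, g, e0])
  have e2 : h = (fr l n s)ᵀ * eta * (fr l n s)ᵀᵀ := by
    rw [transpose_transpose, ← one_mul h, ← e1]
    simp only [mul_assoc, P.gh, mul_one]
  have e3 : -I * (fr l n s)ᵀ.det = u := by
    have d : eta.det = 1 := by rw [det4]; simp [eta]
    have k := P.uu
    rw [e2, det_mul, det_mul, d, transpose_transpose, det_transpose] at k
    rw [det_transpose]
    have o := N.ori
    generalize (fr l n s).det = t at *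
    have : (t - I * u) * (t + I * u) = 0 := by linear_combination k - u ^ 2 * I_mul_I
    rcases mul_eq_zero.1 this with a | a
    · linear_combination -I * a - u * I_mul_I
    · have := congrArg im a
      simp at this
      linarith [P.up]
  have c := cv_Wp (R := R) e1 e2 e3
  have t : ∀ i j, ((L2 (fr l n s)ᵀ)ᵀ * R * L2 (fr l n s)ᵀ) i j = rc R (fr l n s (p1 i))
      (fr l n s (p2 i)) (fr l n s (p1 j)) (fr l n s (p2 j)) := fun i j => by
    simp only [rc, wg, L2, mul_apply, transpose_apply, dotProduct, mulVec, Finset.sum_mul,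
      Finset.mul_sum]
    rw [Finset.sum_comm]
    exact Finset.sum_congr rfl fun _ _ => Finset.sum_congr rfl fun _ _ => by ring
  rw [(P.wy.cov e2).std] at c
  simpa only [t, pv, frv, MF, y0, y1, y2, y3] using c

theorem swap : NF G n l (star s) := by
  have t := P.tab N
  refine ⟨N.rn, N.rl, N.nn, N.ll, by simp only [t], by simp only [t], by simp only [t],
    by simp only [t], by simp only [star_star, t], N.ori.trans_eq (congrArg im ?_)⟩
  simp only [det4, frv, star_star]
  ring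

theorem rot1 (a : ℂ) : NF G (l + star a • s + a • star s + (a * star a) • n) n (s + a • n) := by
  have t := P.tab N
  refine ⟨?_, N.rn, ?_, N.nn, ?_, ?_, ?_, ?_, ?_, N.ori.trans_eq (congrArg im ?_)⟩
  · simp only [star_add, star_smul, star_star, N.rl, N.rn, star_mul']
    module
  any_goals
    simp only [star_add, star_smul, N.rn, gm_add1, gm_add2, gm_smul1, gm_smul2, t]
    ring
  simp only [det4, frv, star_add, star_smul, N.rn, Pi.add_apply, Pi.smul_apply, smul_eq_mul]
  ring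

theorem rot2 (b : ℂ) : NF G l (n + star b • star s + b • s + (b * star b) • l) (s + star b • l) := by
  have := P.swap (P.rot1 (P.swap N) b)
  simpa only [star_add, star_smul, star_star, N.rl] using this

end Pt

theorem zc_rot {l n s : C4} (rl : star l = l) (rn : star n = n) (a b : ℂ) {l' s' : C4}
    (e : l' = l + star a • s + a • star s + (a * star a) • n) (e' : s' = s + a • n) :
    zc l' (n + star b • star s' + b • s' + (b * star b) • l') (s' + star b • l') =
      (2 * b) • wg l s + (1 + 2 * a * b) • zc l n s + (-(2 * a * (1 + a * b))) • wg n (star s) := by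
  have r : star l' = l' := by
    simp only [e, star_add, star_smul, star_star, rl, rn, star_mul']
    module
  funext i
  simp only [zc, star_add, star_smul, star_star, r]
  simp only [e, e', star_add, star_smul, rn, wg, Pi.add_apply, Pi.smul_apply, Pi.sub_apply,
    smul_eq_mul]
  ring

end Vale.Agent.P354YN
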