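import Vale.Agent.P354YN.Defs
import Vale.Agent.P354XM.RmA
import Vale.Agent.P354XM.RmB
import Vale.Agent.P354YJ.Gin

/-!
The curvature of Kerr in the principal frame, axis included.
-/

set_option linter.all false
set_option maxSynthPendingDepth 3

open scoped ContDiff
open Set Filter Topology

noncomputable section

namespace Vale.Agent.P354YN

open Vale.Agent.P354n (R4)
open Vale.Agent.P354I (rnd)
open Vale.Agent.P354R (Met Pull Del)
open Vale.Agent.P354RC Vale.Agent.P354YJ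
open Vale.Agent.P354RK (c1 c2 rmA inv_comp)
open Vale.Agent.P354XD (tb rp_tb)
open Vale.Agent.P354XE (Tw gin rd xs dr dq kf)
open Vale.Agent.P354XA (dr_eq dq_eq rnd_eq Sg_eq)
open Vale.Agent.P354XM (P2 ev dom fld gk gik th al be tyD om rd4 rk)
open Vale.Agent.P354XV (jet Lv)

/-- FRI: the invariant S is one when Psi0 Psi4 = 0. -/
def FRI : Prop := ∀ g D p l n s q, Lv g D → p ∈ D → Tf g p l n s q 0 → q ≠ 0 →
  iS (WJ (jet 2 g p)) = 1

namespace Ke

/-! ### General facts on the curvature -/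

section gen
variable {g : Tw} {h h' : R4 → B2} {D : Set R4} {y : R4}

theorem lin_exp {φ : R4 → ℝ} (l : IsLinearMap ℝ φ) (A : R4) : φ A = ∑ i, φ (bs i) * cv i A := by
  conv_lhs => rw [← sum_bs A]
  exact (map_sum (IsLinearMap.mk' _ l) _ _).trans
    (Finset.sum_congr rfl fun i _ => (l.map_smul _ _).trans (mul_comm _ _))

theorem Rm_exp (h : R4 → B2) (y A B C E : R4) : Rm h y A B C E = ∑ a, ∑ b, ∑ c, ∑ d,
    Rm h y (bs a) (bs b) (bs c) (bs d) * cv a A * cv b B * cv c C * cv d E := by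
  have l1 : ∀ B C E, IsLinearMap ℝ fun A => Rm h y A B C E := fun B C E =>
    ⟨fun _ _ => by simp only [Rm, P354RC.dC, Gm_add1, map_add, add_apply]; ring,
      fun _ _ => by simp only [Rm, P354RC.dC, Gm_smul1, map_smul, smul_apply, smul_eq_mul]; ring⟩
  have l2 : ∀ A C E, IsLinearMap ℝ fun B => Rm h y A B C E := fun A C E =>
    ⟨fun _ _ => by simp only [Rm, P354RC.dC, Gm_add1, map_add, add_apply]; ring,
      fun _ _ => by simp only [Rm, P354RC.dC, Gm_smul1, map_smul, smul_apply, smul_eq_mul]; ring⟩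
  have l3 : ∀ A B E, IsLinearMap ℝ fun C => Rm h y A B C E := fun A B E =>
    ⟨fun _ _ => by simp only [Rm, P354RC.dC, Gm_add2, map_add, add_apply]; ring,
      fun _ _ => by simp only [Rm, P354RC.dC, Gm_smul2, map_smul, smul_apply, smul_eq_mul]; ring⟩
  have l4 : ∀ A B C, IsLinearMap ℝ fun E => Rm h y A B C E := fun A B C =>
    ⟨fun _ _ => by simp only [Rm, P354RC.dC, Gm_add2, map_add, add_apply]; ring,
      fun _ _ => by simp only [Rm, P354RC.dC, Gm_smul2, map_smul, smul_apply, smul_eq_mul]; ring⟩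
  rw [lin_exp (l1 B C E)]
  refine Finset.sum_congr rfl fun a _ => ?_
  rw [lin_exp (l2 _ C E), Finset.sum_mul]
  refine Finset.sum_congr rfl fun b _ => ?_
  rw [lin_exp (l3 _ _ E), Finset.sum_mul, Finset.sum_mul]
  refine Finset.sum_congr rfl fun c _ => ?_
  rw [lin_exp (l4 _ _ _), Finset.sum_mul, Finset.sum_mul, Finset.sum_mul]
  exact Finset.sum_congr rfl fun d _ => by ring

theorem Rm_congr (e : h =ᶠ[𝓝 y] h') (A B C E : R4) : Rm h y A B C E = Rm h' y A B C E := by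
  simp only [Rm, P354RC.dC, Gm, C1, e.eq_of_nhds, e.fderiv_eq, e.fderiv.fderiv_eq]

theorem Rm_a1 (h : R4 → B2) (y A B C E : R4) : Rm h y A B C E = -Rm h y B A C E := by
  simp only [Rm]; ring

theorem Rm_a2 (r : Rp g h D) (hy : y ∈ D) (A B C E : R4) : Rm h y A B C E = -Rm h y A B E C := by
  simp only [Rm, P354RC.dC, sym2 (r.at hy) B A, r.symm y hy (Gm h y B _)]
  ring

theorem rm_cd (r : Rp g h D) (hy : y ∈ D) (A B C E : R4) :
    ContDiffAt ℝ ∞ (fun z => Rm h z A B C E) y := by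
  have k0 := r.at hy
  have k2 := at_fd (at_fd k0)
  have c0 : ∀ a : R4, ContDiffAt ℝ ∞ (fun _ : R4 => a) y := fun _ => contDiffAt_const
  have d : ∀ (a b c u : R4), ContDiffAt ℝ ∞ (fun z => P354RC.dC h z a b c u) y := fun a b c u =>
    ((((((k2.clm_apply (c0 a)).clm_apply (c0 b)).clm_apply (c0 c)).clm_apply (c0 u)).add
      ((((k2.clm_apply (c0 a)).clm_apply (c0 c)).clm_apply (c0 b)).clm_apply (c0 u))).sub
      ((((k2.clm_apply (c0 a)).clm_apply (c0 u)).clm_apply (c0 b)).clm_apply (c0 c))).div_const _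
  exact (((d _ _ _ _).sub (d _ _ _ _)).sub ((k0.clm_apply (r.gm_cd hy (c0 _) (c0 _))).clm_apply
    (r.gm_cd hy (c0 _) (c0 _)))).add ((k0.clm_apply (r.gm_cd hy (c0 _) (c0 _))).clm_apply
      (r.gm_cd hy (c0 _) (c0 _)))

theorem rm_comp {gi : Fin 4 → Fin 4 → ℝ} (r : Rp g h D) (hy : y ∈ D)
    (hi : ∀ i l, ∑ k, gi k l * h y (bs k) (bs i) = if i = l then 1 else 0) (i j k l : Fin 4) :
    Rm h y (bs i) (bs j) (bs k) (bs l) = rmA gi (fun a b c => fderiv ℝ h y (bs a) (bs b) (bs c))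
      (fun a b c d => fderiv ℝ (fderiv ℝ h) y (bs a) (bs b) (bs c) (bs d)) i j k l := by
  have e : ∀ a b c d, h y (Gm h y (bs a) (bs b)) (Gm h y (bs c) (bs d)) =
      ∑ m, c2 gi (fun a b c => fderiv ℝ h y (bs a) (bs b) (bs c)) c d m *
        c1 (fun a b c => fderiv ℝ h y (bs a) (bs b) (bs c)) a b m := fun a b c d => by
    rw [r.gm hy, Gm, inv_comp r hy hi]
    simp only [map_sum, map_smul, smul_eq_mul, c2, c1, ← C1_ap]
  rw [Rm, e, e]
  rfl

end gen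

/-! ### The coordinates (v, r, z, phi) -/

section crd
variable {p : P2} {y : R4} {g : Tw} {D : Set R4}

theorem rm_bs (r : Rp g (fld gk p) D) (hy : y ∈ D) (hd : y ∈ dom p) (i j l n : Fin 4) :
    Rm (fld gk p) y (bs i) (bs j) (bs l) (bs n) = rd4 p y i j l n := by
  have k0 : ∀ i j l n, Rm (fld gk p) y (bs i) (bs j) (bs l) (bs n) = rk p y i j l n :=
    fun i j l n => by
      rw [rm_comp r hy (P354XM.gik_inv hd)]
      simp only [P354XM.fld_1 hd, P354XM.fld_2 hd, rk]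
  have b1 : ∀ i j l n, rd4 p y i j l n = -rd4 p y j i l n := fun i j l n => by
    simp only [rd4, tyD, om]; ring
  have b2 : ∀ i j l n, rd4 p y i j l n = -rd4 p y i j n l := fun i j l n => by
    simp only [rd4, tyD, om]; ring
  have k1 : ∀ i j l n, i < j → l < n →
      Rm (fld gk p) y (bs i) (bs j) (bs l) (bs n) = rd4 p y i j l n := fun i j l n h1 h2 => by
    rw [k0]
    open P354XM in
    fin_cases i <;> fin_cases j <;> simp only [Fin.lt_def, Nat.lt_irrefl, Nat.not_lt_zero,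
      Nat.reduceLT] at h1 <;> fin_cases l <;> fin_cases n <;> simp only [Fin.lt_def, Nat.lt_irrefl,
      Nat.not_lt_zero, Nat.reduceLT] at h2
    exacts [r0101 hd, r0102 hd, r0103 hd, r0112 hd, r0113 hd, r0123 hd, r0201 hd, r0202 hd,
      r0203 hd, r0212 hd, r0213 hd, r0223 hd, r0301 hd, r0302 hd, r0303 hd, r0312 hd, r0313 hd,
      r0323 hd, r1201 hd, r1202 hd, r1203 hd, r1212 hd, r1213 hd, r1223 hd, r1301 hd, r1302 hd,
      r1303 hd, r1312 hd, r1313 hd, r1323 hd, r2301 hd, r2302 hd, r2303 hd, r2312 hd, r2313 hd,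
      r2323 hd]
  have k2 : ∀ i j l n, i < j →
      Rm (fld gk p) y (bs i) (bs j) (bs l) (bs n) = rd4 p y i j l n := fun i j l n h1 => by
    rcases lt_trichotomy l n with h | rfl | h
    · exact k1 i j l n h1 h
    · linarith [Rm_a2 r hy (bs i) (bs j) (bs l) (bs l), b2 i j l l]
    · rw [Rm_a2 r hy, b2, k1 i j n l h1 h]
  rcases lt_trichotomy i j with h | rfl | h
  · exact k2 i j l n h
  · linarith [Rm_a1 (fld gk p) y (bs i) (bs i) (bs l) (bs n), b1 i i l n]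
  · rw [Rm_a1, b1, k2 j i l n h]

/-- The values of the 2-forms of a coframe on two vectors. -/
def omv (T : Fin 4 → Fin 4 → ℝ) (A B : R4) (P Q : Fin 4) : ℝ :=
  (∑ i, T P i * cv i A) * (∑ i, T Q i * cv i B) - (∑ i, T P i * cv i B) * ∑ i, T Q i * cv i A

theorem tyD_sum {ι : Type} [Fintype ι] (α β s w : ℝ) (A : ι → Fin 4 → Fin 4 → ℝ) (c : ι → ℝ)
    (B : Fin 4 → Fin 4 → ℝ) : tyD α β s w (fun P Q => ∑ i, A i P Q * c i) B =
      ∑ i, tyD α β s w (A i) B * c i := by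
  simp only [tyD, Finset.sum_mul, Finset.mul_sum, ← Finset.sum_add_distrib,
    ← Finset.sum_sub_distrib, sub_mul, add_mul, mul_sub, mul_add]
  exact Finset.sum_congr rfl fun i _ => by ring

theorem tyD_comm (α β s w : ℝ) (A B : Fin 4 → Fin 4 → ℝ) : tyD α β s w A B = tyD α β s w B A := by
  simp only [tyD]; ring

theorem omv_eq (A B : R4) : omv (th p y) A B =
    fun P Q => ∑ i, (∑ j, om p y i j P Q * cv j B) * cv i A := by
  funext P Q
  simp only [omv, om, Fin.sum_univ_four]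
  ring

theorem rm_ty (r : Rp g (fld gk p) D) (hy : y ∈ D) (hd : y ∈ dom p) (A B C E : R4) :
    Rm (fld gk p) y A B C E = tyD (al p y) (be p y) (ev p y P354XM.xs) (ev p y .w)
      (omv (th p y) A B) (omv (th p y) C E) := by
  rw [Rm_exp, omv_eq A, tyD_sum]
  refine Finset.sum_congr rfl fun a _ => ?_
  rw [tyD_sum, Finset.sum_mul]
  refine Finset.sum_congr rfl fun b _ => ?_
  rw [tyD_comm, omv_eq, tyD_sum, Finset.sum_mul, Finset.sum_mul]
  refine Finset.sum_congr rfl fun c _ => ?_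
  rw [tyD_sum, Finset.sum_mul, Finset.sum_mul, Finset.sum_mul]
  refine Finset.sum_congr rfl fun d _ => ?_
  rw [rm_bs r hy hd, rd4, tyD_comm]
  ring

end crd

/-! ### The spherical frame -/

/-- The vector with the components t, dr, dθ, sin θ dφ. -/
def Wv (r s z c n : ℝ) (A : R4) : R4 :=
  (A.1, A.2.1 * s * c + r * (A.2.2.1 * z * c - A.2.2.2 * n),
    A.2.1 * s * n + r * (A.2.2.1 * z * n + A.2.2.2 * c), A.2.1 * z - r * A.2.2.1 * s)

section sph
variable {M a t r s z c n : ℝ} (hr : 0 < r) (hs : s ^ 2 = 1 - z ^ 2) (hc : c ^ 2 + n ^ 2 = 1)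
include hs hc

theorem ip_W (A : R4) : P354XA.ip (Bp t r s z c n) (Wv r s z c n A) = r * A.2.1 := by
  simp only [P354XA.ip, Bp, Wv]
  linear_combination (r * s * (A.2.1 * s + r * A.2.2.1 * z)) * hc + r * A.2.1 * hs

theorem ip_WW (A B : R4) : P354XA.ip (Wv r s z c n A) (Wv r s z c n B) =
    A.2.1 * B.2.1 + r ^ 2 * (A.2.2.1 * B.2.2.1 + A.2.2.2 * B.2.2.2) := by
  simp only [P354XA.ip, Wv]
  linear_combination ((A.2.1 * s + r * A.2.2.1 * z) * (B.2.1 * s + r * B.2.2.1 * z) +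
    r ^ 2 * A.2.2.2 * B.2.2.2) * hc + (A.2.1 * B.2.1 + r ^ 2 * A.2.2.1 * B.2.2.1) * hs

include hr

theorem dr_W (A : R4) : dr (Bp t r s z c n) (Wv r s z c n A) = A.2.1 := by
  rw [dr_eq, rd_Bp hr hs hc, ip_W hs hc]
  field_simp

theorem dq_W (A : R4) : dq (Bp t r s z c n) (Wv r s z c n A) = s * A.2.2.2 := by
  rw [dq_eq, rd_Bp hr hs hc, div_eq_iff (by positivity)]
  simp only [Bp, Wv]
  linear_combination r ^ 2 * s * A.2.2.2 * hc

theorem Sg_B : P354I.Sg a (rd (Bp t r s z c n)) (xs (Bp t r s z c n)) = P354R.Sig a r z := by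
  rw [Sg_eq, rd_Bp hr hs hc, P354R.Sig, Bp]
  field_simp

theorem gin_W (A B : R4) : gin M a (Bp t r s z c n) (Wv r s z c n A) (Wv r s z c n B) =
    -(A.1 * B.1) + A.2.1 * B.2.1 - a * s * (A.2.1 * B.2.2.2 + A.2.2.2 * B.2.1) +
      P354R.Sig a r z * (A.2.2.1 * B.2.2.1 + A.2.2.2 * B.2.2.2) +
      a ^ 2 * s ^ 2 * (A.2.2.2 * B.2.2.2) + 2 * M * r / P354R.Sig a r z *
        ((A.1 + A.2.1 - a * s * A.2.2.2) * (B.1 + B.2.1 - a * s * B.2.2.2)) := by
  have e : rnd (xs (Bp t r s z c n)) (xs (Wv r s z c n A)) (xs (Wv r s z c n B)) =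
      A.2.2.1 * B.2.2.1 + A.2.2.2 * B.2.2.2 := by
    rw [rnd_eq, rd_Bp hr hs hc, ip_W hs hc, ip_W hs hc, ip_WW hs hc]
    field_simp
    ring
  rw [gin, Sg_B hr hs hc, e, kf, kf, dr_W hr hs hc, dr_W hr hs hc, dq_W hr hs hc, dq_W hr hs hc,
    rd_Bp hr hs hc]
  simp only [Wv]
  ring

end sph

/-- The principal frame in the two systems of components. -/
def Fw (M a r s : ℝ) : Fin 4 → R4 :=
  ![(r ^ 2 + a ^ 2 - Del M a r / 2, Del M a r / 2, 0, a * s), (1, -1, 0, 0), (0, 0, 1, 0),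
    (a * s, 0, 0, 1)]
def Fy (M a r s : ℝ) : Fin 4 → R4 :=
  ![(r ^ 2 + a ^ 2, Del M a r / 2, 0, a), (0, -1, 0, 0), (0, 0, -s, 0), (a * s, 0, 0, s⁻¹)]

/-- The coordinate 2-forms. -/
def dl (i j P Q : Fin 4) : ℝ :=
  (if P = i then 1 else 0) * (if Q = j then 1 else 0) -
    (if P = j then 1 else 0) * if Q = i then 1 else 0

/-- The chart (v, r, z, phi). -/
def cf : R4 → R4 := Bl (fun r => -r) fun _ => 0
def DD : Set R4 := {y | 0 < y.2.1 ∧ 0 < 1 - y.2.2.1 ^ 2}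

section pl
variable {M a : ℝ} {y : R4}

theorem cf_eq (y : R4) : cf y = Bp (y.1 - y.2.1) y.2.1 √(1 - y.2.2.1 ^ 2) y.2.2.1
    (Real.cos y.2.2.2) (Real.sin y.2.2.2) := by
  simp [cf, Bl, Bp, sub_eq_add_neg]

theorem cf_fd (hy : y ∈ DD) (A : R4) : fderiv ℝ cf y A =
    Wv y.2.1 √(1 - y.2.2.1 ^ 2) y.2.2.1 (Real.cos y.2.2.2) (Real.sin y.2.2.2)
      (A.1 - A.2.1, A.2.1, -(A.2.2.1 / √(1 - y.2.2.1 ^ 2)), √(1 - y.2.2.1 ^ 2) * A.2.2.2) := by
  have h0 := (Real.sqrt_pos.2 hy.2).ne'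
  rw [cf, Bl_fd (hasDerivAt_neg _) (hasDerivAt_const _ _) hy.2]
  simp only [Bv, Wv, add_zero]
  refine Prod.ext ?_ (Prod.ext ?_ (Prod.ext ?_ ?_)) <;> simp <;> field_simp <;> ring

theorem DD_dom (hy : y ∈ DD) : y ∈ dom (M, a) :=
  ⟨by have := hy.1; rw [P354R.Sig]; positivity, hy.2.ne'⟩

theorem cf_pb (hy : y ∈ DD) (A B : R4) : fld gk (M, a) y A B =
    gin M a (cf y) (fderiv ℝ cf y A) (fderiv ℝ cf y B) := by
  have h0 := (Real.sqrt_pos.2 hy.2).ne'
  have h1 := Real.sq_sqrt hy.2.le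
  have h2 := (DD_dom (M := M) (a := a) hy).1
  rw [cf_fd hy, cf_fd hy, cf_eq, gin_W hy.1 h1 (Real.cos_sq_add_sin_sq _), P354XM.fld_ap]
  simp [Fin.sum_univ_four, gk, ev, cv, P354XM.xs, P354XM.xq, P354XM.xp]
  generalize √(1 - y.2.2.1 ^ 2) = s at *
  have h3 : 1 + -(y.2.2.1 * y.2.2.1) = s ^ 2 := by rw [h1]; ring
  rw [← h1, h3]
  have h4 : P354R.Sig a y.2.1 y.2.2.1 = y.2.1 ^ 2 + a ^ 2 - a ^ 2 * s ^ 2 := by
    rw [h1, P354R.Sig]; ring
  have h5 : y.2.1 * y.2.1 + a * a * (y.2.2.1 * y.2.2.1) = P354R.Sig a y.2.1 y.2.2.1 := by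
    rw [P354R.Sig]; ring
  rw [h5]
  generalize P354R.Sig a y.2.1 y.2.2.1 = S at *
  field_simp
  subst h4
  ring

theorem open_DD : IsOpen DD :=
  (show IsOpen {y : R4 | 0 < y.2.1} from isOpen_lt continuous_const (by fun_prop)).inter
    (show IsOpen {y : R4 | 0 < 1 - y.2.2.1 ^ 2} from isOpen_lt continuous_const (by fun_prop))

theorem pull_cf (M a : ℝ) :
    Pull cf (fun y A B => fld gk (M, a) y A B) DD (gin M a) {p | 0 < rd p} := by
  refine ⟨open_DD, open_rd, gin_met M a, fun y hy => ?_, fun y hy => ?_, fun y hy => ?_,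
    fun y hy => cf_pb hy⟩
  · have x1 : ContDiffAt ℝ ∞ (fun y : R4 => y.2.1) y := by fun_prop
    have p1 : ContDiffAt ℝ ∞ (fun y : R4 => y.2.2.2 + 0) y := by fun_prop
    have s1 : ContDiffAt ℝ ∞ (fun y : R4 => √(1 - y.2.2.1 ^ 2)) y :=
      ContDiffAt.sqrt (by fun_prop) hy.2.ne'
    exact ((contDiffAt_fst.add x1.neg).prodMk (((x1.mul s1).mul p1.cos).prodMk
      (((x1.mul s1).mul p1.sin).prodMk (x1.mul (by fun_prop))))).contDiffWithinAt
  · rw [mem_setOf_eq, cf_eq, rd_Bp hy.1 (Real.sq_sqrt hy.2.le) (Real.cos_sq_add_sin_sq _)]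
    exact hy.1
  · refine (injective_iff_map_eq_zero _).2 fun A hA => ?_
    have k : ∀ i, fld gk (M, a) y (bs i) A = 0 := fun i => by
      rw [cf_pb hy, hA]
      exact (gin_lin M a _ _).map_zero
    have e : ∀ l, cv l A = 0 := fun l => by
      have := lin_exp (φ := fun A => ∑ k, gik (M, a) y k l * fld gk (M, a) y (bs k) A)
        ⟨fun u v => by simp only [map_add, mul_add, Finset.sum_add_distrib], fun c u => by
          simp only [map_smul, smul_eq_mul, Finset.mul_sum, mul_left_comm]⟩ A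
      simpa [k, P354XM.gik_inv (DD_dom hy)] using this.symm
    rw [← sum_bs A]
    simp [e]

theorem rm_off (hy : y ∈ DD) (i j k l : Fin 4) :
    Rm (tb (gin M a)) (cf y) (fderiv ℝ cf y (Fy M a y.2.1 √(1 - y.2.2.1 ^ 2) i))
      (fderiv ℝ cf y (Fy M a y.2.1 √(1 - y.2.2.1 ^ 2) j))
      (fderiv ℝ cf y (Fy M a y.2.1 √(1 - y.2.2.1 ^ 2) k))
      (fderiv ℝ cf y (Fy M a y.2.1 √(1 - y.2.2.1 ^ 2) l)) =
      tyD (al (M, a) y) (-be (M, a) y) 1 1 (dl i j) (dl k l) := by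
  have P := pull_cf M a
  have r := rp_tb open_rd (gin_met M a)
  have r1 := rp_pb P r
  have r2 : Rp (fun y A B => fld gk (M, a) y A B) (fld gk (M, a)) DD :=
    ⟨open_DD, fun _ _ _ _ => rfl, fun y hy => (P354XM.fld_cd (DD_dom hy)).contDiffWithinAt,
      r1.met.symm, r1.met.nondeg⟩
  have e : pb (tb (gin M a)) cf =ᶠ[𝓝 y] fld gk (M, a) := by
    filter_upwards [open_DD.mem_nhds hy] with x hx
    exact ContinuousLinearMap.ext fun A => ContinuousLinearMap.ext fun B => (r1.eq x hx A B).symm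
  rw [← Rm_pb P r hy, Rm_congr e, rm_ty r2 hy (DD_dom hy)]
  have h0 := (Real.sqrt_pos.2 hy.2).ne'
  have h1 := Real.sq_sqrt hy.2.le
  have h2 := (DD_dom (M := M) (a := a) hy).1
  have x1 : ev (M, a) y P354XM.xs = √(1 - y.2.2.1 ^ 2) ^ 2 := by
    rw [h1]; simp [ev, P354XM.xs]; ring
  have x2 : ev (M, a) y .w = (√(1 - y.2.2.1 ^ 2) ^ 2)⁻¹ := by rw [h1]; rfl
  have x3 : ev (M, a) y .u = (y.2.1 ^ 2 + a ^ 2 - a ^ 2 * √(1 - y.2.2.1 ^ 2) ^ 2)⁻¹ := by
    rw [h1]; simp only [ev, P354R.Sig]; congr 1; ring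
  have x4 : ev (M, a) y P354XM.xp = y.2.1 ^ 2 + a ^ 2 := by simp [ev, P354XM.xp]; ring
  have h3 : y.2.1 ^ 2 + a ^ 2 - a ^ 2 * √(1 - y.2.2.1 ^ 2) ^ 2 ≠ 0 := by
    rw [h1]; refine fun k => h2 ?_; simp only [P354R.Sig]; linear_combination k
  have t : ∀ P i, ∑ m, th (M, a) y P m * cv m (Fy M a y.2.1 √(1 - y.2.2.1 ^ 2) i) =
      ![1, 1, -√(1 - y.2.2.1 ^ 2), (√(1 - y.2.2.1 ^ 2))⁻¹] P * if P = i then 1 else 0 :=
    fun P i => by
      simp only [th, x1, x3, x4]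
      generalize √(1 - y.2.2.1 ^ 2) = s at *
      fin_cases P <;> fin_cases i <;> simp [Fin.sum_univ_four, Fy, cv] <;> field_simp <;> ring
  simp only [tyD, omv, t, dl, x1, x2]
  generalize √(1 - y.2.2.1 ^ 2) = s at *
  simp only [Matrix.cons_val_zero, Matrix.cons_val_one, Matrix.cons_val]
  field_simp
  ring

end pl

end Ke

end Vale.Agent.P354YN
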