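import Vale.Agent.P354YN.KerA

/-!
The principal null frame of Kerr is transverse.
-/

set_option linter.all false
set_option maxSynthPendingDepth 3

open scoped ContDiff
open Set Filter Topology Complex

noncomputable section

namespace Vale.Agent.P354YN.Ke

open Vale.Agent.P354n (R4)
open Vale.Agent.P354R (Met Pull Del)
open Vale.Agent.P354RC Vale.Agent.P354YJ
open Vale.Agent.P354XD (tb rp_tb)
open Vale.Agent.P354XE (Tw gin rd xs dr dq kf Lo Om eT)
open Vale.Agent.P354XA (rd_sq rd_nonneg)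
open Vale.Agent.P354XM (al be tyD ev)

/-- The real and the imaginary part of M / (r - i a z)^3, times Sigma^2. -/
def a1 (M a r z : ℝ) : ℝ := M * r * (r ^ 2 - 3 * a ^ 2 * z ^ 2) * (P354R.Sig a r z)⁻¹
def b1 (M a r z : ℝ) : ℝ := M * a * z * (3 * r ^ 2 - a ^ 2 * z ^ 2) * (P354R.Sig a r z)⁻¹

/-- The principal frame. -/
def Fr (M a r s z c n : ℝ) (i : Fin 4) : R4 := Wv r s z c n (Fw M a r s i)

section
variable {M a t r s z c n : ℝ}

theorem rm_fr0 (hr : 0 < r) (φ : ℝ) (i j k l : Fin 4) {z : ℝ} (hz : z ∈ Icc (-1 : ℝ) 1) :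
    Rm (tb (gin M a)) (Bp t r √(1 - z ^ 2) z (Real.cos φ) (Real.sin φ))
      (Fr M a r √(1 - z ^ 2) z (Real.cos φ) (Real.sin φ) i)
      (Fr M a r √(1 - z ^ 2) z (Real.cos φ) (Real.sin φ) j)
      (Fr M a r √(1 - z ^ 2) z (Real.cos φ) (Real.sin φ) k)
      (Fr M a r √(1 - z ^ 2) z (Real.cos φ) (Real.sin φ) l) =
      tyD (a1 M a r z) (-b1 M a r z) 1 1 (dl i j) (dl k l) := by
  have S : ∀ z, P354R.Sig a r z ≠ 0 := fun z => by rw [P354R.Sig]; positivity
  have F : ∀ i, Continuous fun z => Fr M a r √(1 - z ^ 2) z (Real.cos φ) (Real.sin φ) i :=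
    fun i => by
      have : Continuous fun z : ℝ => Fw M a r √(1 - z ^ 2) i := by
        fin_cases i
        · show Continuous fun z : ℝ => ((_, _, 0, a * √(1 - z ^ 2)) : R4); fun_prop
        · exact continuous_const
        · exact continuous_const
        · show Continuous fun z : ℝ => ((a * √(1 - z ^ 2), 0, 0, 1) : R4); fun_prop
      simp only [Fr, Wv]
      fun_prop
  have c1 : Continuous fun z => (P354R.Sig a r z)⁻¹ :=
    Continuous.inv₀ (by unfold P354R.Sig; fun_prop) S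
  refine Set.EqOn.of_subset_closure (s := Ioo (-1) 1)
    (f := fun z => Rm (tb (gin M a)) (Bp t r √(1 - z ^ 2) z (Real.cos φ) (Real.sin φ))
      (Fr M a r √(1 - z ^ 2) z (Real.cos φ) (Real.sin φ) i)
      (Fr M a r √(1 - z ^ 2) z (Real.cos φ) (Real.sin φ) j)
      (Fr M a r √(1 - z ^ 2) z (Real.cos φ) (Real.sin φ) k)
      (Fr M a r √(1 - z ^ 2) z (Real.cos φ) (Real.sin φ) l))
    (g := fun z => tyD (a1 M a r z) (-b1 M a r z) 1 1 (dl i j) (dl k l))
    (fun z hz => ?_) (fun z hz => ?_) ?_ Ioo_subset_Icc_self (closure_Ioo (by norm_num)).ge hz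
  · have hy : (t + r, r, z, φ) ∈ DD := ⟨hr, by nlinarith [hz.1, hz.2]⟩
    have h0 := (Real.sqrt_pos.2 hy.2).ne'
    have e : ∀ i, fderiv ℝ cf (t + r, r, z, φ) (Fy M a r √(1 - z ^ 2) i) =
        Fr M a r √(1 - z ^ 2) z (Real.cos φ) (Real.sin φ) i := fun i => by
      rw [cf_fd hy, Fr]
      congr 1
      simp only at h0
      fin_cases i <;> simp [Fy, Fw, neg_div, h0, mul_comm]
    have := rm_off (M := M) (a := a) hy i j k l
    simp only [e, cf_eq, add_sub_cancel_right] at this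
    exact this
  · have h1 : √(1 - z ^ 2) ^ 2 = 1 - z ^ 2 := Real.sq_sqrt (by nlinarith [hz.1, hz.2])
    have m : Bp t r √(1 - z ^ 2) z (Real.cos φ) (Real.sin φ) ∈ {p | 0 < rd p} := by
      rw [mem_setOf_eq, rd_Bp hr h1 (Real.cos_sq_add_sin_sq _)]; exact hr
    have b : ContinuousAt (fun z => Bp t r √(1 - z ^ 2) z (Real.cos φ) (Real.sin φ)) z := by
      unfold Bp; fun_prop
    refine ContinuousAt.continuousWithinAt ?_
    simp only [Rm_exp _ _ (Fr ..)]
    refine tendsto_finset_sum _ fun i1 _ => tendsto_finset_sum _ fun i2 _ =>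
      tendsto_finset_sum _ fun i3 _ => tendsto_finset_sum _ fun i4 _ => ?_
    have v : ∀ i m, ContinuousAt
        (fun z => cv m (Fr M a r √(1 - z ^ 2) z (Real.cos φ) (Real.sin φ) i)) z :=
      fun i m => ((cv m).continuous.comp (F i)).continuousAt
    exact (((((rm_cd (rp_tb open_rd (gin_met M a)) m _ _ _ _).continuousAt.comp
      (f := fun z => Bp t r √(1 - z ^ 2) z (Real.cos φ) (Real.sin φ)) b).mul (v _ _)).mul
        (v _ _)).mul (v _ _)).mul (v _ _)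
  · refine Continuous.continuousOn ?_
    simp only [tyD, a1, b1]
    fun_prop

/-- Spherical coordinates of the point p, axis included. -/
structure Sph (M a : ℝ) (p : R4) (s z c n : ℝ) : Prop where
  hs : s ^ 2 = 1 - z ^ 2
  hc : c ^ 2 + n ^ 2 = 1
  eq : p = Bp p.1 (rd p) s z c n
  rm : ∀ i j k l, Rm (tb (gin M a)) p (Fr M a (rd p) s z c n i) (Fr M a (rd p) s z c n j)
    (Fr M a (rd p) s z c n k) (Fr M a (rd p) s z c n l) =
      tyD (a1 M a (rd p) z) (-b1 M a (rd p) z) 1 1 (dl i j) (dl k l)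

theorem ex_sph (M a : ℝ) {p : R4} (h : 0 < rd p) : ∃ s c n, Sph M a p s (p.2.2.2 / rd p) c n := by
  have h2 := rd_sq p
  rw [P354XA.ip] at h2
  obtain ⟨w, hw⟩ : ∃ w : ℂ, w = ⟨p.2.1, p.2.2.1⟩ := ⟨_, rfl⟩
  have w1 : ‖w‖ ^ 2 = p.2.1 ^ 2 + p.2.2.1 ^ 2 := by
    rw [Complex.sq_norm, Complex.normSq_apply, hw]; ring
  have e : 1 - (p.2.2.2 / rd p) ^ 2 = (‖w‖ / rd p) ^ 2 := by
    field_simp
    linear_combination h2 - w1
  have hz : p.2.2.2 / rd p ∈ Icc (-1 : ℝ) 1 :=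
    abs_le.1 (sq_le_one_iff_abs_le_one _ |>.1 (by nlinarith [sq_nonneg (‖w‖ / rd p)]))
  have q : p = Bp p.1 (rd p) √(1 - (p.2.2.2 / rd p) ^ 2) (p.2.2.2 / rd p) (Real.cos w.arg)
      (Real.sin w.arg) := by
    have k : rd p * √(1 - (p.2.2.2 / rd p) ^ 2) = ‖w‖ := by
      rw [e, Real.sqrt_sq (by positivity)]; field_simp
    simp only [Bp, k, norm_mul_cos_arg, norm_mul_sin_arg]
    refine Prod.ext rfl (Prod.ext (by rw [hw]) (Prod.ext (by rw [hw]) ?_))
    field_simp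
  refine ⟨_, _, _, Real.sq_sqrt (by rw [e]; positivity), Real.cos_sq_add_sin_sq _, q,
    fun i j k l => ?_⟩
  have := rm_fr0 (M := M) (a := a) (t := p.1) h w.arg i j k l hz
  rwa [← q] at this

end

/-! ### Complex multilinear extensions -/

section cx
variable {g : Tw} {p : R4}

theorem co_cv (A : R4) (i : Fin 4) : co A i = cv i A := by fin_cases i <;> rfl
theorem vc_co (A : R4) : vc (co A) = A := rfl

/-- The complex vector with the components x in the frame F. -/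
def cf4 (F : Fin 4 → R4) (x : C4) : C4 := ∑ i, x i • cV (co (F i))

theorem cf4_ap (F : Fin 4 → R4) (x : C4) (a : Fin 4) :
    cf4 F x a = ∑ i, x i * (cv a (F i) : ℂ) := by
  simp [cf4, cV, co_cv]

/-- The value of a complex tensor. -/
def T4 (T : Fin 4 → Fin 4 → Fin 4 → Fin 4 → ℂ) (x y u v : C4) : ℂ :=
  ∑ a, ∑ b, ∑ c, ∑ d, T a b c d * x a * y b * u c * v d

theorem T4_fr (T : Fin 4 → Fin 4 → Fin 4 → Fin 4 → ℂ) (F : Fin 4 → R4) (x y u v : C4) :
    T4 T (cf4 F x) y u v = T4 (fun b c d i => ∑ a, T a b c d * cv a (F i)) y u v x := by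
  unfold T4
  rw [Finset.sum_comm]
  refine Finset.sum_congr rfl fun b _ => ?_
  rw [Finset.sum_comm]
  refine Finset.sum_congr rfl fun c _ => ?_
  rw [Finset.sum_comm]
  refine Finset.sum_congr rfl fun d _ => ?_
  simp only [cf4_ap, Fin.sum_univ_four]
  ring

theorem gC_fr (l : ∀ v, IsLinearMap ℝ (g p v)) (s : ∀ v w, g p v w = g p w v) (F : Fin 4 → R4)
    (x y : C4) : gC g p (cf4 F x) (cf4 F y) = ∑ i, ∑ j, (g p (F i) (F j) : ℂ) * x i * y j := by
  have e : ∀ A B, g p A B = ∑ a, ∑ b, g p (bs a) (bs b) * cv a A * cv b B := fun A B => by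
    rw [s, lin_exp (l B)]
    refine Finset.sum_congr rfl fun a _ => ?_
    rw [s, lin_exp (l _), Finset.sum_mul]
    exact Finset.sum_congr rfl fun b _ => by ring
  simp only [e (F _), gC, cf4_ap, Fin.sum_univ_four]
  push_cast
  ring

theorem RC_fr (F : Fin 4 → R4) (x y u v : C4) :
    RC g p (cf4 F x) (cf4 F y) (cf4 F u) (cf4 F v) = ∑ i, ∑ j, ∑ k, ∑ l,
      (Rm (tb g) p (F i) (F j) (F k) (F l) : ℂ) * x i * y j * u k * v l := by
  refine (T4_fr _ F x _ _ _).trans ((T4_fr _ F y _ _ _).trans ((T4_fr _ F u _ _ _).trans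
    ((T4_fr _ F v _ _ _).trans (congrArg (T4 · x y u v) ?_))))
  funext i j k l
  have e : ∀ f : Fin 4 → Fin 4 → Fin 4 → Fin 4 → ℂ,
      ∑ d, ∑ c, ∑ b, ∑ a, f a b c d = ∑ a, ∑ b, ∑ c, ∑ d, f a b c d := fun f => by
    simp only [Fin.sum_univ_four]
    ring
  rw [Rm_exp _ _ (F i)]
  push_cast
  simp only [Finset.sum_mul]
  exact e _

end cx

/-! ### The null frame -/

/-- The factor of the complex vector, the value of Psi2, and the frame. -/
def kc (a r z : ℝ) : ℂ := ((√2 : ℝ) * (r + I * a * z))⁻¹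
def qc (M a r z : ℝ) : ℂ := -M / (r - I * a * z) ^ 3
def l0 (M a r s z c n : ℝ) : V4 := co ((P354R.Sig a r z)⁻¹ • Fr M a r s z c n 0)
def n0 (M a r s z c n : ℝ) : V4 := co (Fr M a r s z c n 1)
def s0 (M a r s z c n : ℝ) : C4 := cf4 (Fr M a r s z c n) ![0, 0, kc a r z, I * kc a r z]

section fr
variable {M a r s z c n : ℝ} {p : R4}

theorem l0_eq : cV (l0 M a r s z c n) =
    cf4 (Fr M a r s z c n) ![((P354R.Sig a r z : ℝ) : ℂ)⁻¹, 0, 0, 0] := by
  funext i
  simp [cf4_ap, cV, l0, co_cv, Fin.sum_univ_four]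

theorem n0_eq : cV (n0 M a r s z c n) = cf4 (Fr M a r s z c n) ![0, 1, 0, 0] := by
  funext i
  simp [cf4_ap, cV, n0, co_cv, Fin.sum_univ_four]

theorem s0_st : star (s0 M a r s z c n) =
    cf4 (Fr M a r s z c n) ![0, 0, star (kc a r z), -I * star (kc a r z)] := by
  funext i
  simp [cf4_ap, s0, Fin.sum_univ_four]

theorem ne1 (hr : 0 < r) : (r + I * a * z : ℂ) ≠ 0 := fun h => by
  have := congrArg re h
  simp at this
  exact hr.ne' this

theorem ne2 (hr : 0 < r) : (r - I * a * z : ℂ) ≠ 0 := fun h => by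
  have := congrArg re h
  simp at this
  exact hr.ne' this

theorem Sig_c : ((P354R.Sig a r z : ℝ) : ℂ) = (r + I * a * z) * (r - I * a * z) := by
  rw [P354R.Sig]
  push_cast
  linear_combination (a * z : ℂ) ^ 2 * I_sq

theorem kc_st : star (kc a r z) = ((√2 : ℝ) * (r - I * a * z) : ℂ)⁻¹ := by
  simp [kc, sub_eq_add_neg]

theorem kc_mul (hr : 0 < r) : kc a r z * star (kc a r z) = (2 * (P354R.Sig a r z : ℝ) : ℂ)⁻¹ := by
  have : ((√2 : ℝ) : ℂ) * (√2 : ℝ) = 2 := by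
    rw [← ofReal_mul, Real.mul_self_sqrt zero_le_two]; rfl
  rw [kc_st, kc, Sig_c, ← mul_inv, ← this]
  congr 1
  ring

theorem gin_fr (h : 0 < rd p) (S : Sph M a p s z c n) (i j : Fin 4) :
    gin M a p (Fr M a (rd p) s z c n i) (Fr M a (rd p) s z c n j) = P354R.Sig a (rd p) z *
      ![![0, -1, 0, 0], ![-1, 0, 0, 0], ![0, 0, 1, 0], ![0, 0, 0, 1]] i j := by
  have e := gin_W (M := M) (a := a) (t := p.1) h S.hs S.hc (Fw M a (rd p) s i) (Fw M a (rd p) s j)
  rw [← S.eq] at e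
  rw [Fr, Fr, e]
  have h2 : P354R.Sig a (rd p) z ≠ 0 := by rw [P354R.Sig]; positivity
  have h3 : 2 * M * rd p = rd p ^ 2 + a ^ 2 - Del M a (rd p) := by rw [Del]; ring
  have h4 : P354R.Sig a (rd p) z = rd p ^ 2 + a ^ 2 - a ^ 2 * s ^ 2 := by
    rw [S.hs, P354R.Sig]; ring
  rw [h3]
  generalize P354R.Sig a (rd p) z = X at *
  fin_cases i <;> fin_cases j <;> simp [Fw] <;> field_simp <;> subst h4 <;> ring

theorem det4 (u v x y : C4) : (Matrix.of ![u, v, x, y]).det =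
    (u 0 * v 1 - u 1 * v 0) * (x 2 * y 3 - x 3 * y 2) - (u 0 * v 2 - u 2 * v 0) * (x 1 * y 3 - x 3 * y 1) +
    (u 0 * v 3 - u 3 * v 0) * (x 1 * y 2 - x 2 * y 1) + (u 1 * v 2 - u 2 * v 1) * (x 0 * y 3 - x 3 * y 0) -
    (u 1 * v 3 - u 3 * v 1) * (x 0 * y 2 - x 2 * y 0) +
    (u 2 * v 3 - u 3 * v 2) * (x 0 * y 1 - x 1 * y 0) := by
  simp [Matrix.det_succ_row_zero, Fin.sum_univ_succ, Fin.succAbove]
  ring

/-- The principal frame is transverse. -/
theorem tf_kerr (h : 0 < rd p) (S : Sph M a p s z c n) :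
    Tf (gin M a) p (l0 M a (rd p) s z c n) (n0 M a (rd p) s z c n) (s0 M a (rd p) s z c n)
      (qc M a (rd p) z) 0 := by
  have g := gC_fr (gin_lin M a p) (gin_symm M a p) (Fr M a (rd p) s z c n)
  have R := RC_fr (g := gin M a) (p := p) (Fr M a (rd p) s z c n)
  have h2 : 0 < P354R.Sig a (rd p) z := by rw [P354R.Sig]; positivity
  have h3 : ((P354R.Sig a (rd p) z : ℝ) : ℂ) ≠ 0 := ofReal_ne_zero.2 h2.ne'
  have k := kc_mul (a := a) (z := z) h
  simp only [gin_fr h S, Fin.sum_univ_four] at g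
  simp only [S.rm] at R
  have z0 : RC (gin M a) p (cV (l0 M a (rd p) s z c n)) (s0 M a (rd p) s z c n)
      (cV (l0 M a (rd p) s z c n)) (s0 M a (rd p) s z c n) = 0 := by
    rw [l0_eq, s0, R]
    simp [Fin.sum_univ_four, tyD, dl]
  refine ⟨⟨?_, ?_, ?_, ?_, ?_, ?_, ?_, ?_⟩, ?_, ?_, ?_, by rw [z0, zero_mul, zero_mul]⟩
  · rw [l0_eq, g]; simp
  · rw [n0_eq, g]; simp
  · rw [s0, g]; simp; linear_combination (P354R.Sig a (rd p) z * kc a (rd p) z ^ 2) * I_sq
  · rw [l0_eq, n0_eq, g]; simp [h3]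
  · rw [l0_eq, s0, g]; simp
  · rw [n0_eq, s0, g]; simp
  · rw [s0_st, s0, g]
    generalize star (kc a (rd p) z) = b at *
    simp
    field_simp at k
    linear_combination k - (P354R.Sig a (rd p) z * kc a (rd p) z * b) * I_sq
  · have e : (Matrix.of ![cV (l0 M a (rd p) s z c n), cV (n0 M a (rd p) s z c n),
        s0 M a (rd p) s z c n, star (s0 M a (rd p) s z c n)]).det =
        I * ((rd p ^ 2 / P354R.Sig a (rd p) z ^ 2 * (rd p ^ 2 + a ^ 2 - a ^ 2 * s ^ 2) : ℝ) : ℂ) := by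
      have hs : (s : ℂ) ^ 2 = 1 - z ^ 2 := by exact_mod_cast S.hs
      have hc : (c : ℂ) ^ 2 + n ^ 2 = 1 := by exact_mod_cast S.hc
      rw [det4, l0_eq, n0_eq, s0_st, s0]
      generalize star (kc a (rd p) z) = b at *
      generalize kc a (rd p) z = κ at *
      simp [cf4_ap, Fin.sum_univ_four, cv, Fr, Fw, Wv]
      generalize ((P354R.Sig a (rd p) z : ℝ) : ℂ) = X at *
      linear_combination X⁻¹ * 2 * I * (rd p : ℂ) ^ 2 * ((rd p : ℂ) ^ 2 + a ^ 2 - a ^ 2 * s ^ 2) *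
        (κ * b * (s ^ 2 + z ^ 2) * hc + κ * b * hs + k)
    rw [e, S.hs, I_mul_im, ofReal_re]
    have : 0 < rd p ^ 2 + a ^ 2 - a ^ 2 * (1 - z ^ 2) := h2.trans_eq (by rw [P354R.Sig]; ring)
    positivity
  · rw [l0_eq, n0_eq, s0, R]
    simp [Fin.sum_univ_four, tyD, dl]
  · rw [l0_eq, n0_eq, s0_st, R]
    simp [Fin.sum_univ_four, tyD, dl]
  · rw [l0_eq, n0_eq, s0_st, s0, R]
    generalize star (kc a (rd p) z) = b at *
    simp [Fin.sum_univ_four, tyD, dl]
    have e : (a1 M a (rd p) z : ℂ) + I * b1 M a (rd p) z =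
        M * (rd p + I * a * z) ^ 3 * ((P354R.Sig a (rd p) z : ℝ) : ℂ)⁻¹ := by
      rw [a1, b1]
      push_cast
      linear_combination -(M * ((P354R.Sig a (rd p) z : ℝ) : ℂ)⁻¹ *
        (3 * rd p * (a * z) ^ 2 + I * (a * z) ^ 3)) * I_sq
    have e2 : qc M a (rd p) z = -(M * (rd p + I * a * z) ^ 3 *
        ((P354R.Sig a (rd p) z : ℝ) : ℂ)⁻¹ ^ 3) := by
      have n1 := ne1 (a := a) (z := z) h
      have n2 := ne2 (a := a) (z := z) h
      rw [qc, Sig_c]
      field_simp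
    rw [e2]
    generalize ((P354R.Sig a (rd p) z : ℝ) : ℂ) = X at *
    linear_combination (a1 M a (rd p) z * b * X⁻¹ * kc a (rd p) z) * I_sq -
      2 * X⁻¹ * ((a1 M a (rd p) z : ℂ) + I * b1 M a (rd p) z) * k - X⁻¹ ^ 2 * e

end fr

end Vale.Agent.P354YN.Ke
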