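import Vale.Agent.P354YN.Defs

/-!
Smoothness of matrix valued functions, entry by entry, and of the basic functions of a jet.
-/

set_option linter.all false
set_option maxSynthPendingDepth 3

open scoped ContDiff
open Set Filter Topology Matrix Complex

noncomputable section

namespace Vale.Agent.P354YN

open Vale.Agent.P354n (R4)
open Vale.Agent.P354RK (c1 c2 rmA)
open Vale.Agent.P354XV (Jet)

variable {X : Type} [NormedAddCommGroup X] [NormedSpace ℝ X] {x : X}

/-- Smooth at x. -/
abbrev SA {Y : Type} [NormedAddCommGroup Y] [NormedSpace ℝ Y] (f : X → Y) (x : X) : Prop :=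
  ContDiffAt ℝ ∞ f x

section Mat

variable {K : Type} [NormedField K] [NormedAlgebra ℝ K] {l m n : Type} [Fintype l] [Fintype m]
  [Fintype n]

/-- All entries are smooth at x. -/
def MS (A : X → Matrix m n K) (x : X) : Prop := ∀ i j, SA (fun y => A y i j) x

theorem SA.dv {f g : X → K} (a : SA f x) (b : SA g x) (h : g x ≠ 0) : SA (fun y => f y / g y) x := by
  simp only [div_eq_mul_inv]
  exact a.mul (b.inv h)

theorem SA.ap {u : X → n → K} (a : SA u x) (i : n) : SA (fun y => u y i) x := contDiffAt_pi.1 a i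

theorem ms_const (A : Matrix m n K) : MS (fun _ : X => A) x := fun _ _ => contDiffAt_const

variable {A A' : X → Matrix m n K} {B : X → Matrix n l K} {C : X → Matrix n n K} {c : X → K}
  {u v : X → n → K}

theorem MS.add (a : MS A x) (b : MS A' x) : MS (fun y => A y + A' y) x :=
  fun i j => (a i j).add (b i j)

theorem MS.sub (a : MS A x) (b : MS A' x) : MS (fun y => A y - A' y) x :=
  fun i j => (a i j).sub (b i j)

theorem MS.smul (a : SA c x) (b : MS A x) : MS (fun y => c y • A y) x :=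
  fun i j => a.mul (b i j)

theorem MS.mul (a : MS A x) (b : MS B x) : MS (fun y => A y * B y) x := fun i j => by
  simp only [mul_apply]
  exact ContDiffAt.sum fun k _ => (a i k).mul (b k j)

theorem MS.trace (a : MS C x) : SA (fun y => (C y).trace) x := ContDiffAt.sum fun k _ => a k k

theorem SA.dot (a : SA u x) (b : SA v x) : SA (fun y => u y ⬝ᵥ v y) x :=
  ContDiffAt.sum fun k _ => (a.ap k).mul (b.ap k)

theorem MS.mv (a : MS A x) (b : SA v x) : SA (fun y => A y *ᵥ v y) x :=
  contDiffAt_pi.2 fun i => ContDiffAt.sum fun k _ => (a i k).mul (b.ap k)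

theorem MS.det [DecidableEq n] (a : MS C x) : SA (fun y => (C y).det) x := by
  simp only [det_apply']
  exact ContDiffAt.sum fun σ _ => contDiffAt_const.mul (contDiffAt_prod fun i _ => a _ _)

theorem MS.inv [DecidableEq n] (a : MS C x) (h : (C x).det ≠ 0) : MS (fun y => (C y)⁻¹) x := by
  simp only [Matrix.inv_def, Ring.inverse_eq_inv']
  refine MS.smul (c := fun y => (C y).det⁻¹) (A := fun y => adjugate (C y)) (a.det.inv h)
    fun i j => ?_
  simp only [adjugate_apply]
  refine MS.det fun s t => ?_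
  by_cases e : s = j
  · simp only [e, updateRow_self]
    exact contDiffAt_const
  · simp only [updateRow_ne e]
    exact a s t

end Mat

theorem SA.cx {f : X → ℝ} (a : SA f x) : SA (fun y => (f y : ℂ)) x :=
  ofRealCLM.contDiff.contDiffAt.comp x a

theorem SA.re {f : X → ℂ} (a : SA f x) : SA (fun y => (f y).re) x :=
  reCLM.contDiff.contDiffAt.comp x a

theorem SA.cpow {f : X → ℂ} (a : SA f x) (h : f x ∈ slitPlane) (c : ℂ) :
    SA (fun y => f y ^ c) x :=
  ((analyticAt_id.cpow (analyticAt_const (v := c)) h).contDiffAt.restrict_scalars ℝ).comp x a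

theorem MS.cm {A : X → N4} (a : MS A x) : MS (fun y => cM (A y)) x := fun i j => (a i j).cx

theorem MS.rm {A : X → M4} (a : MS A x) : MS (fun y => rM (A y)) x := fun i j => (a i j).re

theorem SA.cv {u : X → V4} (a : SA u x) : SA (fun y => cV (u y)) x :=
  contDiffAt_pi.2 fun i => (a.ap i).cx

theorem SA.rv {u : X → C4} (a : SA u x) : SA (fun y => rV (u y)) x :=
  contDiffAt_pi.2 fun i => (a.ap i).re

theorem SA.co {v : X → R4} (a : SA v x) : SA (fun y => co (v y)) x :=
  contDiffAt_pi.2 fun i => by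
    fin_cases i
    exacts [a.fst, a.snd.fst, a.snd.snd.fst, a.snd.snd.snd]

theorem SA.vc {u : X → V4} (a : SA u x) : SA (fun y => vc (u y)) x :=
  (a.ap 0).prodMk ((a.ap 1).prodMk ((a.ap 2).prodMk (a.ap 3)))

theorem MS.l2 {A : X → M4} (a : MS A x) : MS (fun y => L2 (A y)) x :=
  fun _ _ => ((a _ _).mul (a _ _)).sub ((a _ _).mul (a _ _))

theorem SA.wg {u v : X → C4} (a : SA u x) (b : SA v x) : SA (fun y => wg (u y) (v y)) x :=
  contDiffAt_pi.2 fun _ => ((a.ap _).mul (b.ap _)).sub ((a.ap _).mul (b.ap _))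

theorem SA.am {H : X → Fin 6 → ℂ} (a : SA H x) : MS (fun y => am (H y)) x := fun i j => by
  fin_cases i <;> fin_cases j <;>
    first | exact contDiffAt_const | exact a.ap _ | exact (a.ap _).neg

/-! ### Jets -/

variable {k : ℕ}

theorem jet_ap {J : X → Jet k} (a : SA J x) (n α i j) : SA (fun y => J y n α i j) x :=
  contDiffAt_pi.1 (contDiffAt_pi.1 (contDiffAt_pi.1 (contDiffAt_pi.1 a n) α) i) j

theorem SA.tr {J : X → Jet (k + 1)} (a : SA J x) : SA (fun y => tr (J y)) x :=
  contDiffAt_pi.2 fun i => contDiffAt_pi.1 a i.castSucc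

theorem SA.sh {J : X → Jet (k + 1)} (a : SA J x) (e : Fin 4) : SA (fun y => sh e (J y)) x :=
  contDiffAt_pi.2 fun i => contDiffAt_pi.2 fun α =>
    contDiffAt_pi.1 (contDiffAt_pi.1 a i.succ) (Fin.cons e α)

theorem SA.g0 {J : X → Jet k} (a : SA J x) : MS (fun y => g0 (J y)) x :=
  fun i j => jet_ap a 0 Fin.elim0 i j

theorem SA.ip {J : X → Jet k} {u v : X → R4} (a : SA J x) (b : SA u x) (c : SA v x) :
    SA (fun y => ip (J y) (u y) (v y)) x := b.co.dot (a.g0.mv c.co)

theorem dj_at {F : Type} [NormedAddCommGroup F] [NormedSpace ℝ F] {Φ : X → Jet k → F}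
    {J : X → Jet (k + 1)} (h : SA (fun z : X × Jet k => Φ z.1 z.2) (x, tr (J x))) (a : SA J x)
    (e : Fin 4) : SA (fun y => dj (Φ y) (J y) e) x :=
  (ContDiffAt.fderiv (f := Φ) h a.tr (by simp)).clm_apply (a.sh e)

section Chr

variable {gi : X → N4} {G : X → Fin 4 → N4} {H : X → Fin 4 → Fin 4 → N4}

theorem c1_at (b : ∀ e, MS (fun y => G y e) x) (i j l : Fin 4) :
    SA (fun y => c1 (G y) i j l) x := (((b _ _ _).add (b _ _ _)).sub (b _ _ _)).div_const 2

theorem c2_at (a : MS gi x) (b : ∀ e, MS (fun y => G y e) x) (i j l : Fin 4) :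
    SA (fun y => c2 (gi y) (G y) i j l) x :=
  ContDiffAt.sum fun n _ => (a l n).mul (c1_at b i j n)

theorem rm_at (a : MS gi x) (b : ∀ e, MS (fun y => G y e) x) (c : ∀ e f, MS (fun y => H y e f) x)
    (i j l n : Fin 4) : SA (fun y => rmA (gi y) (G y) (H y) i j l n) x :=
  (((c1_at (G := fun y => H y i) (c i) _ _ _).sub (c1_at (G := fun y => H y j) (c j) _ _ _)).sub
    (ContDiffAt.sum fun _ _ => (c2_at a b _ _ _).mul (c1_at b _ _ _))).add
    (ContDiffAt.sum fun _ _ => (c2_at a b _ _ _).mul (c1_at b _ _ _))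

end Chr

theorem SA.gj {J : X → Jet (k + 1)} {u v : X → R4} (a : SA J x) (h : (P354YN.g0 (J x)).det ≠ 0)
    (b : SA u x) (c : SA v x) : SA (fun y => GJ (J y) (u y) (v y)) x :=
  SA.vc (contDiffAt_pi.2 fun d => ContDiffAt.sum fun i _ => ContDiffAt.sum fun j _ =>
    ((c2_at (a.g0.inv h) (fun e => (a.sh e).g0) i j d).mul (b.co.ap i)).mul (c.co.ap j))

theorem SA.wj {J : X → Jet 2} (a : SA J x) (h : (P354YN.g0 (J x)).det ≠ 0) :
    MS (fun y => WJ (J y)) x := by
  have i := a.g0.inv h
  have d : -(P354YN.g0 (J x))⁻¹.det ≠ 0 := by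
    rw [det_nonsing_inv, Ring.inverse_eq_inv']
    exact neg_ne_zero.2 (inv_ne_zero h)
  exact MS.smul contDiffAt_const ((i.cm.l2.add (MS.smul
    (contDiffAt_const.mul (SA.cx (i.det.neg.sqrt d))) (ms_const eps))).mul fun _ _ =>
      (rm_at i (fun e => (a.sh e).g0) (fun e f => ((a.sh e).sh f).g0) _ _ _ _).cx)

end Vale.Agent.P354YN
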