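import Vale.Agent.P354YN.Alg
import Vale.Agent.P354YN.Jet

/-!
NATU, the algebraic part: the natural fields of two jets which are related by a linear map.
-/

set_option linter.all false

open Matrix Complex

noncomputable section

namespace Vale.Agent.P354YN.Na

open Vale.Agent.P354n (R4)
open Vale.Agent.P354RC (bs cv sum_bs)
open Vale.Agent.P354XV (Jet)

/-- The matrix of a linear map. -/
def mat (T : R4 →L[ℝ] R4) : N4 := Matrix.of fun a b => co (T (bs b)) a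

theorem co_T (T : R4 →L[ℝ] R4) (v : R4) : co (T v) = mat T *ᵥ co v := by
  funext a
  conv_lhs => rw [← sum_bs v]
  simp only [co_eq, map_sum, map_smul, smul_eq_mul, mat, mulVec, dotProduct, of_apply, mul_comm]

theorem T_vc (T : R4 →L[ℝ] R4) (u : V4) : T (vc u) = vc (mat T *ᵥ u) := by
  rw [← vc_co (T _), co_T, co_vc]

/-- The coordinates. -/
def ce : R4 ≃ₗ[ℝ] V4 where
  toFun := co
  invFun := vc
  left_inv := vc_co
  right_inv := co_vc
  map_add' u v := by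
    funext a
    simp only [co_eq, map_add, Pi.add_apply]
  map_smul' c v := by
    funext a
    simp only [co_eq, map_smul, Pi.smul_apply, RingHom.id_apply]

theorem det_mat (T : R4 →L[ℝ] R4) : (mat T).det = LinearMap.det (T : R4 →ₗ[ℝ] R4) := by
  rw [← LinearMap.det_toLin', ← LinearMap.det_conj (T : R4 →ₗ[ℝ] R4) ce]
  refine congrArg _ (LinearMap.ext fun u => ?_)
  rw [toLin'_apply, ← co_vc u, ← co_T, co_vc]
  rfl

theorem cM_mul (A B : N4) : cM (A * B) = cM A * cM B := by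
  ext a b
  simp [cM, mul_apply]

theorem cM_tr (A : N4) : cM Aᵀ = (cM A)ᵀ := rfl

theorem cM_one : cM 1 = 1 := by
  ext a b
  simp only [cM, one_apply]
  split_ifs <;> simp

theorem cM_det (A : N4) : (cM A).det = A.det := (ofRealHom.map_det A).symm

theorem cV_mv (A : N4) (u : V4) : cV (A *ᵥ u) = cM A *ᵥ cV u := by
  funext a
  simp [cM, cV, mulVec, dotProduct]

theorem rV_mv (A : N4) (u : C4) : rV (cM A *ᵥ u) = A *ᵥ rV u := by
  funext a
  simp [cM, rV, mulVec, dotProduct]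

theorem rM_cj (A B : N4) (Z : M4) : rM (cM A * Z * cM B) = A * rM Z * B := by
  ext a b
  simp [cM, rM, mul_apply, Finset.sum_mul]

/-- The curvature as a matrix on bivectors. -/
def R6 (x : Jet 2) : M6 := fun i j => (RJ x (p1 i) (p2 i) (p1 j) (p2 j) : ℂ)

/-- The metrics of the jets are related by A. -/
structure Rg {k : ℕ} (A : N4) (x' x : Jet k) : Prop where
  pos : 0 < A.det
  nd : (g0 x).det ≠ 0
  eq : g0 x' = Aᵀ * g0 x * A

namespace Rg
variable {k : ℕ} {A : N4} {x' x : Jet k} (r : Rg A x' x)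
include r

theorem ai : A * A⁻¹ = 1 := mul_nonsing_inv _ r.pos.ne'.isUnit
theorem ia : A⁻¹ * A = 1 := nonsing_inv_mul _ r.pos.ne'.isUnit

theorem det : (g0 x').det = A.det ^ 2 * (g0 x).det := by
  rw [r.eq, det_mul, det_mul, det_transpose]
  ring

theorem neg : (g0 x').det < 0 ↔ (g0 x).det < 0 := by
  rw [r.det]
  exact ⟨fun h => by nlinarith [pow_pos r.pos 2], fun h => by nlinarith [pow_pos r.pos 2]⟩

theorem inv : (g0 x)⁻¹ = A * (g0 x')⁻¹ * Aᵀ := by
  rw [r.eq, Matrix.mul_inv_rev, Matrix.mul_inv_rev, ← mul_assoc, ← mul_assoc, r.ai, one_mul,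
    mul_assoc, nonsing_inv_mul _ (by rw [det_transpose]; exact r.pos.ne'.isUnit), mul_one]

theorem ip (T : R4 →L[ℝ] R4) (e : mat T = A) (u v : R4) : ip x (T u) (T v) = ip x' u v := by
  rw [P354YN.ip, P354YN.ip, co_T, co_T, e, r.eq, mul_assoc, ← mulVec_mulVec, ← mulVec_mulVec,
    dotProduct_mulVec _ Aᵀ, vecMul_transpose]

end Rg

theorem Rg.cv {A : N4} {x' x : Jet 2} (r : Rg A x' x)
    (e : R6 x' = (L2 (cM A))ᵀ * R6 x * L2 (cM A)) : Cv (cM A) (cM A⁻¹) (WJ x) (WJ x') := by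
  have := cv_Wp (L := cM A) (K := cM A⁻¹) (h := cM (g0 x)⁻¹) (h' := cM (g0 x')⁻¹)
    (u := (√(-(g0 x)⁻¹.det) : ℝ)) (u' := (√(-(g0 x')⁻¹.det) : ℝ)) (R := R6 x)
    (by rw [← cM_mul, r.ai, cM_one]) (by rw [r.inv, cM_mul, cM_mul, cM_tr]) (by
      rw [cM_det, ← ofReal_mul, r.inv, det_mul, det_mul, det_transpose,
        show -(A.det * (g0 x')⁻¹.det * A.det) = -(g0 x')⁻¹.det * (A.det * A.det) by ring,
        Real.sqrt_mul' _ (mul_self_nonneg _), Real.sqrt_mul_self r.pos.le])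
  rwa [← e] at this

theorem u2_iff {A : N4} {x' x : Jet 2} (r : Rg A x' x) (c : Cv (cM A) (cM A⁻¹) (WJ x) (WJ x'))
    (m : ℝ) : (m, x') ∈ U2 ↔ (m, x) ∈ U2 := by
  simp only [U2, Set.mem_setOf_eq, c.iJ, c.iS, c.lam, r.neg]

/-- Two jets of order three and two vectors which are related by T. -/
structure R3 (T : R4 →L[ℝ] R4) (z' z : A3) : Prop where
  m : z.1 = z'.1
  w : z.2.2 = T z'.2.2
  g : Rg (mat T) z'.2.1 z.2.1
  c : Cv (cM (mat T)) (cM (mat T)⁻¹) (WJ (tr z.2.1)) (WJ (tr z'.2.1))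
  d : dj (YJ z'.1) z'.2.1 = (cM (mat T))ᵀ *ᵥ dj (YJ z.1) z.2.1

namespace R3
variable {T : R4 →L[ℝ] R4} {z' z : A3} (r : R3 T z' z)
include r

theorem gr : gr z.1 z.2.1 = cM (mat T) *ᵥ gr z'.1 z'.2.1 := by
  rw [P354YN.gr, P354YN.gr, r.d, r.g.inv, cM_mul, cM_mul, cM_tr, mulVec_mulVec, mulVec_mulVec]

theorem vj : vJ z = mat T *ᵥ vJ z' := by rw [vJ, vJ, r.gr, rV_mv]

theorem fj : FJ z = L2 (cM (mat T)) *ᵥ FJ z' := by
  rw [FJ, FJ, L2_wg, r.w, co_T, r.vj, cV_mv, cV_mv]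

theorem gc : (cM (mat T))ᵀ * cM (g0 z.2.1) * cM (mat T) = cM (g0 z'.2.1) := by
  rw [r.g.eq, cM_mul, cM_mul, cM_tr]

theorem qj : qJ z = qJ z' := by rw [qJ, qJ, r.fj, r.c.qq, r.gc]

theorem ze : ZE z = cM (mat T) * ZE z' * cM (mat T)⁻¹ := by rw [ZE, ZE, r.fj, r.c.Ze, r.gc]

theorem rz : rM (ZE z) * mat T = mat T * rM (ZE z') := by
  rw [r.ze, rM_cj, mul_assoc, r.g.ia, mul_one]

theorem rz2 : rM (ZE z) * rM (ZE z) * mat T = mat T * (rM (ZE z') * rM (ZE z')) := by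
  rw [mul_assoc, r.rz, ← mul_assoc, r.rz, mul_assoc]

theorem pl : pl z = T (pl z') := by
  rw [P354YN.pl, P354YN.pl, T_vc, r.vj, mulVec_mulVec, mulVec_mulVec, smul_mul_assoc, sub_mul,
    r.rz, r.rz2, mul_smul_comm, mul_sub]

theorem pn : pn z = T (pn z') := by
  rw [P354YN.pn, P354YN.pn, T_vc, r.vj, mulVec_mulVec, mulVec_mulVec, smul_mul_assoc, add_mul,
    r.rz, r.rz2, mul_smul_comm, mul_add]

theorem mu : muJ z = muJ z' := by rw [muJ, muJ, r.pl, r.vj, ← T_vc, r.g.ip T rfl]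

theorem lj : T (lJ z') = lJ z := by rw [lJ, lJ, r.mu, r.pl, map_smul]

theorem nj : T (nJ z') = nJ z := by rw [nJ, nJ, r.mu, r.pn, map_neg, map_smul]

theorem zj : T (zJ z') = zJ z := by
  rw [zJ, zJ, map_neg, T_vc, r.ze, r.gr, mulVec_mulVec, mul_assoc, ← cM_mul, r.g.ia, cM_one, mul_one,
    ← mulVec_mulVec, rV_mv]

end R3

end Vale.Agent.P354YN.Na
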