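import Vale.Agent.P354YN.Frm
import Vale.Agent.P354YN.Smo

/-!
NAT: existence of a transverse frame, and the natural vectors in a transverse frame.
-/

set_option linter.all false

open Matrix Complex Filter Topology

noncomputable section

namespace Vale.Agent.P354YN

theorem d0_pos : 0 < d0 := ph_ex.choose_spec.choose_spec.1
theorem ph_left : ∀ᶠ y in 𝓝 (2 : ℂ), ph (y ^ 3 / (3 * y + 2)) = y :=
  ph_ex.choose_spec.choose_spec.2.2

/-- The eigenvalue is a simple root of the cubic. -/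
structure Rt (W : M6) : Prop where
  cub : lam W ^ 3 = iI W / 2 * lam W + iJ W / 3
  ne : lam W * (3 * lam W ^ 2 - iI W / 2) ≠ 0

theorem Ok.rt {W : M6} (h : Ok W) : Rt W := by
  refine ⟨?_, mul_ne_zero h.l h.d⟩
  have a := (ph_spec _ h.s).2.1
  have i := h.i
  have j := h.j
  have e : iI W ^ 3 = 6 * iJ W ^ 2 * iS W := by rw [iS]; field_simp
  rw [lam]
  field_simp
  linear_combination 6 * iJ W ^ 2 * a - (3 * ph (iS W) + 2) * e

theorem Cv.rt {L K : M4} {W W' : M6} (c : Cv L K W W') (r : Rt W) : Rt W' :=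
  ⟨by rw [← c.lam, ← c.iI, ← c.iJ]; exact r.cub, by rw [← c.lam, ← c.iI]; exact r.ne⟩

theorem sqrt_sq {z : ℂ} (h : 0 < z.re) : (z ^ 2) ^ (1 / 2 : ℂ) = z := by
  have := abs_arg_lt_pi_div_two_iff.2 (Or.inl h)
  rw [abs_lt] at this
  rw [one_div]
  exact sq_cpow_two_inv h

theorem sq_sqrt (z : ℂ) : (z ^ (1 / 2 : ℂ)) ^ 2 = z := by
  rw [one_div]
  exact cpow_ofNat_inv_pow z 2

theorem qq3 (M : M3t) (F : Fin 6 → ℂ) : qq eta (E3 * M * C3) F =
    -2 * ((pj3 M (lam (E3 * M * C3)) (iI (E3 * M * C3)) *ᵥ (C3 *ᵥ F)) ⬝ᵥ (Ga *ᵥ (C3 *ᵥ F))) := by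
  rw [qq, Pj3, ← mulVec_mulVec, ← mulVec_mulVec, mulVec_mulVec F Ga, ← EG, ← mulVec_mulVec,
    dotProduct_mulVec _ E3ᵀ, vecMul_transpose]

/-- The product of the eigenbivector with the bivector of w and v. -/
def zp (G : M4) (l n s w v : C4) : ℂ :=
  gm G l w * gm G n v - gm G n w * gm G l v - gm G s w * gm G (star s) v + gm G (star s) w * gm G s v

namespace Pt
variable {G h : M4} {u : ℝ} {R : M6} {l n s : C4} (P : Pt G h u R) (N : NF G l n s)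
include P N

theorem back (z : Fin 3 → ℂ) :
    C3 *ᵥ (L2 (eta * fr l n s * G) *ᵥ (L2 (fr l n s)ᵀ *ᵥ (E3 *ᵥ z))) = z := by
  rw [mulVec_mulVec _ (L2 _), (P.cv N).ba, one_mulVec, mulVec_mulVec, CE, one_mulVec]

theorem act (z : Fin 3 → ℂ) : Wp h u R *ᵥ (L2 (fr l n s)ᵀ *ᵥ (E3 *ᵥ z)) =
    L2 (fr l n s)ᵀ *ᵥ (E3 *ᵥ (MF R l n s *ᵥ z)) := by
  rw [(P.cv N).eq]
  simp only [← mulVec_mulVec, P.back N]

theorem eig {c : ℂ} (e : Wp h u R *ᵥ zc l n s = c • zc l n s) :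
    y1 R l n s = 0 ∧ y3 R l n s = 0 ∧ c = 2 * y2 R l n s := by
  have z : zc l n s = L2 (fr l n s)ᵀ *ᵥ (E3 *ᵥ ![0, 1, 0]) := by rw [L2E]; simp
  have e1 := congrArg (fun x => C3 *ᵥ (L2 (eta * fr l n s * G) *ᵥ x)) e
  simp only [z, P.act N, mulVec_smul, P.back N] at e1
  have e2 := all3.1 (congrFun e1)
  simp only [mulVec, dotProduct, Fin.sum_univ_three] at e2
  simp [MF, M3] at e2
  exact ⟨e2.2.2, e2.1, e2.2.1.symm⟩

theorem ex_tf (r : Rt (Wp h u R)) (F : Fin 6 → ℂ) (hq : qq G (Wp h u R) F ≠ 0) :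
    ∃ l n s, NF G l n s ∧ y1 R l n s = 0 ∧ y3 R l n s = 0 ∧ lam (Wp h u R) = 2 * y2 R l n s := by
  have v := P.cv N
  have r' := v.rt r
  have e : F = L2 (fr l n s)ᵀ *ᵥ (L2 (eta * fr l n s * G) *ᵥ F) := by
    rw [mulVec_mulVec, v.ab, one_mulVec]
  rw [e, v.qq, P.gram N, qq3] at hq
  have k := pj3_eig (M := MF R l n s) (l := lam (E3 * MF R l n s * C3)) rfl
    (by rw [← iI3, ← iJ3]; exact r'.cub) (by rw [← iI3]; exact r'.ne)
    (C3 *ᵥ (L2 (eta * fr l n s * G) *ᵥ F)) _ rfl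
  rw [← iI3] at k
  rw [k.2] at hq
  have k1 := k.1
  generalize pj3 _ _ _ *ᵥ _ = z at hq k1
  rw [← v.lam] at k1
  have h0 : z 1 ^ 2 + z 0 * z 2 ≠ 0 := fun o => hq (by rw [o]; simp)
  obtain ⟨c, c1, c2⟩ : ∃ c : ℂ, c ^ 2 * (z 1 ^ 2 + z 0 * z 2) = 1 ∧ 1 + c * z 1 ≠ 0 := by
    have a := sq_sqrt (z 1 ^ 2 + z 0 * z 2)⁻¹
    generalize (z 1 ^ 2 + z 0 * z 2)⁻¹ ^ (1 / 2 : ℂ) = c at a
    by_cases o : 1 + c * z 1 = 0
    · exact ⟨-c, by rw [neg_sq, a, inv_mul_cancel₀ h0], fun o' => one_ne_zero (α := ℂ)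
        (by linear_combination (o + o') / 2)⟩
    · exact ⟨c, by rw [a, inv_mul_cancel₀ h0], o⟩
  have N2 := P.rot2 (P.rot1 N (-(c * z 2) / (1 + c * z 1))) (c * z 0 / 2)
  refine ⟨_, _, _, N2, P.eig N2 ?_⟩
  have e2 : ∀ a b : ℂ, a = -(c * z 2) / (1 + c * z 1) → b = c * z 0 / 2 →
      (2 * b) • wg l s + (1 + 2 * a * b) • zc l n s + (-(2 * a * (1 + a * b))) • wg n (star s) =
      L2 (fr l n s)ᵀ *ᵥ (E3 *ᵥ (c • z)) := fun a b ha hb => by
    have a1 : a * (1 + c * z 1) = -(c * z 2) := by rw [ha]; field_simp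
    have a2 : 1 + 2 * a * b = c * z 1 := mul_right_cancel₀ c2 (by
      rw [hb]; linear_combination c * z 0 * a1 - c1)
    rw [L2E, a2, show 2 * b = c * z 0 by rw [hb]; ring,
      show -(2 * a * (1 + a * b)) = c * z 2 by linear_combination -a * a2 - a1]
    rfl
  rw [zc_rot N.rl N.rn _ _ rfl rfl, e2 _ _ rfl rfl, P.act N]
  simp only [mulVec_smul, k1]
  exact smul_comm _ _ _

theorem kv (w : C4) : (eta * fr l n s * G) *ᵥ w =
    ![-gm G n w, -gm G l w, gm G (star s) w, gm G s w] := by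
  refine funext (all4.2 ?_)
  simp only [← mulVec_mulVec, gm]
  generalize G *ᵥ w = y
  simp only [mulVec, dotProduct, Fin.sum_univ_four, frv]
  simp [eta]

theorem inv_tf (h1 : y1 R l n s = 0) (h3 : y3 R l n s = 0) :
    iI (Wp h u R) = 6 * y2 R l n s ^ 2 + 2 * y0 R l s * y0 R n (star s) ∧
    iJ (Wp h u R) = 6 * y2 R l n s ^ 3 - 6 * y0 R l s * y2 R l n s * y0 R n (star s) := by
  have v := P.cv N
  rw [v.iI, v.iJ, iI3, iJ3, MF, h1, h3, M3_tr.1, M3_tr.2]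
  constructor <;> ring

theorem tf_Ze (r : Rt (Wp h u R)) (h1 : y1 R l n s = 0) (h3 : y3 R l n s = 0)
    (h2 : lam (Wp h u R) = 2 * y2 R l n s) (w v : C4) :
    qq G (Wp h u R) (wg w v) = zp G l n s w v ^ 2 ∧
      (0 < (zp G l n s w v).re → Ze G (Wp h u R) (wg w v) = zop G l n s) := by
  have c := P.cv N
  have i := (P.inv_tf N h1 h3).1
  have e : wg w v = L2 (fr l n s)ᵀ *ᵥ wg ((eta * fr l n s * G) *ᵥ w) ((eta * fr l n s * G) *ᵥ v) := by
    rw [← L2_wg, mulVec_mulVec, c.ab, one_mulVec]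
  have p : pj3 (MF R l n s) (lam (E3 * MF R l n s * C3)) (iI (E3 * MF R l n s * C3)) =
      !![0, 0, 0; 0, 1, 0; 0, 0, 0] := by
    rw [← c.lam, ← c.iI, h2, i, MF, h1, h3]
    exact pj3_tf (by rw [← h2, ← i]; exact r.ne)
  have q : qq eta (E3 * MF R l n s * C3)
      (wg ((eta * fr l n s * G) *ᵥ w) ((eta * fr l n s * G) *ᵥ v)) = zp G l n s w v ^ 2 := by
    rw [qq3, p, P.kv N, P.kv N]
    simp only [mulVec, dotProduct, Fin.sum_univ_three, Fin.sum_univ_six, wg, pv]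
    simp [C3, Ga, zp]
    ring
  refine ⟨by rw [e, c.qq, P.gram N, q], fun o => ?_⟩
  have z0 : zp G l n s w v ≠ 0 := fun k => by rw [k] at o; simp at o
  have d : Ze eta (E3 * MF R l n s * C3)
      (wg ((eta * fr l n s * G) *ᵥ w) ((eta * fr l n s * G) *ᵥ v)) = D4 := by
    rw [Ze, q, sqrt_sq o, Pj3, p, P.kv N, P.kv N]
    refine Matrix.ext ?_
    simp only [all4, Matrix.smul_apply, mul_apply, amv, mulVec, dotProduct, Fin.sum_univ_three,
      Fin.sum_univ_four, Fin.sum_univ_six, wg, pv, smul_eq_mul]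
    simp [C3, E3, eta, D4]
    refine ⟨?_, ?_, ?_, ?_⟩ <;> field_simp <;> simp only [zp] <;> ring
  rw [e, c.Ze, P.gram N, d]
  ext a b
  simp only [zop, mul_apply, transpose_apply, Fin.sum_univ_four, frv, Matrix.add_apply,
    Matrix.sub_apply, vecMulVec_apply, mulVec, dotProduct,
    fun i => show G b i = G i b from congrFun (congrFun P.gs i) b]
  simp [eta, D4]
  ring

end Pt

end Vale.Agent.P354YN
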